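import Mathlib

namespace Vale.Agent.Lib.P249

section Balls

variable {V : Type*} [Fintype V]

/-- the closed ball as a finset -/
noncomputable def ball (δ : V → V → ℝ) (a : V) (ρ : ℝ) : Finset V :=
  Finset.univ.filter (fun k => δ a k ≤ ρ)

lemma mem_ball (δ : V → V → ℝ) (a k : V) (ρ : ℝ) : k ∈ ball δ a ρ ↔ δ a k ≤ ρ := by
  simp [ball]

/-- the weight of an ordered pair: reciprocal of the size of the ball through it -/
noncomputable def cw (δ : V → V → ℝ) (a w : V) : ℝ := 1 / ((ball δ a (δ a w)).card : ℝ)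

lemma cw_nonneg (δ : V → V → ℝ) (a w : V) : 0 ≤ cw δ a w := by
  unfold cw; positivity

lemma harmonic_aux {α : Type*} (φ : α → ℝ) [DecidableEq α] (X : Finset α) :
    ∑ w ∈ X, 1 / (((X.filter (fun k => φ k ≤ φ w)).card : ℕ) : ℝ) ≤ ((harmonic X.card : ℚ) : ℝ) := by
  induction X using Finset.induction_on_max_value φ with
  | empty => simp
  | insert a s has hmax ih =>
    rw [Finset.sum_insert has, Finset.card_insert_of_notMem has, harmonic_succ]
    push_cast
    have h1 : (insert a s).filter (fun k => φ k ≤ φ a) = insert a s := by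
      apply Finset.filter_true_of_mem
      intro k hk
      rcases Finset.mem_insert.mp hk with rfl | hk'
      · exact le_rfl
      · exact hmax k hk'
    rw [h1, Finset.card_insert_of_notMem has]
    have h2 : ∑ w ∈ s, 1 / (((insert a s).filter (fun k => φ k ≤ φ w)).card : ℝ)
        ≤ ∑ w ∈ s, 1 / ((s.filter (fun k => φ k ≤ φ w)).card : ℝ) := by
      refine Finset.sum_le_sum (fun w hw => ?_)
      have hpos : 0 < (s.filter (fun k => φ k ≤ φ w)).card := by
        apply Finset.card_pos.mpr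
        exact ⟨w, Finset.mem_filter.mpr ⟨hw, le_rfl⟩⟩
      have hle : (s.filter (fun k => φ k ≤ φ w)).card
          ≤ ((insert a s).filter (fun k => φ k ≤ φ w)).card := by
        apply Finset.card_le_card
        intro k hk
        rw [Finset.mem_filter] at hk ⊢
        exact ⟨Finset.mem_insert_of_mem hk.1, hk.2⟩
      apply one_div_le_one_div_of_le
      · exact_mod_cast hpos
      · exact_mod_cast hle
    have h3 : (1 : ℝ) / ((s.card : ℝ) + 1) = (((s.card : ℝ) + 1))⁻¹ := by simp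
    simp only [Nat.cast_add, Nat.cast_one] at *
    linarith

lemma sum_cw_le (δ : V → V → ℝ) (a : V) :
    ∑ w, cw δ a w ≤ 1 + Real.log (Fintype.card V) := by
  classical
  have h := harmonic_aux (δ a) (Finset.univ : Finset V)
  have h2 : ∑ w, cw δ a w = ∑ w, 1 / (((Finset.univ.filter (fun k => δ a k ≤ δ a w)).card : ℕ) : ℝ) := by
    rfl
  rw [h2]
  refine le_trans h ?_
  rw [Finset.card_univ]
  exact harmonic_le_one_add_log _

/-- the slope of `f` on an ordered pair, raised to the power `p` -/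
noncomputable def slope (δ : V → V → ℝ) (p : ℝ) (f : V → ℝ) (a w : V) : ℝ :=
  |f a - f w| ^ p / δ a w ^ p

/-- the weighted energy of `f` -/
noncomputable def energy (δ : V → V → ℝ) (p : ℝ) (f : V → ℝ) : ℝ :=
  ∑ a, ∑ w, cw δ a w * slope δ p f a w

omit [Fintype V] in
lemma slope_nonneg (δ : V → V → ℝ) (hδ0 : ∀ a b, 0 ≤ δ a b) (p : ℝ) (f : V → ℝ) (a w : V) :
    0 ≤ slope δ p f a w := by
  unfold slope
  exact div_nonneg (Real.rpow_nonneg (abs_nonneg _) _) (Real.rpow_nonneg (hδ0 _ _) _)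

lemma energy_nonneg (δ : V → V → ℝ) (hδ0 : ∀ a b, 0 ≤ δ a b) (p : ℝ) (f : V → ℝ) :
    0 ≤ energy δ p f := by
  unfold energy
  exact Finset.sum_nonneg (fun a _ => Finset.sum_nonneg (fun w _ =>
    mul_nonneg (cw_nonneg δ a w) (slope_nonneg δ hδ0 p f a w)))

lemma abs_rpow_le_mul_slope (δ : V → V → ℝ) (hδ0 : ∀ a b, 0 ≤ δ a b) (p : ℝ) (hp : 1 ≤ p)
    (f : V → ℝ) (hf : ∀ a b, δ a b = 0 → f a = f b) (a w : V) (R : ℝ) (h : δ a w ≤ R) :
    |f a - f w| ^ p ≤ R ^ p * slope δ p f a w := by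
  have hp0 : 0 < p := by linarith
  by_cases hz : δ a w = 0
  · have h1 : f a = f w := hf a w hz
    have h0R : 0 ≤ R := by linarith [hδ0 a w]
    have hs := slope_nonneg δ hδ0 p f a w
    rw [h1, sub_self, abs_zero, Real.zero_rpow hp0.ne']
    exact mul_nonneg (Real.rpow_nonneg h0R _) hs
  · have hpos : 0 < δ a w := lt_of_le_of_ne (hδ0 a w) (Ne.symm hz)
    have hpp : 0 < δ a w ^ p := Real.rpow_pos_of_pos hpos _
    unfold slope
    have h2 : δ a w ^ p ≤ R ^ p := Real.rpow_le_rpow hpos.le h hp0.le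
    have h3 : |f a - f w| ^ p = δ a w ^ p * (|f a - f w| ^ p / δ a w ^ p) := by
      field_simp
    rw [h3]
    have h4 : 0 ≤ |f a - f w| ^ p / δ a w ^ p :=
      div_nonneg (Real.rpow_nonneg (abs_nonneg _) _) hpp.le
    have h5 : δ a w ^ p * (|f a - f w| ^ p / δ a w ^ p) / δ a w ^ p = |f a - f w| ^ p / δ a w ^ p := by
      field_simp
    rw [h5]
    exact mul_le_mul_of_nonneg_right h2 h4

lemma rpow_abs_sub_le (u v w : ℝ) (p : ℝ) (hp : 1 ≤ p) :
    |u - v| ^ p ≤ 2 ^ (p - 1) * (|u - w| ^ p + |v - w| ^ p) := by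
  have h1 : |u - v| ≤ |u - w| + |v - w| := by
    have := abs_sub_le u w v
    rwa [abs_sub_comm w v] at this
  have hp0 : 0 ≤ p := by linarith
  have h2 : |u - v| ^ p ≤ (|u - w| + |v - w|) ^ p :=
    Real.rpow_le_rpow (abs_nonneg _) h1 hp0
  have h3 := NNReal.rpow_add_le_mul_rpow_add_rpow (⟨|u - w|, abs_nonneg _⟩ : NNReal)
    (⟨|v - w|, abs_nonneg _⟩ : NNReal) hp
  have h4 : (|u - w| + |v - w|) ^ p ≤ 2 ^ (p - 1) * (|u - w| ^ p + |v - w| ^ p) := by
    exact_mod_cast h3
  linarith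

lemma pair_bound [DecidableEq V] (δ : V → V → ℝ) (p : ℝ) (hp : 1 ≤ p) (f : V → ℝ)
    (hδ0 : ∀ a b, 0 ≤ δ a b) (hf : ∀ a b, δ a b = 0 → f a = f b)
    (a a' : V) (haa' : a ≠ a') (R β : ℝ) (hR : 0 ≤ R) (hβ : 1 ≤ β)
    (A A' : Finset V) (hAne : A.Nonempty) (hAA' : A ⊆ A')
    (hcard : (A'.card : ℝ) ≤ β * A.card)
    (hR1 : ∀ w ∈ A, δ a w ≤ R) (hR2 : ∀ w ∈ A, δ a' w ≤ R)
    (hb1 : ∀ w ∈ A, ball δ a (δ a w) ⊆ A) (hb2 : ∀ w ∈ A, ball δ a' (δ a' w) ⊆ A') :
    |f a - f a'| ^ p ≤ 2 ^ (p - 1) * R ^ p * β * energy δ p f := by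
  have hp0 : 0 < p := by linarith
  have hCpos : (0:ℝ) < A.card := by exact_mod_cast Finset.card_pos.mpr hAne
  have h2p : (0:ℝ) ≤ 2 ^ (p - 1) := by positivity
  have hRp : (0:ℝ) ≤ R ^ p := by positivity
  have hβ0 : (0:ℝ) ≤ β := by linarith
  have hD : ∀ w ∈ A, |f a - f a'| ^ p
      ≤ 2 ^ (p - 1) * R ^ p * (slope δ p f a w + slope δ p f a' w) := by
    intro w hw
    have h1 := rpow_abs_sub_le (f a) (f a') (f w) p hp
    have h2 := abs_rpow_le_mul_slope δ hδ0 p hp f hf a w R (hR1 w hw)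
    have h3 := abs_rpow_le_mul_slope δ hδ0 p hp f hf a' w R (hR2 w hw)
    calc |f a - f a'| ^ p ≤ 2 ^ (p - 1) * (|f a - f w| ^ p + |f a' - f w| ^ p) := h1
      _ ≤ 2 ^ (p - 1) * (R ^ p * slope δ p f a w + R ^ p * slope δ p f a' w) := by
          exact mul_le_mul_of_nonneg_left (add_le_add h2 h3) h2p
      _ = _ := by ring
  have hc1 : ∀ w ∈ A, 1 / (A.card : ℝ) ≤ β * cw δ a w := by
    intro w hw
    have hpos : (0:ℝ) < (ball δ a (δ a w)).card := by
      have : w ∈ ball δ a (δ a w) := by rw [mem_ball]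
      exact_mod_cast Finset.card_pos.mpr ⟨w, this⟩
    have hle : ((ball δ a (δ a w)).card : ℝ) ≤ A.card := by
      exact_mod_cast Finset.card_le_card (hb1 w hw)
    unfold cw
    have : 1 / (A.card : ℝ) ≤ 1 / ((ball δ a (δ a w)).card : ℝ) :=
      one_div_le_one_div_of_le hpos hle
    have h0 : 0 ≤ 1 / ((ball δ a (δ a w)).card : ℝ) := by positivity
    nlinarith
  have hc2 : ∀ w ∈ A, 1 / (A.card : ℝ) ≤ β * cw δ a' w := by
    intro w hw
    have hpos : (0:ℝ) < (ball δ a' (δ a' w)).card := by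
      have : w ∈ ball δ a' (δ a' w) := by rw [mem_ball]
      exact_mod_cast Finset.card_pos.mpr ⟨w, this⟩
    have hle : ((ball δ a' (δ a' w)).card : ℝ) ≤ A'.card := by
      exact_mod_cast Finset.card_le_card (hb2 w hw)
    unfold cw
    rw [div_le_iff₀ hCpos]
    have h2 : β * (1 / ((ball δ a' (δ a' w)).card : ℝ)) * (A.card : ℝ)
        = (β * A.card) / ((ball δ a' (δ a' w)).card : ℝ) := by ring
    rw [h2, le_div_iff₀ hpos]
    linarith
  have hsl := fun c w => slope_nonneg δ hδ0 p f c w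
  have hmain : |f a - f a'| ^ p = ∑ w ∈ A, (1 / (A.card : ℝ)) * |f a - f a'| ^ p := by
    rw [Finset.sum_const, nsmul_eq_mul]
    field_simp
  rw [hmain]
  have hstep : ∀ w ∈ A, (1 / (A.card : ℝ)) * |f a - f a'| ^ p
      ≤ 2 ^ (p - 1) * R ^ p * β * (cw δ a w * slope δ p f a w + cw δ a' w * slope δ p f a' w) := by
    intro w hw
    have hK : (0:ℝ) ≤ 2 ^ (p - 1) * R ^ p := mul_nonneg h2p hRp
    have h1 := hD w hw
    have hinv : 0 ≤ 1 / (A.card : ℝ) := one_div_nonneg.mpr (Nat.cast_nonneg _)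
    calc (1 / (A.card : ℝ)) * |f a - f a'| ^ p
        ≤ (1 / (A.card : ℝ)) * (2 ^ (p - 1) * R ^ p * (slope δ p f a w + slope δ p f a' w)) :=
          mul_le_mul_of_nonneg_left h1 hinv
      _ = 2 ^ (p - 1) * R ^ p * ((1 / (A.card : ℝ)) * slope δ p f a w
            + (1 / (A.card : ℝ)) * slope δ p f a' w) := by ring
      _ ≤ 2 ^ (p - 1) * R ^ p * ((β * cw δ a w) * slope δ p f a w
            + (β * cw δ a' w) * slope δ p f a' w) := by
          apply mul_le_mul_of_nonneg_left _ hK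
          exact add_le_add (mul_le_mul_of_nonneg_right (hc1 w hw) (hsl _ _))
            (mul_le_mul_of_nonneg_right (hc2 w hw) (hsl _ _))
      _ = _ := by ring
  refine le_trans (Finset.sum_le_sum hstep) ?_
  rw [← Finset.mul_sum]
  apply mul_le_mul_of_nonneg_left _ (mul_nonneg (mul_nonneg h2p hRp) hβ0)
  rw [Finset.sum_add_distrib]
  have hrow : ∀ c, ∑ w ∈ A, cw δ c w * slope δ p f c w ≤ ∑ w, cw δ c w * slope δ p f c w := by
    intro c
    apply Finset.sum_le_sum_of_subset_of_nonneg (Finset.subset_univ _)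
    intro w _ _
    exact mul_nonneg (cw_nonneg δ c w) (hsl _ _)
  have hsub : ∑ c ∈ ({a, a'} : Finset V), ∑ w, cw δ c w * slope δ p f c w ≤ energy δ p f := by
    unfold energy
    apply Finset.sum_le_sum_of_subset_of_nonneg (Finset.subset_univ _)
    intro c _ _
    exact Finset.sum_nonneg (fun w _ => mul_nonneg (cw_nonneg δ c w) (hsl _ _))
  rw [Finset.sum_pair haa'] at hsub
  linarith [hrow a, hrow a']

lemma exists_growth_le (t : ℕ → ℝ) (h0 : 1 ≤ t 0) (L : ℕ) (hL : 1 ≤ L)
    (n : ℝ) (hn : 1 ≤ n) (hLn : t L ≤ n) :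
    ∃ m, m < L ∧ t (m + 1) ≤ n ^ ((L : ℝ)⁻¹) * t m := by
  by_contra hcon
  push Not at hcon
  set β := n ^ ((L : ℝ)⁻¹) with hβ
  have hβ1 : 1 ≤ β := Real.one_le_rpow hn (by positivity)
  have hind : ∀ m, m ≤ L → β ^ m ≤ t m := by
    intro m
    induction m with
    | zero => intro _; simpa using h0
    | succ m ih =>
      intro hm
      have h1 := ih (by omega)
      have h2 := hcon m (by omega)
      rw [pow_succ]
      nlinarith
  have hL' : L - 1 + 1 = L := by omega
  have h3 := hind (L - 1) (by omega)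
  have h4 := hcon (L - 1) (by omega)
  rw [hL'] at h4
  have h5 : β ^ L = n := by
    rw [hβ]
    exact Real.rpow_inv_natCast_pow (by linarith) (by omega)
  have h6 : β ^ L = β ^ (L - 1) * β := by
    rw [← pow_succ, hL']
  have h7 : n < t L := by
    calc n = β ^ (L - 1) * β := by rw [← h6, h5]
      _ ≤ t (L - 1) * β := mul_le_mul_of_nonneg_right h3 (by linarith)
      _ = β * t (L - 1) := by ring
      _ < t L := h4
  linarith

lemma chain_bound [DecidableEq V] (δ : V → V → ℝ) (p : ℝ) (hp : 1 ≤ p) (f : V → ℝ)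
    (hδ0 : ∀ a b, 0 ≤ δ a b) (hδs : ∀ a b, δ a b = δ b a)
    (hδt : ∀ a b c, δ a c ≤ δ a b + δ b c) (hδr : ∀ a, δ a a = 0)
    (hf : ∀ a b, δ a b = 0 → f a = f b)
    (i j : V) (hij : 0 < δ i j) (L : ℕ) (hL : 1 ≤ L) :
    |f i - f j| ^ p ≤ 2 ^ (p - 1) * (((L : ℝ) + 1) * δ i j) ^ p
      * ((Fintype.card V : ℝ) ^ ((L : ℝ)⁻¹)) * energy δ p f := by
  set r := δ i j with hr
  have hne : i ≠ j := by
    rintro rfl
    rw [hδr] at hr
    linarith
  let ctr : ℕ → V := fun m => if Even m then i else j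
  have hctr : ∀ m, δ (ctr (m + 1)) (ctr m) = r := by
    intro m
    by_cases hm : Even m
    · have : ¬ Even (m + 1) := by
        simpa [Nat.even_add_one] using hm
      simp only [ctr, hm, this, if_true, if_false]
      rw [hδs]
    · have : Even (m + 1) := by
        simpa [Nat.even_add_one] using hm
      simp only [ctr, hm, this, if_true, if_false]
      rfl
  have hctrne : ∀ m, ctr m ≠ ctr (m + 1) := by
    intro m h
    have h1 := hctr m
    rw [← h, hδr] at h1
    rw [← h1] at hij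
    exact lt_irrefl _ hij
  let B : ℕ → Finset V := fun m => ball δ (ctr m) (((m : ℝ) + 1) * r)
  let t : ℕ → ℝ := fun m => ((B m).card : ℝ)
  have hcardV : (1:ℝ) ≤ Fintype.card V := by
    have : 0 < Fintype.card V := Fintype.card_pos_iff.mpr ⟨i⟩
    exact_mod_cast this
  have hmem : ∀ m, ctr m ∈ B m := by
    intro m
    simp only [B]
    rw [mem_ball, hδr]
    positivity
  have h0 : (1:ℝ) ≤ t 0 := by
    have : 0 < (B 0).card := Finset.card_pos.mpr ⟨_, hmem 0⟩
    simp only [t]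
    exact_mod_cast this
  have hLn : t L ≤ (Fintype.card V : ℝ) := by
    simp only [t]
    exact_mod_cast Finset.card_le_univ _
  obtain ⟨m, hmL, hm⟩ := exists_growth_le t h0 L hL _
    hcardV hLn
  have hsub : B m ⊆ B (m + 1) := by
    intro k hk
    simp only [B] at hk ⊢
    rw [mem_ball] at hk ⊢
    have h1 := hδt (ctr (m + 1)) (ctr m) k
    rw [hctr m] at h1
    push_cast
    nlinarith
  have hβ1 : 1 ≤ (Fintype.card V : ℝ) ^ ((L : ℝ)⁻¹) := Real.one_le_rpow hcardV (by positivity)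
  have hmL' : ((m : ℝ) + 1) ≤ (L : ℝ) := by exact_mod_cast hmL
  have hrpos : 0 ≤ r := hij.le
  have key := pair_bound δ p hp f hδ0 hf (ctr m) (ctr (m + 1)) (hctrne m)
    (((L : ℝ) + 1) * r) ((Fintype.card V : ℝ) ^ ((L : ℝ)⁻¹)) (by positivity) hβ1
    (B m) (B (m + 1)) ⟨_, hmem m⟩ hsub hm
    (by
      intro w hw
      simp only [B] at hw
      rw [mem_ball] at hw
      refine le_trans hw ?_
      apply mul_le_mul_of_nonneg_right _ hrpos
      linarith)
    (by
      intro w hw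
      have := hsub hw
      simp only [B] at this
      rw [mem_ball] at this
      refine le_trans this ?_
      apply mul_le_mul_of_nonneg_right _ hrpos
      push_cast
      linarith)
    (by
      intro w hw k hk
      simp only [B] at hw ⊢
      rw [mem_ball] at hw hk ⊢
      linarith)
    (by
      intro w hw k hk
      have := hsub hw
      simp only [B] at this ⊢
      rw [mem_ball] at this hk ⊢
      linarith)
  have habs : |f (ctr m) - f (ctr (m + 1))| = |f i - f j| := by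
    by_cases hmE : Even m
    · have : ¬ Even (m + 1) := by
        simpa [Nat.even_add_one] using hmE
      simp only [ctr, hmE, this, if_true, if_false]
    · have : Even (m + 1) := by
        simpa [Nat.even_add_one] using hmE
      simp only [ctr, hmE, this, if_true, if_false]
      exact abs_sub_comm _ _
  rw [habs] at key
  exact key

end Balls

end Vale.Agent.Lib.P249
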