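import Mathlib
import Vale.Agent.Lib.P249.Balls

namespace Vale.Agent.Lib.P249

section Rank

variable {V : Type*} [Fintype V] [LinearOrder V]

/-- the tie-broken position of `w` in the order of distance from `a` -/
noncomputable def rk (δ : V → V → ℝ) (a w : V) : ℕ :=
  (Finset.univ.filter (fun k => toLex (δ a k, k) ≤ toLex (δ a w, w))).card

lemma rk_pos (δ : V → V → ℝ) (a w : V) : 1 ≤ rk δ a w := by
  unfold rk
  apply Finset.card_pos.mpr
  exact ⟨w, by simp⟩

lemma rk_le_card_ball (δ : V → V → ℝ) (a w : V) : rk δ a w ≤ (ball δ a (δ a w)).card := by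
  unfold rk
  apply Finset.card_le_card
  intro k hk
  rw [Finset.mem_filter, Prod.Lex.toLex_le_toLex] at hk
  rw [mem_ball]
  rcases hk.2 with h | h
  · exact le_of_lt h
  · exact le_of_eq h.1

lemma rk_lt (δ : V → V → ℝ) (a v w : V) (h : toLex (δ a v, v) < toLex (δ a w, w)) :
    rk δ a v < rk δ a w := by
  unfold rk
  apply Finset.card_lt_card
  rw [Finset.ssubset_iff_of_subset]
  · refine ⟨w, by simp, ?_⟩
    simp only [Finset.mem_filter, Finset.mem_univ, true_and, not_le]
    exact h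
  · intro k hk
    simp only [Finset.mem_filter, Finset.mem_univ, true_and] at hk ⊢
    exact le_trans hk h.le

lemma rk_injective (δ : V → V → ℝ) (a : V) : Function.Injective (rk δ a) := by
  intro v w hvw
  by_contra hne
  have hkey : toLex (δ a v, v) ≠ toLex (δ a w, w) := by
    intro h
    have := congrArg ofLex h
    simp only [ofLex_toLex, Prod.mk.injEq] at this
    exact hne this.2
  rcases lt_or_gt_of_ne hkey with h | h
  · have := rk_lt δ a v w h
    omega
  · have := rk_lt δ a w v h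
    omega

lemma rk_le_card (δ : V → V → ℝ) (a w : V) : rk δ a w ≤ Fintype.card V := by
  unfold rk
  exact Finset.card_le_univ _

lemma image_rk (δ : V → V → ℝ) (a : V) :
    (Finset.univ.image (rk δ a)) = Finset.Icc 1 (Fintype.card V) := by
  apply Finset.eq_of_subset_of_card_le
  · intro k hk
    rw [Finset.mem_image] at hk
    obtain ⟨w, _, rfl⟩ := hk
    rw [Finset.mem_Icc]
    exact ⟨rk_pos δ a w, rk_le_card δ a w⟩
  · rw [Finset.card_image_of_injective _ (rk_injective δ a)]
    simp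

/-- the first `m` points in the order of distance from `a` -/
noncomputable def low (δ : V → V → ℝ) (a : V) (m : ℕ) : Finset V :=
  Finset.univ.filter (fun v => rk δ a v ≤ m)

lemma mem_low (δ : V → V → ℝ) (a : V) (m : ℕ) (v : V) : v ∈ low δ a m ↔ rk δ a v ≤ m := by
  simp [low]

lemma card_low (δ : V → V → ℝ) (a : V) (m : ℕ) (hm : m ≤ Fintype.card V) :
    (low δ a m).card = m := by
  have h : (low δ a m).image (rk δ a) = Finset.Icc 1 m := by
    ext k
    simp only [Finset.mem_image, mem_low, Finset.mem_Icc]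
    constructor
    · rintro ⟨v, hv, rfl⟩
      exact ⟨rk_pos δ a v, hv⟩
    · rintro ⟨h1, h2⟩
      have : k ∈ Finset.univ.image (rk δ a) := by
        rw [image_rk, Finset.mem_Icc]
        exact ⟨h1, le_trans h2 hm⟩
      rw [Finset.mem_image] at this
      obtain ⟨v, _, hv⟩ := this
      exact ⟨v, by omega, hv⟩
  have h2 := congrArg Finset.card h
  rw [Finset.card_image_of_injective _ (rk_injective δ a)] at h2
  simpa using h2

lemma low_subset_ball (δ : V → V → ℝ) (a : V) (m : ℕ) (ρ : ℝ)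
    (hm : m ≤ (ball δ a ρ).card) : low δ a m ⊆ ball δ a ρ := by
  intro v hv
  rw [mem_low] at hv
  rw [mem_ball]
  by_contra hcon
  push Not at hcon
  have hsub : insert v (ball δ a ρ) ⊆
      Finset.univ.filter (fun k => toLex (δ a k, k) ≤ toLex (δ a v, v)) := by
    intro k hk
    rw [Finset.mem_insert] at hk
    simp only [Finset.mem_filter, Finset.mem_univ, true_and]
    rcases hk with rfl | hk
    · exact le_rfl
    · rw [mem_ball] at hk
      rw [Prod.Lex.toLex_le_toLex]
      left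
      exact lt_of_le_of_lt hk hcon
  have hnot : v ∉ ball δ a ρ := by
    rw [mem_ball]
    exact not_le.mpr hcon
  have h1 := Finset.card_le_card hsub
  rw [Finset.card_insert_of_notMem hnot] at h1
  have h2 : rk δ a v = (Finset.univ.filter (fun k => toLex (δ a k, k) ≤ toLex (δ a v, v))).card :=
    rfl
  omega

/-- the reciprocal logarithmic gain factor -/
noncomputable def ell (k : ℝ) : ℝ := 1 + Real.log k

lemma ell_pos (k : ℝ) (hk : 1 ≤ k) : 0 < ell k := by
  unfold ell
  have := Real.log_nonneg hk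
  linarith

lemma one_le_ell (k : ℝ) (hk : 1 ≤ k) : 1 ≤ ell k := by
  unfold ell
  have := Real.log_nonneg hk
  linarith

lemma ell_mono (k k' : ℝ) (hk : 1 ≤ k) (h : k ≤ k') : ell k ≤ ell k' := by
  unfold ell
  have := Real.log_le_log (by linarith) h
  linarith

/-- the weight attached to position `k` -/
noncomputable def gw (k : ℕ) : ℝ := 1 / ((k : ℝ) * ell k ^ 2)

lemma gw_pos (k : ℕ) (hk : 1 ≤ k) : 0 < gw k := by
  unfold gw
  have h1 : (1:ℝ) ≤ k := by exact_mod_cast hk
  have := ell_pos k h1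
  positivity

lemma gw_anti (k k' : ℕ) (hk : 1 ≤ k) (h : k ≤ k') : gw k' ≤ gw k := by
  unfold gw
  have h1 : (1:ℝ) ≤ k := by exact_mod_cast hk
  have h2 : (k:ℝ) ≤ k' := by exact_mod_cast h
  apply one_div_le_one_div_of_le
  · have := ell_pos k h1
    positivity
  · have h3 := ell_mono k k' h1 h2
    have h4 := ell_pos k h1
    apply mul_le_mul h2 _ (by positivity) (by linarith)
    exact pow_le_pow_left₀ h4.le h3 2

lemma sum_gw_le (n : ℕ) (hn : 1 ≤ n) :
    ∑ k ∈ Finset.Icc 1 n, gw k ≤ 2 - 1 / ell n := by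
  induction n, hn using Nat.le_induction with
  | base =>
    simp [gw, ell]
    norm_num
  | succ n hn ih =>
    rw [Finset.sum_Icc_succ_top (by omega)]
    have h1 : (1:ℝ) ≤ n := by exact_mod_cast hn
    have h0 : (0:ℝ) < n := by linarith
    have hn1 : ((n + 1 : ℕ) : ℝ) = (n : ℝ) + 1 := by push_cast; ring
    have h2 : (1:ℝ) ≤ ((n + 1 : ℕ) : ℝ) := by rw [hn1]; linarith
    have hl1 := ell_pos n h1
    have hl2 := ell_pos ((n + 1 : ℕ) : ℝ) h2
    have hle := ell_mono n ((n + 1 : ℕ) : ℝ) h1 (by rw [hn1]; linarith)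
    have hstep : gw (n + 1) ≤ 1 / ell n - 1 / ell ((n + 1 : ℕ) : ℝ) := by
      unfold gw
      have hlog : 1 / ((n:ℝ) + 1) ≤ ell ((n + 1 : ℕ) : ℝ) - ell n := by
        unfold ell
        rw [hn1]
        have h3 := Real.one_sub_inv_le_log_of_pos (x := ((n:ℝ) + 1) / n) (by positivity)
        rw [Real.log_div (by positivity) h0.ne'] at h3
        have h4 : 1 - (((n:ℝ) + 1) / n)⁻¹ = 1 / ((n:ℝ) + 1) := by
          field_simp
          ring
        rw [h4] at h3
        linarith
      have hsub : 1 / ell n - 1 / ell ((n + 1 : ℕ) : ℝ)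
          = (ell ((n + 1 : ℕ) : ℝ) - ell n) / (ell n * ell ((n + 1 : ℕ) : ℝ)) := by
        field_simp
      rw [hsub, hn1]
      rw [hn1] at hl2 hle hlog
      have hr : 1 / (((n:ℝ) + 1) * ell ((n:ℝ) + 1) ^ 2)
          ≤ (1 / ((n:ℝ) + 1)) / (ell n * ell ((n:ℝ) + 1)) := by
        rw [div_div]
        apply one_div_le_one_div_of_le
        · positivity
        · have : ell n * ell ((n:ℝ) + 1) ≤ ell ((n:ℝ) + 1) ^ 2 := by nlinarith
          nlinarith [mul_le_mul_of_nonneg_left this (by positivity : (0:ℝ) ≤ (n:ℝ) + 1)]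
      refine le_trans hr ?_
      exact div_le_div_of_nonneg_right hlog (by positivity)
    linarith

/-- the weight of an ordered pair -/
noncomputable def rwt (δ : V → V → ℝ) (a w : V) : ℝ := gw (rk δ a w)

lemma rwt_pos (δ : V → V → ℝ) (a w : V) : 0 < rwt δ a w := gw_pos _ (rk_pos δ a w)

lemma sum_rwt_le (δ : V → V → ℝ) (a : V) : ∑ w, rwt δ a w ≤ 2 := by
  have h1 : ∑ w, rwt δ a w = ∑ k ∈ Finset.univ.image (rk δ a), gw k := by
    rw [Finset.sum_image (fun x _ y _ h => rk_injective δ a h)]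
    rfl
  rw [h1, image_rk]
  have hcard : 1 ≤ Fintype.card V := Fintype.card_pos_iff.mpr ⟨a⟩
  have h2 := sum_gw_le _ hcard
  have h3 := ell_pos (Fintype.card V) (by exact_mod_cast hcard)
  have h4 : 0 < 1 / ell (Fintype.card V) := by positivity
  linarith

lemma gw_rk_ge_of_mem_low (δ : V → V → ℝ) (a v : V) (m : ℕ) (hv : v ∈ low δ a m) :
    gw m ≤ rwt δ a v := by
  rw [mem_low] at hv
  exact gw_anti _ _ (rk_pos δ a v) hv

lemma gw_rk_ge_of_ball (δ : V → V → ℝ) (a v : V) (ρ : ℝ) (hv : δ a v ≤ ρ) :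
    gw (ball δ a ρ).card ≤ rwt δ a v := by
  apply gw_anti _ _ (rk_pos δ a v)
  refine le_trans (rk_le_card_ball δ a v) ?_
  apply Finset.card_le_card
  intro k hk
  rw [mem_ball] at hk ⊢
  linarith

/-- the total weight bound -/
lemma sum_sum_rwt_le (δ : V → V → ℝ) :
    ∑ a, ∑ w, rwt δ a w ≤ 2 * (Fintype.card V : ℝ) := by
  calc ∑ a, ∑ w, rwt δ a w ≤ ∑ _a : V, (2:ℝ) := Finset.sum_le_sum (fun a _ => sum_rwt_le δ a)
    _ = 2 * (Fintype.card V : ℝ) := by
      rw [Finset.sum_const, Finset.card_univ, nsmul_eq_mul]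
      ring

/-- the weighted energy of `f` for the rank weights -/
noncomputable def ren (δ : V → V → ℝ) (p : ℝ) (f : V → ℝ) : ℝ :=
  ∑ a, ∑ w, rwt δ a w * slope δ p f a w

lemma ren_nonneg (δ : V → V → ℝ) (hδ0 : ∀ a b, 0 ≤ δ a b) (p : ℝ) (f : V → ℝ) :
    0 ≤ ren δ p f := by
  unfold ren
  exact Finset.sum_nonneg (fun a _ => Finset.sum_nonneg (fun w _ =>
    mul_nonneg (rwt_pos δ a w).le (slope_nonneg δ hδ0 p f a w)))

/-- the energy of `f` at one vertex -/
noncomputable def ven (δ : V → V → ℝ) (p : ℝ) (f : V → ℝ) (a : V) : ℝ :=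
  ∑ w, rwt δ a w * slope δ p f a w

lemma ven_nonneg (δ : V → V → ℝ) (hδ0 : ∀ a b, 0 ≤ δ a b) (p : ℝ) (f : V → ℝ) (a : V) :
    0 ≤ ven δ p f a :=
  Finset.sum_nonneg (fun w _ => mul_nonneg (rwt_pos δ a w).le (slope_nonneg δ hδ0 p f a w))

lemma sum_ven (δ : V → V → ℝ) (p : ℝ) (f : V → ℝ) : ∑ a, ven δ p f a = ren δ p f := rfl

end Rank

end Vale.Agent.Lib.P249
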