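import Mathlib
import Vale.Agent.Lib.P249.Rank

namespace Vale.Agent.Lib.P249

section RealLemma

lemma ell_le_two_rpow (y : ℝ) (hy : 1 ≤ y) : ell y ≤ 2 * y ^ ((1:ℝ) / 4) := by
  have hy0 : 0 < y := by linarith
  set z := y ^ ((1:ℝ) / 4) with hz
  have hz0 : 0 < z := Real.rpow_pos_of_pos hy0 _
  have hlog : Real.log z = (1 / 4) * Real.log y := by
    rw [hz, Real.log_rpow hy0]
  have h1 : Real.log (z / 2) ≤ z / 2 - 1 := Real.log_le_sub_one_of_pos (by positivity)
  rw [Real.log_div hz0.ne' (by norm_num)] at h1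
  have h2 := Real.log_two_lt_d9
  unfold ell
  have h3 : Real.log y = 4 * Real.log z := by rw [hlog]; ring
  rw [h3]
  nlinarith

lemma ell_sq_le (y : ℝ) (hy : 1 ≤ y) : ell y ^ 2 ≤ 4 * y ^ ((1:ℝ) / 2) := by
  have hy0 : 0 < y := by linarith
  have h1 := ell_le_two_rpow y hy
  have h2 := one_le_ell y hy
  have h3 : ell y ^ 2 ≤ (2 * y ^ ((1:ℝ) / 4)) ^ 2 := pow_le_pow_left₀ (by linarith) h1 2
  refine le_trans h3 (le_of_eq ?_)
  rw [mul_pow, ← Real.rpow_natCast (y ^ ((1:ℝ) / 4)) 2, ← Real.rpow_mul hy0.le]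
  norm_num

lemma ell_sq_mono (y : ℝ) (hy : 1 ≤ y) (y' : ℝ) (hy' : y' ≤ y ^ 2) (h1 : 1 ≤ y') :
    ell y' ≤ 2 * ell y := by
  have hy0 : 0 < y := by linarith
  have hl := Real.log_le_log (by linarith) hy'
  rw [Real.log_pow] at hl
  have := Real.log_nonneg hy
  unfold ell
  push_cast at hl
  linarith

lemma log_four : Real.log 4 = 2 * Real.log 2 := by
  have : (4:ℝ) = 2 ^ 2 := by norm_num
  rw [this, Real.log_pow]
  norm_num

lemma log_eight : Real.log 8 = 3 * Real.log 2 := by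
  have : (8:ℝ) = 2 ^ 3 := by norm_num
  rw [this, Real.log_pow]
  norm_num

/-- one term of the chain sum -/
lemma chain_cost (p : ℝ) (hp : 1 ≤ p) (M : ℝ) (hM0 : 0 < M) (a b : ℝ) (ha : 1 ≤ a) (hb : 1 ≤ b)
    (hab : b ≤ a ^ 2) (J : ℕ)
    (hA : Real.log M + ((J : ℝ) - 1) * (6 * (p * Real.log 2)) ≤ Real.log a) :
    (4:ℝ) ^ (J + 1) * (ell b ^ 2 / a) ^ (1 / p)
      ≤ 512 * (1 / 2) ^ J * (M ^ (-(1 / (4 * p)))) ^ 2 := by
  have hp0 : 0 < p := by linarith
  have ha0 : 0 < a := by linarith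
  set κ := M ^ (-(1 / (4 * p))) with hκ
  have hκ0 : 0 < κ := Real.rpow_pos_of_pos hM0 _
  have hlogκ : Real.log κ = -(Real.log M / (4 * p)) := by
    rw [hκ, Real.log_rpow hM0]
    ring
  have h1 : ell b ≤ 2 * ell a := ell_sq_mono a ha b hab hb
  have h2 := ell_sq_le a ha
  have h3 := one_le_ell a ha
  have h4 := one_le_ell b hb
  have h5 : ell b ^ 2 ≤ 16 * a ^ ((1:ℝ) / 2) := by
    have : ell b ^ 2 ≤ (2 * ell a) ^ 2 := pow_le_pow_left₀ (by linarith) h1 2
    nlinarith
  have h6 : ell b ^ 2 / a ≤ 16 * a ^ (-((1:ℝ) / 2)) := by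
    rw [div_le_iff₀ ha0]
    refine le_trans h5 (le_of_eq ?_)
    have : a ^ (-((1:ℝ) / 2)) * a = a ^ ((1:ℝ) / 2) := by
      nth_rewrite 2 [← Real.rpow_one a]
      rw [← Real.rpow_add ha0]
      norm_num
    rw [mul_assoc, this]
  have h7 : (ell b ^ 2 / a) ^ (1 / p) ≤ 16 * a ^ (-(1 / (2 * p))) := by
    have h8 : (ell b ^ 2 / a) ^ (1 / p) ≤ (16 * a ^ (-((1:ℝ) / 2))) ^ (1 / p) :=
      Real.rpow_le_rpow (div_nonneg (by positivity) ha0.le) h6 (by positivity)
    refine le_trans h8 ?_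
    rw [Real.mul_rpow (by norm_num) (Real.rpow_nonneg ha0.le _), ← Real.rpow_mul ha0.le]
    have h9 : (16:ℝ) ^ (1 / p) ≤ 16 := by
      have : (16:ℝ) ^ (1 / p) ≤ (16:ℝ) ^ (1:ℝ) :=
        Real.rpow_le_rpow_of_exponent_le (by norm_num) (by
          rw [div_le_one hp0]; exact hp)
      simpa using this
    have h10 : -((1:ℝ) / 2) * (1 / p) = -(1 / (2 * p)) := by
      field_simp
    rw [h10]
    exact mul_le_mul_of_nonneg_right h9 (Real.rpow_nonneg ha0.le _)
  have h11 : a ^ (-(1 / (2 * p))) ≤ κ ^ 2 * (8 * (1 / 8) ^ J) := by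
    have hpos : 0 < κ ^ 2 * (8 * ((1:ℝ) / 8) ^ J) := by positivity
    have hlog : Real.log (a ^ (-(1 / (2 * p)))) ≤ Real.log (κ ^ 2 * (8 * (1 / 8) ^ J)) := by
      rw [Real.log_rpow ha0, Real.log_mul (by positivity) (by positivity),
        Real.log_mul (by norm_num) (by positivity), Real.log_pow, Real.log_pow, hlogκ]
      have h18 : Real.log (1 / 8) = -(3 * Real.log 2) := by
        rw [one_div, Real.log_inv, log_eight]
      rw [log_eight, h18]
      have h12 : -(1 / (2 * p)) * Real.log a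
          ≤ -(1 / (2 * p)) * (Real.log M + ((J : ℝ) - 1) * (6 * (p * Real.log 2))) := by
        apply mul_le_mul_of_nonpos_left hA
        have : 0 < 1 / (2 * p) := by positivity
        linarith
      refine le_trans h12 (le_of_eq ?_)
      push_cast
      field_simp
      ring
    exact (Real.log_le_log_iff (Real.rpow_pos_of_pos ha0 _) hpos).mp hlog
  calc (4:ℝ) ^ (J + 1) * (ell b ^ 2 / a) ^ (1 / p)
      ≤ (4:ℝ) ^ (J + 1) * (16 * (κ ^ 2 * (8 * (1 / 8) ^ J))) := by
        apply mul_le_mul_of_nonneg_left _ (by positivity)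
        refine le_trans h7 ?_
        exact mul_le_mul_of_nonneg_left h11 (by norm_num)
    _ = 512 * (1 / 2) ^ J * κ ^ 2 := by
        have h13 : (4:ℝ) ^ J * (1 / 8) ^ J = (1 / 2) ^ J := by
          rw [← mul_pow]
          norm_num
        rw [pow_succ]
        calc (4:ℝ) ^ J * 4 * (16 * (κ ^ 2 * (8 * (1 / 8) ^ J)))
            = 512 * ((4:ℝ) ^ J * (1 / 8) ^ J) * κ ^ 2 := by ring
          _ = _ := by rw [h13]

lemma growth_arith (lM τ l2 j ly lW lm lm1 le : ℝ) (hlM : 68 * τ + 8 * l2 ≤ lM)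
    (hlast : -(lM / 4) - (j + 1) * (2 * τ) < ly + 2 * le - lW - lm)
    (hell : 2 * le ≤ 2 * l2 + (1 / 2) * ly) (hW : lm1 ≤ lW)
    (hB : lM + j * (6 * τ) ≤ lm1) (hA : lM + (j - 1) * (6 * τ) ≤ lm) (hj : 0 ≤ j * τ) :
    lM + (j + 1) * (6 * τ) ≤ ly := by
  linarith

/-- if the last term is large, then the ball size has grown -/
lemma chain_growth (p : ℝ) (hp : 1 ≤ p) (M : ℝ) (hM0 : 0 < M)
    (hlM68 : 68 * (p * Real.log 2) + 8 * Real.log 2 ≤ Real.log M)
    (y w a b : ℝ) (hy : 1 ≤ y) (hw : 0 < w) (ha : 0 < a) (hb : 0 < b) (hbw : b ≤ w) (J : ℕ)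
    (hlast : M ^ (-(1 / (4 * p))) < (4:ℝ) ^ (J + 1) * (y * ell y ^ 2 / (w * a)) ^ (1 / p))
    (hA : Real.log M + ((J : ℝ) - 1) * (6 * (p * Real.log 2)) ≤ Real.log a)
    (hB : Real.log M + (J : ℝ) * (6 * (p * Real.log 2)) ≤ Real.log b) :
    Real.log M + ((J : ℝ) + 1) * (6 * (p * Real.log 2)) ≤ Real.log y := by
  have hp0 : 0 < p := by linarith
  have hlog2 : 0 < Real.log 2 := Real.log_pos (by norm_num)
  have hy0 : 0 < y := by linarith
  have hely := one_le_ell y hy
  set Z := y * ell y ^ 2 / (w * a) with hZ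
  have hZ0 : 0 < Z := by
    rw [hZ]
    positivity
  have hlogZ : Real.log Z = Real.log y + 2 * Real.log (ell y) - Real.log w - Real.log a := by
    rw [hZ, Real.log_div (by positivity) (mul_pos hw ha).ne',
      Real.log_mul hy0.ne' (by positivity), Real.log_pow, Real.log_mul hw.ne' ha.ne']
    push_cast
    ring
  have hell : 2 * Real.log (ell y) ≤ 2 * Real.log 2 + (1 / 2) * Real.log y := by
    have h1 := ell_sq_le y hy
    have h2 := Real.log_le_log (by positivity) h1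
    rw [Real.log_pow, Real.log_mul (by norm_num) (Real.rpow_pos_of_pos hy0 _).ne',
      Real.log_rpow hy0, log_four] at h2
    push_cast at h2
    linarith
  have hlast2 : -(Real.log M / 4) - ((J : ℝ) + 1) * (2 * (p * Real.log 2)) < Real.log Z := by
    have h1 := Real.log_lt_log (Real.rpow_pos_of_pos hM0 _) hlast
    rw [Real.log_mul (by positivity) (Real.rpow_pos_of_pos hZ0 _).ne', Real.log_pow,
      Real.log_rpow hZ0, Real.log_rpow hM0, log_four] at h1
    push_cast at h1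
    have h5 := mul_lt_mul_of_pos_right h1 hp0
    have h6 : -(1 / (4 * p)) * Real.log M * p = -(Real.log M / 4) := by
      field_simp
    have h7 : (((J : ℝ) + 1) * (2 * Real.log 2) + 1 / p * Real.log Z) * p
        = ((J : ℝ) + 1) * (2 * (p * Real.log 2)) + Real.log Z := by
      field_simp
    rw [h6, h7] at h5
    linarith
  have hWJ : Real.log b ≤ Real.log w := Real.log_le_log hb hbw
  have hJ0 : 0 ≤ (J : ℝ) * (p * Real.log 2) := by positivity
  rw [hlogZ] at hlast2
  exact growth_arith _ _ _ _ _ _ _ _ _ hlM68 hlast2 hell hWJ hB hA hJ0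

/-- smallness of the exponential scale -/
lemma kappa_small (p : ℝ) (hp : 1 ≤ p) (M : ℝ) (hM0 : 0 < M)
    (hlM68 : 68 * (p * Real.log 2) + 8 * Real.log 2 ≤ Real.log M) :
    1024 * M ^ (-(1 / (4 * p))) ≤ 1 := by
  have hp0 : 0 < p := by linarith
  have hlog2 : 0 < Real.log 2 := Real.log_pos (by norm_num)
  have hκ0 : 0 < M ^ (-(1 / (4 * p))) := Real.rpow_pos_of_pos hM0 _
  have h1 : Real.log (M ^ (-(1 / (4 * p)))) ≤ -(10 * Real.log 2) := by
    rw [Real.log_rpow hM0]
    have h2 : 40 * p * Real.log 2 ≤ Real.log M := by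
      have : 0 ≤ 28 * (p * Real.log 2) + 8 * Real.log 2 := by positivity
      linarith
    have h3 : 10 * Real.log 2 ≤ Real.log M / (4 * p) := by
      rw [le_div_iff₀ (by positivity)]
      linarith
    have h4 : -(1 / (4 * p)) * Real.log M = -(Real.log M / (4 * p)) := by ring
    rw [h4]
    linarith
  have h2 : M ^ (-(1 / (4 * p))) ≤ 1 / 1024 := by
    have h3 : Real.log (M ^ (-(1 / (4 * p)))) ≤ Real.log (1 / 1024) := by
      have h4 : Real.log (1 / 1024) = -(10 * Real.log 2) := by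
        rw [one_div, Real.log_inv]
        have : (1024:ℝ) = 2 ^ 10 := by norm_num
        rw [this, Real.log_pow]
        norm_num
      rw [h4]
      exact h1
    exact (Real.log_le_log_iff hκ0 (by norm_num)).mp h3
  linarith

/-- The stopping index of the multiscale chain. -/
lemma exists_stop2 (p : ℝ) (hp : 1 ≤ p) (M : ℝ) (hM : (2:ℝ) ^ (68 * p + 8) ≤ M)
    (m W : ℕ → ℝ) (hm0 : m 0 = M) (hW0 : M ≤ W 0) (hWmono : ∀ j, W j ≤ W (j + 1))
    (hmstep : ∀ j, m (j + 1) = min (W j) (m j ^ 2)) (Λ : ℝ) (hΛ : ∀ j, W j ≤ Λ) :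
    ∃ I, ∑ j ∈ Finset.range I, (4:ℝ) ^ (j + 1) * (ell (m (j + 1)) ^ 2 / m j) ^ (1 / p)
      + (4:ℝ) ^ (I + 1) * (W (I + 1) * ell (W (I + 1)) ^ 2 / (W I * m I)) ^ (1 / p)
      ≤ 2 * M ^ (-(1 / (4 * p))) := by
  by_contra hcon
  push Not at hcon
  have hp0 : 0 < p := by linarith
  have hlog2 : 0 < Real.log 2 := Real.log_pos (by norm_num)
  have hτ0 : 0 < p * Real.log 2 := by positivity
  have h2rp : (1:ℝ) ≤ (2:ℝ) ^ (68 * p + 8) := Real.one_le_rpow (by norm_num) (by positivity)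
  have hM1 : 1 ≤ M := le_trans h2rp hM
  have hM0 : 0 < M := by linarith
  have hlM68 : 68 * (p * Real.log 2) + 8 * Real.log 2 ≤ Real.log M := by
    have := Real.log_le_log (by positivity) hM
    rw [Real.log_rpow (by norm_num)] at this
    linarith
  -- monotonicity
  have hmW : ∀ j, M ≤ m j ∧ m j ≤ W j := by
    intro j
    induction j with
    | zero => rw [hm0]; exact ⟨le_rfl, hW0⟩
    | succ j ih =>
      obtain ⟨h1, h2⟩ := ih
      have h3 : 1 ≤ m j := le_trans hM1 h1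
      have hW : M ≤ W j := le_trans h1 h2
      constructor
      · rw [hmstep j]
        apply le_min hW
        nlinarith
      · rw [hmstep j]
        exact le_trans (min_le_left _ _) (hWmono j)
  have hm1 : ∀ j, 1 ≤ m j := fun j => le_trans hM1 (hmW j).1
  have hmpos : ∀ j, 0 < m j := fun j => by linarith [hm1 j]
  have hW1 : ∀ j, 1 ≤ W j := fun j => le_trans (hm1 j) (hmW j).2
  have hWpos : ∀ j, 0 < W j := fun j => by linarith [hW1 j]
  have hκ0 : 0 < M ^ (-(1 / (4 * p))) := Real.rpow_pos_of_pos hM0 _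
  have hκsmall := kappa_small p hp M hM0 hlM68
  -- the main induction
  have hmain : ∀ J : ℕ, Real.log M + ((J : ℝ) - 1) * (6 * (p * Real.log 2)) ≤ Real.log (m J) ∧
      Real.log M + (J : ℝ) * (6 * (p * Real.log 2)) ≤ Real.log (m (J + 1)) ∧
      ∑ j ∈ Finset.range J, (4:ℝ) ^ (j + 1) * (ell (m (j + 1)) ^ 2 / m j) ^ (1 / p)
        ≤ 1024 * (1 - (1 / 2) ^ J) * (M ^ (-(1 / (4 * p)))) ^ 2 := by
    intro J
    induction J with
    | zero =>
      refine ⟨?_, ?_, by simp⟩
      · rw [hm0]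
        push_cast
        linarith
      · have := Real.log_le_log hM0 (hmW 1).1
        simp only [Nat.cast_zero, zero_mul, add_zero, zero_add]
        exact this
    | succ J ih =>
      obtain ⟨hA, hB, hS⟩ := ih
      have hS' : ∑ j ∈ Finset.range (J + 1), (4:ℝ) ^ (j + 1) * (ell (m (j + 1)) ^ 2 / m j) ^ (1 / p)
          ≤ 1024 * (1 - (1 / 2) ^ (J + 1)) * (M ^ (-(1 / (4 * p)))) ^ 2 := by
        rw [Finset.sum_range_succ]
        have := chain_cost p hp M hM0 (m J) (m (J + 1)) (hm1 J) (hm1 _)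
          (by rw [hmstep J]; exact min_le_right _ _) J hA
        have h2 : (1 / 2 : ℝ) ^ (J + 1) = (1 / 2) ^ J * (1 / 2) := pow_succ _ _
        rw [h2]
        nlinarith
      have hJcast : ((J + 1 : ℕ) : ℝ) = (J : ℝ) + 1 := by push_cast; ring
      refine ⟨?_, ?_, hS'⟩
      · rw [hJcast]
        have : ((J : ℝ) + 1 - 1) * (6 * (p * Real.log 2)) = (J : ℝ) * (6 * (p * Real.log 2)) := by
          ring
        rw [this]
        exact hB
      · -- the growth step
        have hfail := hcon J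
        have hsumle : ∑ j ∈ Finset.range J, (4:ℝ) ^ (j + 1) * (ell (m (j + 1)) ^ 2 / m j) ^ (1 / p)
            ≤ M ^ (-(1 / (4 * p))) := by
          refine le_trans hS ?_
          have h1 : (0:ℝ) ≤ (1 / 2) ^ J := by positivity
          have h2 : (1 - (1 / 2 : ℝ) ^ J) ≤ 1 := by linarith
          have h3 : (M ^ (-(1 / (4 * p)))) ^ 2 ≥ 0 := by positivity
          calc 1024 * (1 - (1 / 2 : ℝ) ^ J) * (M ^ (-(1 / (4 * p)))) ^ 2
              ≤ 1024 * 1 * (M ^ (-(1 / (4 * p)))) ^ 2 := by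
                apply mul_le_mul_of_nonneg_right _ h3
                linarith
            _ = (1024 * M ^ (-(1 / (4 * p)))) * M ^ (-(1 / (4 * p))) := by ring
            _ ≤ 1 * M ^ (-(1 / (4 * p))) := mul_le_mul_of_nonneg_right hκsmall hκ0.le
            _ = M ^ (-(1 / (4 * p))) := one_mul _
        have hlast : M ^ (-(1 / (4 * p)))
            < (4:ℝ) ^ (J + 1) * (W (J + 1) * ell (W (J + 1)) ^ 2 / (W J * m J)) ^ (1 / p) := by
          linarith
        have hygrow := chain_growth p hp M hM0 hlM68 (W (J + 1)) (W J) (m J) (m (J + 1))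
          (hW1 _) (hWpos _) (hmpos _) (hmpos _)
          (by rw [hmstep J]; exact min_le_left _ _) J hlast hA hB
        rw [hJcast, hmstep (J + 1)]
        have hm2 : Real.log M + ((J : ℝ) + 1) * (6 * (p * Real.log 2))
            ≤ Real.log (m (J + 1) ^ 2) := by
          rw [Real.log_pow]
          push_cast
          have hJ0 : 0 ≤ (J : ℝ) * (p * Real.log 2) := by positivity
          nlinarith
        rcases min_choice (W (J + 1)) (m (J + 1) ^ 2) with h | h
        · rw [h]; exact hygrow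
        · rw [h]; exact hm2
  obtain ⟨N, hN⟩ := exists_nat_gt ((Real.log Λ - Real.log M) / (6 * (p * Real.log 2)))
  have h1 := (hmain N).2.1
  have hΛ1 : m (N + 1) ≤ Λ := le_trans (hmW _).2 (hΛ _)
  have h2 := Real.log_le_log (hmpos _) hΛ1
  rw [div_lt_iff₀ (by positivity)] at hN
  linarith

end RealLemma

end Vale.Agent.Lib.P249
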