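import Mathlib

namespace Vale.Agent.Lib.P249

section Cube

set_option linter.unusedSectionVars false

variable {T : Type*} [Fintype T] [DecidableEq T]

/-- the sign attached to a coordinate of a point of the cube -/
noncomputable def sg (ω : T → Bool) (t : T) : ℝ := if ω t then 1 else -1

lemma sg_eq (ω : T → Bool) (t : T) : sg ω t = 1 ∨ sg ω t = -1 := by
  unfold sg
  split_ifs <;> simp

lemma sum_exp_eq (a : T → ℝ) (lam : ℝ) :
    ∑ ω : T → Bool, Real.exp (lam * ∑ t, a t * sg ω t)
      = ∏ t, (Real.exp (lam * a t) + Real.exp (-(lam * a t))) := by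
  have h := Finset.prod_univ_sum (fun _ : T => (Finset.univ : Finset Bool))
    (fun t b => Real.exp (lam * (a t * if b then 1 else -1)))
  rw [Fintype.piFinset_univ] at h
  have h2 : ∀ t : T, ∑ b : Bool, Real.exp (lam * (a t * if b then 1 else -1))
      = Real.exp (lam * a t) + Real.exp (-(lam * a t)) := by
    intro t
    rw [Fintype.sum_bool]
    simp only [if_true, if_false, Bool.false_eq_true]
    congr 2 <;> ring
  simp_rw [h2] at h
  rw [h]
  refine Finset.sum_congr rfl (fun ω _ => ?_)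
  rw [Finset.mul_sum, Real.exp_sum]
  refine Finset.prod_congr rfl (fun t _ => ?_)
  unfold sg
  rfl

lemma sum_exp_le (a : T → ℝ) (lam : ℝ) :
    ∑ ω : T → Bool, Real.exp (lam * ∑ t, a t * sg ω t)
      ≤ 2 ^ Fintype.card T * Real.exp (lam ^ 2 * (∑ t, a t ^ 2) / 2) := by
  rw [sum_exp_eq]
  have h1 : ∀ t ∈ (Finset.univ : Finset T), Real.exp (lam * a t) + Real.exp (-(lam * a t))
      ≤ 2 * Real.exp (lam ^ 2 * a t ^ 2 / 2) := by
    intro t _
    have h2 := Real.cosh_le_exp_half_sq (lam * a t)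
    rw [Real.cosh_eq] at h2
    have h3 : (lam * a t) ^ 2 / 2 = lam ^ 2 * a t ^ 2 / 2 := by ring
    rw [h3] at h2
    linarith
  have h4 := Finset.prod_le_prod (fun t _ => by positivity) h1
  refine le_trans h4 (le_of_eq ?_)
  rw [Finset.prod_mul_distrib, Finset.prod_const, Finset.card_univ, ← Real.exp_sum]
  congr 2
  rw [Finset.mul_sum, Finset.sum_div]

/-- the one sided tail bound on the cube -/
lemma hoeffding_one (a : T → ℝ) (τ : ℝ) (hτ : 0 < τ) (hSq : 0 < ∑ t, a t ^ 2) :
    (((Finset.univ : Finset (T → Bool)).filter (fun ω => τ ≤ ∑ t, a t * sg ω t)).card : ℝ)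
      ≤ 2 ^ Fintype.card T * Real.exp (-(τ ^ 2 / (2 * ∑ t, a t ^ 2))) := by
  set Sq := ∑ t, a t ^ 2 with hSqd
  set lam := τ / Sq with hlam
  have hlam0 : 0 < lam := by positivity
  have h1 := sum_exp_le a lam
  rw [← hSqd] at h1
  have h2 : (((Finset.univ : Finset (T → Bool)).filter (fun ω => τ ≤ ∑ t, a t * sg ω t)).card : ℝ)
      * Real.exp (lam * τ) ≤ ∑ ω : T → Bool, Real.exp (lam * ∑ t, a t * sg ω t) := by
    rw [← nsmul_eq_mul, ← Finset.sum_const]
    calc ∑ _x ∈ (Finset.univ : Finset (T → Bool)).filter (fun ω => τ ≤ ∑ t, a t * sg ω t),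
          Real.exp (lam * τ)
        ≤ ∑ ω ∈ (Finset.univ : Finset (T → Bool)).filter (fun ω => τ ≤ ∑ t, a t * sg ω t),
          Real.exp (lam * ∑ t, a t * sg ω t) := by
          refine Finset.sum_le_sum (fun ω hω => ?_)
          rw [Finset.mem_filter] at hω
          exact Real.exp_le_exp.mpr (mul_le_mul_of_nonneg_left hω.2 hlam0.le)
      _ ≤ _ := Finset.sum_le_sum_of_subset_of_nonneg (Finset.subset_univ _)
          (fun _ _ _ => (Real.exp_pos _).le)
  have h3 := le_trans h2 h1
  have h4 : Real.exp (-(τ ^ 2 / (2 * Sq))) * Real.exp (lam * τ)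
      = Real.exp (lam ^ 2 * Sq / 2) := by
    rw [← Real.exp_add]
    congr 1
    rw [hlam]
    field_simp
    ring
  have h5 : (0:ℝ) < Real.exp (lam * τ) := Real.exp_pos _
  have h6 : ((2:ℝ) ^ Fintype.card T * Real.exp (-(τ ^ 2 / (2 * Sq)))) * Real.exp (lam * τ)
      = 2 ^ Fintype.card T * Real.exp (lam ^ 2 * Sq / 2) := by
    rw [mul_assoc, h4]
  rw [← h6] at h3
  exact le_of_mul_le_mul_right h3 h5

/-- the two sided tail bound on the cube -/
lemma hoeffding_two (a : T → ℝ) (τ : ℝ) (hτ : 0 < τ) (hSq : 0 < ∑ t, a t ^ 2) :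
    (((Finset.univ : Finset (T → Bool)).filter (fun ω => τ < |∑ t, a t * sg ω t|)).card : ℝ)
      ≤ 2 * 2 ^ Fintype.card T * Real.exp (-(τ ^ 2 / (2 * ∑ t, a t ^ 2))) := by
  have h1 := hoeffding_one a τ hτ hSq
  have hSq2 : 0 < ∑ t, (-a t) ^ 2 := by simpa using hSq
  have h2 := hoeffding_one (fun t => -a t) τ hτ hSq2
  simp only [neg_sq] at h2
  have hsub : (Finset.univ : Finset (T → Bool)).filter (fun ω => τ < |∑ t, a t * sg ω t|)
      ⊆ (Finset.univ : Finset (T → Bool)).filter (fun ω => τ ≤ ∑ t, a t * sg ω t)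
        ∪ (Finset.univ : Finset (T → Bool)).filter (fun ω => τ ≤ ∑ t, -a t * sg ω t) := by
    intro ω hω
    rw [Finset.mem_filter] at hω
    rw [Finset.mem_union, Finset.mem_filter, Finset.mem_filter]
    rcases lt_abs.mp hω.2 with h | h
    · left
      exact ⟨Finset.mem_univ _, h.le⟩
    · right
      refine ⟨Finset.mem_univ _, ?_⟩
      have : ∑ t, -a t * sg ω t = -∑ t, a t * sg ω t := by
        rw [← Finset.sum_neg_distrib]
        refine Finset.sum_congr rfl (fun t _ => ?_)
        ring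
      rw [this]
      exact h.le
  have h3 := Finset.card_le_card hsub
  have h4 := Finset.card_union_le
    ((Finset.univ : Finset (T → Bool)).filter (fun ω => τ ≤ ∑ t, a t * sg ω t))
    ((Finset.univ : Finset (T → Bool)).filter (fun ω => τ ≤ ∑ t, -a t * sg ω t))
  have h5 : (((Finset.univ : Finset (T → Bool)).filter (fun ω => τ < |∑ t, a t * sg ω t|)).card : ℝ)
      ≤ (((Finset.univ : Finset (T → Bool)).filter (fun ω => τ ≤ ∑ t, a t * sg ω t)).card : ℝ)
        + (((Finset.univ : Finset (T → Bool)).filter (fun ω => τ ≤ ∑ t, -a t * sg ω t)).card : ℝ) := by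
    exact_mod_cast le_trans h3 h4
  linarith

/-- gluing two points of the cube -/
def glue (S : Finset T) (ω ω' : T → Bool) : T → Bool := fun t => if t ∈ S then ω t else ω' t

lemma glue_invol (S : Finset T) (ω ω' : T → Bool) :
    glue S (glue S ω ω') (glue S ω' ω) = ω ∧ glue S (glue S ω' ω) (glue S ω ω') = ω' := by
  constructor <;> (funext t; unfold glue; split_ifs <;> rfl)

/-- events depending on disjoint sets of coordinates are independent -/
lemma card_inter_mul (S : Finset T) (X Y : Finset (T → Bool))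
    (hX : ∀ ω ω', (∀ t ∈ S, ω t = ω' t) → ω ∈ X → ω' ∈ X)
    (hY : ∀ ω ω', (∀ t, t ∉ S → ω t = ω' t) → ω ∈ Y → ω' ∈ Y) :
    (X ∩ Y).card * (Finset.univ : Finset (T → Bool)).card = X.card * Y.card := by
  rw [← Finset.card_product, ← Finset.card_product]
  apply Finset.card_nbij' (fun e => (glue S e.1 e.2, glue S e.2 e.1))
    (fun e => (glue S e.1 e.2, glue S e.2 e.1))
  · rintro ⟨ω, ω'⟩ h
    simp only [Finset.coe_product, Set.mem_prod, Finset.mem_coe, Finset.mem_inter] at h ⊢
    constructor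
    · refine hX ω _ (fun t ht => ?_) h.1.1
      simp [glue, ht]
    · refine hY ω _ (fun t ht => ?_) h.1.2
      simp [glue, ht]
  · rintro ⟨ω, ω'⟩ h
    simp only [Finset.coe_product, Set.mem_prod, Finset.mem_coe, Finset.mem_inter,
      Finset.coe_univ, Set.mem_univ, and_true] at h ⊢
    constructor
    · refine hX ω _ (fun t ht => ?_) h.1
      simp [glue, ht]
    · refine hY ω' _ (fun t ht => ?_) h.2
      simp [glue, ht]
  · rintro ⟨ω, ω'⟩ _
    obtain ⟨h1, h2⟩ := glue_invol S ω ω'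
    simp only [h1, h2]
  · rintro ⟨ω, ω'⟩ _
    obtain ⟨h1, h2⟩ := glue_invol S ω ω'
    simp only [h1, h2]

end Cube

end Vale.Agent.Lib.P249
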