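import Mathlib

open MeasureTheory

namespace Vale.Agent.Lib.P249

lemma exp_le_one_add_mul (u η : ℝ) (hu : 0 ≤ u) (huη : u ≤ η) (hη : η ≤ 1) :
    Real.exp u ≤ 1 + (1 + η) * u := by
  have h1 : |u| ≤ 1 := by rw [abs_of_nonneg hu]; linarith
  have h := Real.abs_exp_sub_one_sub_id_le h1
  have h2 := (abs_le.mp h).2
  nlinarith [mul_le_mul_of_nonneg_left huη hu]

lemma exp_neg_le_one_sub_mul (u η : ℝ) (hu : 0 ≤ u) (huη : u ≤ η) (hη : η ≤ 1) :
    Real.exp (-u) ≤ 1 - (1 - η) * u := by
  have h1 : |(-u)| ≤ 1 := by rw [abs_neg, abs_of_nonneg hu]; linarith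
  have h := Real.abs_exp_sub_one_sub_id_le h1
  have h2 := (abs_le.mp h).2
  nlinarith [mul_le_mul_of_nonneg_left huη hu]

/-- A point where a ratio does not exceed its mean. -/
lemma exists_pos_le {Ω : Type*} [MeasurableSpace Ω] {μ : Measure Ω} (σ F : Ω → ℝ)
    (hσ0 : ∀ t, 0 ≤ σ t) (hσi : Integrable σ μ) (hσpos : 0 < ∫ t, σ t ∂μ)
    (hFi : Integrable F μ) (c : ℝ) (hF : ∫ t, F t ∂μ ≤ c * ∫ t, σ t ∂μ)
    (hF0 : ∀ t, σ t = 0 → F t = 0) :
    ∃ t, 0 < σ t ∧ F t ≤ c * σ t := by
  by_contra hcon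
  push Not at hcon
  have hG0 : ∀ t, 0 ≤ F t - c * σ t := by
    intro t
    by_cases h : σ t = 0
    · simp [h, hF0 t h]
    · have := hcon t (lt_of_le_of_ne (hσ0 t) (Ne.symm h))
      linarith
  have hGi : Integrable (fun t => F t - c * σ t) μ := hFi.sub (hσi.const_mul c)
  have hGint : ∫ t, (F t - c * σ t) ∂μ ≤ 0 := by
    rw [integral_sub hFi (hσi.const_mul c), integral_const_mul]
    linarith
  have hGint0 : ∫ t, (F t - c * σ t) ∂μ = 0 :=
    le_antisymm hGint (integral_nonneg hG0)
  have hae := (integral_eq_zero_iff_of_nonneg hG0 hGi).mp hGint0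
  have hσae : σ =ᵐ[μ] 0 := by
    filter_upwards [hae] with t ht
    by_contra hne
    have hpos : 0 < σ t := lt_of_le_of_ne (hσ0 t) (Ne.symm hne)
    have := hcon t hpos
    simp only [Pi.zero_apply] at ht
    linarith
  have : ∫ t, σ t ∂μ = 0 := by
    rw [integral_congr_ae hσae]
    simp
  linarith

section Potential

variable {Ω : Type*} [MeasurableSpace Ω] {μ : Measure Ω} {ι : Type*} [Fintype ι]

/-- One step of the method of conditional expectations. -/
lemma step_exists (Z : ι → Ω → ℝ) (σ : Ω → ℝ) (K lam η : ℝ)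
    (hK : K = ∫ t, σ t ∂μ) (hKpos : 0 < K)
    (hσ0 : ∀ t, 0 ≤ σ t) (hσi : Integrable σ μ)
    (hZ0 : ∀ e t, 0 ≤ Z e t) (hZσ : ∀ e t, Z e t ≤ σ t)
    (hZi : ∀ e, Integrable (Z e) μ) (hZ1 : ∀ e, ∫ t, Z e t ∂μ = 1)
    (hη0 : 0 < η) (hη1 : η ≤ 1) (hlam : lam = η / K)
    (a b : ι → ℝ) (ha : ∀ e, 0 ≤ a e) (hb : ∀ e, 0 ≤ b e) :
    ∃ t, 0 < σ t ∧
      ∑ e, (a e * Real.exp (lam * (K * Z e t / σ t)) * Real.exp (-(lam * (1 + η)))
        + b e * Real.exp (-(lam * (K * Z e t / σ t))) * Real.exp (lam * (1 - η)))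
        ≤ ∑ e, (a e + b e) := by
  set A := lam * (1 + η) with hA
  set B := lam * (1 - η) with hB
  have hlam0 : 0 < lam := by rw [hlam]; positivity
  have hA0 : 0 ≤ A := by rw [hA]; positivity
  have hB0 : 0 ≤ B := by
    rw [hB]; exact mul_nonneg hlam0.le (by linarith)
  -- the integrand
  let F : Ω → ℝ := fun t => ∑ e, (a e * Real.exp (-A) * (σ t + A * K * Z e t)
        + b e * Real.exp B * (σ t - B * K * Z e t))
  have hFi : Integrable F μ := by
    refine integrable_finsetSum _ (fun e _ => ?_)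
    refine Integrable.add ?_ ?_
    · exact (hσi.add ((hZi e).const_mul (A * K))).const_mul _
    · exact (hσi.sub ((hZi e).const_mul (B * K))).const_mul _
  have hFint : ∫ t, F t ∂μ = K * ∑ e, (a e * Real.exp (-A) * (1 + A)
        + b e * Real.exp B * (1 - B)) := by
    simp only [F]
    rw [integral_finsetSum _ (fun e _ => ?_)]
    · rw [Finset.mul_sum]
      refine Finset.sum_congr rfl (fun e _ => ?_)
      rw [integral_add, integral_const_mul, integral_const_mul, integral_add, integral_sub,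
        integral_const_mul, integral_const_mul, hZ1 e, ← hK]
      · ring
      · exact hσi
      · exact (hZi e).const_mul _
      · exact hσi
      · exact (hZi e).const_mul _
      · exact (hσi.add ((hZi e).const_mul (A * K))).const_mul _
      · exact (hσi.sub ((hZi e).const_mul (B * K))).const_mul _
    · refine Integrable.add ?_ ?_
      · exact (hσi.add ((hZi e).const_mul (A * K))).const_mul _
      · exact (hσi.sub ((hZi e).const_mul (B * K))).const_mul _
  have hsumle : ∑ e, (a e * Real.exp (-A) * (1 + A) + b e * Real.exp B * (1 - B))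
      ≤ ∑ e, (a e + b e) := by
    refine Finset.sum_le_sum (fun e _ => ?_)
    have h1 : Real.exp (-A) * (1 + A) ≤ 1 := by
      have := Real.add_one_le_exp A
      have h2 : Real.exp (-A) * Real.exp A = 1 := by
        rw [← Real.exp_add]; simp
      have h3 : 0 < Real.exp (-A) := Real.exp_pos _
      nlinarith
    have h1' : Real.exp B * (1 - B) ≤ 1 := by
      have := Real.add_one_le_exp (-B)
      have h2 : Real.exp B * Real.exp (-B) = 1 := by
        rw [← Real.exp_add]; simp
      have h3 : 0 < Real.exp B := Real.exp_pos _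
      nlinarith
    have h4 := mul_le_mul_of_nonneg_left h1 (ha e)
    have h5 := mul_le_mul_of_nonneg_left h1' (hb e)
    nlinarith
  obtain ⟨t, htpos, htle⟩ := exists_pos_le (μ := μ) σ F hσ0 hσi (by rw [← hK]; exact hKpos) hFi
    (∑ e, (a e + b e)) (by
      rw [hFint, ← hK]
      nlinarith [mul_le_mul_of_nonneg_left hsumle hKpos.le])
    (by
      intro t ht
      simp only [F]
      refine Finset.sum_eq_zero (fun e _ => ?_)
      have h0 : Z e t = 0 := le_antisymm (by rw [← ht]; exact hZσ e t) (hZ0 e t)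
      simp [h0, ht])
  refine ⟨t, htpos, ?_⟩
  -- divide by σ t
  have hdiv : ∑ e, (a e * Real.exp (-A) * (1 + A * (K * Z e t / σ t))
        + b e * Real.exp B * (1 - B * (K * Z e t / σ t))) ≤ ∑ e, (a e + b e) := by
    have hFt : F t = σ t * ∑ e, (a e * Real.exp (-A) * (1 + A * (K * Z e t / σ t))
        + b e * Real.exp B * (1 - B * (K * Z e t / σ t))) := by
      simp only [F]
      rw [Finset.mul_sum]
      refine Finset.sum_congr rfl (fun e _ => ?_)
      field_simp
    rw [hFt] at htle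
    have : σ t * (∑ e, (a e * Real.exp (-A) * (1 + A * (K * Z e t / σ t))
        + b e * Real.exp B * (1 - B * (K * Z e t / σ t)))) ≤ σ t * ∑ e, (a e + b e) := by
      linarith [htle, mul_comm (∑ e, (a e + b e)) (σ t)]
    exact le_of_mul_le_mul_left this htpos
  refine le_trans (Finset.sum_le_sum (fun e _ => ?_)) hdiv
  -- pointwise comparison
  set W := K * Z e t / σ t with hW
  have hW0 : 0 ≤ W := by
    rw [hW]; exact div_nonneg (mul_nonneg hKpos.le (hZ0 e t)) htpos.le
  have hWK : W ≤ K := by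
    rw [hW, div_le_iff₀ htpos]
    exact mul_le_mul_of_nonneg_left (hZσ e t) hKpos.le
  have hu0 : 0 ≤ lam * W := mul_nonneg hlam0.le hW0
  have huη : lam * W ≤ η := by
    rw [hlam]
    calc η / K * W ≤ η / K * K := mul_le_mul_of_nonneg_left hWK (by positivity)
      _ = η := by field_simp
  have h1 := exp_le_one_add_mul (lam * W) η hu0 huη hη1
  have h2 := exp_neg_le_one_sub_mul (lam * W) η hu0 huη hη1
  have h1' : Real.exp (lam * W) ≤ 1 + A * W := by
    rw [hA]; nlinarith
  have h2' : Real.exp (-(lam * W)) ≤ 1 - B * W := by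
    rw [hB]; nlinarith
  have h3 : a e * Real.exp (lam * W) * Real.exp (-A) ≤ a e * Real.exp (-A) * (1 + A * W) := by
    have := mul_le_mul_of_nonneg_left h1' (mul_nonneg (ha e) (Real.exp_pos (-A)).le)
    nlinarith
  have h4 : b e * Real.exp (-(lam * W)) * Real.exp B ≤ b e * Real.exp B * (1 - B * W) := by
    have := mul_le_mul_of_nonneg_left h2' (mul_nonneg (hb e) (Real.exp_pos B).le)
    nlinarith
  linarith

/-- The iteration of the one step lemma. -/
lemma sequence_exists (Z : ι → Ω → ℝ) (σ : Ω → ℝ) (K lam η : ℝ)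
    (hK : K = ∫ t, σ t ∂μ) (hKpos : 0 < K)
    (hσ0 : ∀ t, 0 ≤ σ t) (hσi : Integrable σ μ)
    (hZ0 : ∀ e t, 0 ≤ Z e t) (hZσ : ∀ e t, Z e t ≤ σ t)
    (hZi : ∀ e, Integrable (Z e) μ) (hZ1 : ∀ e, ∫ t, Z e t ∂μ = 1)
    (hη0 : 0 < η) (hη1 : η ≤ 1) (hlam : lam = η / K) (N : ℕ) :
    ∃ τ : ℕ → Ω, (∀ k, k < N → 0 < σ (τ k)) ∧
      ∑ e, (Real.exp (lam * (∑ k ∈ Finset.range N, K * Z e (τ k) / σ (τ k))
              - N * (lam * (1 + η)))
          + Real.exp (-(lam * (∑ k ∈ Finset.range N, K * Z e (τ k) / σ (τ k)))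
              + N * (lam * (1 - η)))) ≤ 2 * (Fintype.card ι : ℝ) := by
  induction N with
  | zero =>
    have hne : ∃ t : Ω, 0 < σ t := by
      by_contra hcon
      push Not at hcon
      have h0 : ∀ t, σ t = 0 := fun t => le_antisymm (hcon t) (hσ0 t)
      have : ∫ t, σ t ∂μ = 0 := by simp [h0]
      rw [← hK] at this
      linarith
    obtain ⟨t0, -⟩ := hne
    refine ⟨fun _ => t0, by simp, ?_⟩
    simp [Finset.sum_const, Finset.card_univ]
    ring_nf
    simp
  | succ N ih =>
    obtain ⟨τ, hτ, hΨ⟩ := ih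
    set S : ι → ℝ := fun e => ∑ k ∈ Finset.range N, K * Z e (τ k) / σ (τ k) with hS
    obtain ⟨t, htpos, htle⟩ := step_exists (μ := μ) Z σ K lam η hK hKpos hσ0 hσi hZ0 hZσ hZi hZ1
      hη0 hη1 hlam (fun e => Real.exp (lam * S e - N * (lam * (1 + η))))
      (fun e => Real.exp (-(lam * S e) + N * (lam * (1 - η))))
      (fun _ => (Real.exp_pos _).le) (fun _ => (Real.exp_pos _).le)
    refine ⟨Function.update τ N t, ?_, ?_⟩
    · intro k hk
      by_cases hkN : k = N
      · subst hkN; simpa using htpos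
      · rw [Function.update_of_ne hkN]
        exact hτ k (by omega)
    · have hsum : ∀ e, ∑ k ∈ Finset.range (N + 1),
          K * Z e (Function.update τ N t k) / σ (Function.update τ N t k)
          = S e + K * Z e t / σ t := by
        intro e
        rw [Finset.sum_range_succ]
        simp only [Function.update_self]
        congr 1
        refine Finset.sum_congr rfl (fun k hk => ?_)
        have : k ≠ N := by
          have := Finset.mem_range.mp hk
          omega
        rw [Function.update_of_ne this]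
      refine le_trans ?_ hΨ
      refine le_trans (le_of_eq ?_) htle
      refine Finset.sum_congr rfl (fun e _ => ?_)
      rw [hsum e]
      have e1 : Real.exp (lam * (S e + K * Z e t / σ t) - ((N + 1 : ℕ) : ℝ) * (lam * (1 + η)))
          = Real.exp (lam * S e - N * (lam * (1 + η))) * Real.exp (lam * (K * Z e t / σ t))
            * Real.exp (-(lam * (1 + η))) := by
        rw [← Real.exp_add, ← Real.exp_add]
        congr 1
        push_cast
        ring
      have e2 : Real.exp (-(lam * (S e + K * Z e t / σ t)) + ((N + 1 : ℕ) : ℝ) * (lam * (1 - η)))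
          = Real.exp (-(lam * S e) + N * (lam * (1 - η))) * Real.exp (-(lam * (K * Z e t / σ t)))
            * Real.exp (lam * (1 - η)) := by
        rw [← Real.exp_add, ← Real.exp_add]
        congr 1
        push_cast
        ring
      rw [e1, e2]

/-- Deterministic sampling: a sequence of points and weights preserving all the integrals. -/
theorem sampling_bounds (Z : ι → Ω → ℝ) (σ : Ω → ℝ) (K η M : ℝ)
    (hK : K = ∫ t, σ t ∂μ) (hKpos : 0 < K)
    (hσ0 : ∀ t, 0 ≤ σ t) (hσi : Integrable σ μ)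
    (hZ0 : ∀ e t, 0 ≤ Z e t) (hZσ : ∀ e t, Z e t ≤ σ t)
    (hZi : ∀ e, Integrable (Z e) μ) (hZ1 : ∀ e, ∫ t, Z e t ∂μ = 1)
    (hη0 : 0 < η) (hη1 : η ≤ 1) (N : ℕ) (hM : 2 * (Fintype.card ι : ℝ) ≤ M)
    (hN : K * Real.log M ≤ N * η ^ 2) :
    ∃ τ : ℕ → Ω, (∀ k, k < N → 0 < σ (τ k)) ∧ ∀ e,
      (N : ℝ) * (1 - 2 * η) ≤ ∑ k ∈ Finset.range N, K * Z e (τ k) / σ (τ k) ∧
      ∑ k ∈ Finset.range N, K * Z e (τ k) / σ (τ k) ≤ (N : ℝ) * (1 + 2 * η) := by
  set lam := η / K with hlam
  have hlam0 : 0 < lam := by positivity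
  obtain ⟨τ, hτ, hΨ⟩ := sequence_exists (μ := μ) Z σ K lam η hK hKpos hσ0 hσi hZ0 hZσ hZi hZ1
    hη0 hη1 hlam N
  refine ⟨τ, hτ, fun e => ?_⟩
  set S := ∑ k ∈ Finset.range N, K * Z e (τ k) / σ (τ k) with hS
  have hterm : Real.exp (lam * S - N * (lam * (1 + η)))
      + Real.exp (-(lam * S) + N * (lam * (1 - η))) ≤ M := by
    refine le_trans ?_ (le_trans hΨ hM)
    exact Finset.single_le_sum (f := fun e => Real.exp (lam * (∑ k ∈ Finset.range N, K * Z e (τ k) / σ (τ k))
              - N * (lam * (1 + η)))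
          + Real.exp (-(lam * (∑ k ∈ Finset.range N, K * Z e (τ k) / σ (τ k)))
              + N * (lam * (1 - η))))
      (fun i _ => add_nonneg (Real.exp_pos _).le (Real.exp_pos _).le) (Finset.mem_univ e)
  have hMpos : 0 < M := lt_of_lt_of_le (add_pos (Real.exp_pos _) (Real.exp_pos _)) hterm
  have h1 : lam * S - N * (lam * (1 + η)) ≤ Real.log M := by
    rw [Real.le_log_iff_exp_le hMpos]
    linarith [Real.exp_pos (-(lam * S) + N * (lam * (1 - η)))]
  have h2 : -(lam * S) + N * (lam * (1 - η)) ≤ Real.log M := by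
    rw [Real.le_log_iff_exp_le hMpos]
    linarith [Real.exp_pos (lam * S - N * (lam * (1 + η)))]
  have hNK : Real.log M / lam ≤ N * η := by
    rw [div_le_iff₀ hlam0, hlam]
    have : (N : ℝ) * η * (η / K) = N * η ^ 2 / K := by ring
    rw [this, le_div_iff₀ hKpos]
    linarith
  have hlog : Real.log M = lam * (Real.log M / lam) := by field_simp
  constructor
  · have : lam * ((N : ℝ) * (1 - 2 * η)) ≤ lam * S := by
      have h3 : lam * (Real.log M / lam) ≤ lam * (N * η) :=
        mul_le_mul_of_nonneg_left hNK hlam0.le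
      rw [← hlog] at h3
      nlinarith
    exact le_of_mul_le_mul_left this hlam0
  · have : lam * S ≤ lam * ((N : ℝ) * (1 + 2 * η)) := by
      have h3 : lam * (Real.log M / lam) ≤ lam * (N * η) :=
        mul_le_mul_of_nonneg_left hNK hlam0.le
      rw [← hlog] at h3
      nlinarith
    exact le_of_mul_le_mul_left this hlam0

end Potential

end Vale.Agent.Lib.P249
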