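import Mathlib
import Vale.Agent.Lib.P249.Sampling
import Vale.Agent.Lib.P249.Balls

open MeasureTheory

namespace Vale.Agent.Lib.P249

section LpFacts

variable {Ω : Type*} [MeasurableSpace Ω] {μ : Measure Ω}

lemma lp_integrable (p : ℝ) (hp : 1 ≤ p) (f g : Lp ℝ (ENNReal.ofReal p) μ) :
    Integrable (fun t => |f t - g t| ^ p) μ := by
  have hp0 : 0 < p := by linarith
  have hm : MemLp (⇑f - ⇑g) (ENNReal.ofReal p) μ := (Lp.memLp f).sub (Lp.memLp g)
  have h := hm.integrable_norm_rpow (by simpa using hp0) ENNReal.ofReal_ne_top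
  rw [ENNReal.toReal_ofReal hp0.le] at h
  simpa [Real.norm_eq_abs] using h

lemma lp_integral (p : ℝ) (hp : 1 ≤ p) (f g : Lp ℝ (ENNReal.ofReal p) μ) :
    ∫ t, |f t - g t| ^ p ∂μ = ‖f - g‖ ^ p := by
  have hp0 : 0 < p := by linarith
  have hm : MemLp (⇑f - ⇑g) (ENNReal.ofReal p) μ := (Lp.memLp f).sub (Lp.memLp g)
  have h1 : ‖f - g‖ = (eLpNorm (⇑f - ⇑g) (ENNReal.ofReal p) μ).toReal := by
    rw [Lp.norm_def, eLpNorm_congr_ae (Lp.coeFn_sub f g)]
  rw [h1, hm.eLpNorm_eq_integral_rpow_norm (by simpa using hp0) ENNReal.ofReal_ne_top,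
    ENNReal.toReal_ofReal hp0.le]
  have hnn : 0 ≤ ∫ t, ‖(⇑f - ⇑g) t‖ ^ p ∂μ := integral_nonneg (fun t => by positivity)
  rw [ENNReal.toReal_ofReal (by positivity), ← Real.rpow_mul hnn, inv_mul_cancel₀ hp0.ne',
    Real.rpow_one]
  simp [Real.norm_eq_abs]

end LpFacts

section Abstract

variable {Ω : Type*} [MeasurableSpace Ω] {μ : Measure Ω}

/-- Any sampling density dominating all normalised differences gives an embedding. -/
theorem embed_of_density {n : ℕ} (hn : 2 ≤ n)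
    (h : Fin n → Ω → ℝ) (δ : Fin n → Fin n → ℝ) (p : ℝ) (hp : 1 ≤ p)
    (hδ0 : ∀ a b, 0 ≤ δ a b)
    (hint : ∀ a b, Integrable (fun t => |h a t - h b t| ^ p) μ)
    (hval : ∀ a b, ∫ t, |h a t - h b t| ^ p ∂μ = δ a b ^ p)
    (hzero : ∀ a b, δ a b = 0 → ∀ t, h a t = h b t)
    (σ : Ω → ℝ) (hσ0 : ∀ t, 0 ≤ σ t) (hσi : Integrable σ μ)
    (hσ : ∀ a b, 0 < δ a b → ∀ t, |h a t - h b t| ^ p ≤ δ a b ^ p * σ t)
    (K₀ : ℝ) (hK₀ : ∫ t, σ t ∂μ ≤ K₀)
    (ε : ℝ) (hε : 0 < ε) (hε1 : ε ≤ 1) :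
    ∃ (d : ℕ) (y : Fin n → Fin d → ℝ),
      (d : ℝ) ≤ 384 / ε ^ 2 * K₀ * Real.log n ∧
      ∀ i j, δ i j ^ p ≤ ∑ k, |y i k - y j k| ^ p ∧
        ∑ k, |y i k - y j k| ^ p ≤ (1 + ε) * δ i j ^ p := by
  classical
  have hp0 : 0 < p := by linarith
  have hnR : (2:ℝ) ≤ n := by exact_mod_cast hn
  have hlogn : 0 < Real.log n := Real.log_pos (by linarith)
  by_cases hpos : ∃ a b, 0 < δ a b
  swap
  · -- all points coincide
    push Not at hpos
    have hz : ∀ a b, δ a b = 0 := fun a b => le_antisymm (hpos a b) (hδ0 a b)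
    have hσint : 0 ≤ ∫ t, σ t ∂μ := integral_nonneg hσ0
    refine ⟨0, fun _ => Fin.elim0, ?_, ?_⟩
    · have hK0 : 0 ≤ K₀ := le_trans hσint hK₀
      simp only [Nat.cast_zero]
      positivity
    · intro i j
      simp [hz i j, Real.zero_rpow hp0.ne']
  obtain ⟨i₀, j₀, hi₀j₀⟩ := hpos
  let ι := {e : Fin n × Fin n // 0 < δ e.1 e.2}
  let Z : ι → Ω → ℝ := fun e t => |h e.1.1 t - h e.1.2 t| ^ p / δ e.1.1 e.1.2 ^ p
  have hdpos : ∀ e : ι, 0 < δ e.1.1 e.1.2 ^ p := fun e => Real.rpow_pos_of_pos e.2 _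
  have hZ0 : ∀ e t, 0 ≤ Z e t := fun e t =>
    div_nonneg (Real.rpow_nonneg (abs_nonneg _) _) (hdpos e).le
  have hZσ : ∀ e t, Z e t ≤ σ t := by
    intro e t
    simp only [Z]
    rw [div_le_iff₀ (hdpos e), mul_comm]
    exact hσ _ _ e.2 t
  have hZi : ∀ e, Integrable (Z e) μ := fun e => (hint _ _).div_const _
  have hZ1 : ∀ e, ∫ t, Z e t ∂μ = 1 := by
    intro e
    simp only [Z]
    rw [integral_div, hval]
    exact div_self (hdpos e).ne'
  set K := ∫ t, σ t ∂μ with hK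
  have hK1 : 1 ≤ K := by
    have := hZ1 ⟨(i₀, j₀), hi₀j₀⟩
    rw [← this]
    exact integral_mono (hZi _) hσi (fun t => hZσ _ t)
  have hKpos : 0 < K := by linarith
  set η := ε / 8 with hη
  have hη0 : 0 < η := by positivity
  have hη1 : η ≤ 1 := by rw [hη]; linarith
  set M : ℝ := 2 * ((n : ℝ) * n) with hMdef
  have hM : 2 * (Fintype.card ι : ℝ) ≤ M := by
    have h1 : Fintype.card ι ≤ Fintype.card (Fin n × Fin n) := Fintype.card_subtype_le _
    rw [Fintype.card_prod, Fintype.card_fin] at h1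
    have h2 : (Fintype.card ι : ℝ) ≤ (n : ℝ) * n := by exact_mod_cast h1
    rw [hMdef]
    linarith
  have hlogM1 : 1 ≤ Real.log M := by
    have hMpos : 0 < M := by rw [hMdef]; positivity
    rw [Real.le_log_iff_exp_le hMpos]
    have h3 := Real.exp_one_lt_d9
    rw [hMdef]
    nlinarith
  have hlogM3 : Real.log M ≤ 3 * Real.log n := by
    have h1 : M ≤ (n : ℝ) ^ 3 := by
      rw [hMdef]
      nlinarith [mul_nonneg (by linarith : (0:ℝ) ≤ (n:ℝ)) (by linarith : (0:ℝ) ≤ (n:ℝ))]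
    have hMpos : 0 < M := by rw [hMdef]; positivity
    calc Real.log M ≤ Real.log ((n : ℝ) ^ 3) := Real.log_le_log hMpos h1
      _ = 3 * Real.log n := by rw [Real.log_pow]; norm_num
  set X := K * Real.log M / η ^ 2 with hX
  have hη2pos : 0 < η ^ 2 := by positivity
  have hX1 : 1 ≤ X := by
    rw [hX, le_div_iff₀ hη2pos]
    have : η ^ 2 ≤ 1 := by nlinarith
    nlinarith
  set N := ⌈X⌉₊ with hNdef
  have hNX : X ≤ N := Nat.le_ceil X
  have hN : K * Real.log M ≤ N * η ^ 2 := by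
    have := mul_le_mul_of_nonneg_right hNX hη2pos.le
    rwa [hX, div_mul_cancel₀ _ hη2pos.ne'] at this
  have hNpos : (0:ℝ) < N := by linarith
  obtain ⟨τ, hτ, hbd⟩ := sampling_bounds (μ := μ) Z σ K η M hK hKpos hσ0 hσi hZ0 hZσ hZi hZ1
    hη0 hη1 N hM hN
  have hη2 : 1 - 2 * η > 0 := by rw [hη]; linarith
  set θ := 1 / (1 - 2 * η) with hθ
  have hθpos : 0 < θ := by positivity
  let c : ℕ → ℝ := fun k => θ * K / (N * σ (τ k))
  have hc0 : ∀ k, 0 ≤ c k := fun k => by
    simp only [c]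
    exact div_nonneg (by positivity) (mul_nonneg hNpos.le (hσ0 _))
  let y : Fin n → Fin N → ℝ := fun i k => (c k) ^ (1 / p) * h i (τ k)
  have hy : ∀ i j (k : Fin N), |y i k - y j k| ^ p = c k * |h i (τ k) - h j (τ k)| ^ p := by
    intro i j k
    simp only [y]
    rw [← mul_sub, abs_mul, Real.mul_rpow (abs_nonneg _) (abs_nonneg _),
      abs_of_nonneg (Real.rpow_nonneg (hc0 k) _), ← Real.rpow_mul (hc0 k),
      one_div_mul_cancel hp0.ne', Real.rpow_one]
  have hsum : ∀ i j, ∑ k, |y i k - y j k| ^ p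
      = ∑ k ∈ Finset.range N, c k * |h i (τ k) - h j (τ k)| ^ p := by
    intro i j
    rw [Finset.sum_range]
    exact Finset.sum_congr rfl (fun k _ => hy i j k)
  refine ⟨N, y, ?_, ?_⟩
  · -- dimension bound
    have hN1 : (N : ℝ) < X + 1 := Nat.ceil_lt_add_one (by linarith)
    have hN2 : (N : ℝ) ≤ 2 * X := by linarith
    have hK0 : K ≤ K₀ := hK₀
    have hX2 : X ≤ 64 / ε ^ 2 * K₀ * (3 * Real.log n) := by
      rw [hX, hη]
      have : K * Real.log M / (ε / 8) ^ 2 = 64 / ε ^ 2 * (K * Real.log M) := by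
        field_simp
        ring
      rw [this, mul_assoc]
      apply mul_le_mul_of_nonneg_left _ (by positivity)
      exact mul_le_mul hK0 hlogM3 (by linarith) (by linarith)
    calc (N : ℝ) ≤ 2 * X := hN2
      _ ≤ 2 * (64 / ε ^ 2 * K₀ * (3 * Real.log n)) := by linarith
      _ = 384 / ε ^ 2 * K₀ * Real.log n := by ring
  · intro i j
    rw [hsum i j]
    by_cases hij : 0 < δ i j
    · -- a positive pair
      obtain ⟨hl, hu⟩ := hbd ⟨(i, j), hij⟩
      have hdp : 0 < δ i j ^ p := Real.rpow_pos_of_pos hij _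
      have hterm : ∀ k ∈ Finset.range N, c k * |h i (τ k) - h j (τ k)| ^ p
          = θ / N * δ i j ^ p * (K * Z ⟨(i, j), hij⟩ (τ k) / σ (τ k)) := by
        intro k hk
        have hs := hτ k (Finset.mem_range.mp hk)
        simp only [c, Z]
        field_simp
      rw [Finset.sum_congr rfl hterm, ← Finset.mul_sum]
      have hcoef : 0 ≤ θ / N * δ i j ^ p := by positivity
      constructor
      · have := mul_le_mul_of_nonneg_left hl hcoef
        refine le_trans (le_of_eq ?_) this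
        rw [hθ]
        field_simp
      · have := mul_le_mul_of_nonneg_left hu hcoef
        refine le_trans this ?_
        have hval2 : θ / N * δ i j ^ p * ((N : ℝ) * (1 + 2 * η)) = θ * (1 + 2 * η) * δ i j ^ p := by
          field_simp
        rw [hval2]
        apply mul_le_mul_of_nonneg_right _ hdp.le
        rw [hθ, hη, div_mul_eq_mul_div, one_mul, div_le_iff₀ (by linarith)]
        nlinarith
    · have hz : δ i j = 0 := le_antisymm (not_lt.mp hij) (hδ0 i j)
      have h0 : ∀ k, |h i (τ k) - h j (τ k)| = 0 := fun k => by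
        rw [hzero i j hz, sub_self, abs_zero]
      simp [h0, hz, Real.zero_rpow hp0.ne']

end Abstract

section Main

variable {Ω : Type*} [MeasurableSpace Ω] {μ : Measure Ω}

/-- The main bound, ball growth version. -/
theorem main_ball (p : ℝ) (hp : 1 ≤ p) (ε : ℝ) (hε : 0 < ε) (hε1 : ε ≤ 1)
    (n : ℕ) (hn : 2 ≤ n) (L : ℕ) (hL : 1 ≤ L) (x : Fin n → Lp ℝ (ENNReal.ofReal p) μ) :
    ∃ (d : ℕ) (y : Fin n → Fin d → ℝ),
      (d : ℝ) ≤ 192 / ε ^ 2 * (2 * (L : ℝ) + 2) ^ p * (n : ℝ) ^ (1 + 1 / (L : ℝ))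
        * (1 + Real.log n) ^ 2 ∧
      ∀ i j, ‖x i - x j‖ ^ p ≤ ∑ k, |y i k - y j k| ^ p ∧
        ∑ k, |y i k - y j k| ^ p ≤ (1 + ε) * ‖x i - x j‖ ^ p := by
  classical
  have hp0 : 0 < p := by linarith
  haveI : Fact (1 ≤ ENNReal.ofReal p) := ⟨by simpa using ENNReal.ofReal_le_ofReal hp⟩
  have hnR : (2:ℝ) ≤ n := by exact_mod_cast hn
  have hlogn : 0 < Real.log n := Real.log_pos (by linarith)
  let δ : Fin n → Fin n → ℝ := fun a b => ‖x a - x b‖
  let h : Fin n → Ω → ℝ := fun a t => x a t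
  have hδ0 : ∀ a b, 0 ≤ δ a b := fun a b => norm_nonneg _
  have hδs : ∀ a b, δ a b = δ b a := fun a b => norm_sub_rev _ _
  have hδt : ∀ a b c, δ a c ≤ δ a b + δ b c := fun a b c => norm_sub_le_norm_sub_add_norm_sub _ _ _
  have hδr : ∀ a, δ a a = 0 := fun a => by simp [δ]
  have hzero : ∀ a b, δ a b = 0 → ∀ t, h a t = h b t := by
    intro a b hab t
    have : x a = x b := sub_eq_zero.mp (norm_eq_zero.mp hab)
    simp only [h, this]
  have hint : ∀ a b, Integrable (fun t => |h a t - h b t| ^ p) μ :=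
    fun a b => lp_integrable p hp (x a) (x b)
  have hval : ∀ a b, ∫ t, |h a t - h b t| ^ p ∂μ = δ a b ^ p :=
    fun a b => lp_integral p hp (x a) (x b)
  set β : ℝ := (n : ℝ) ^ ((L : ℝ)⁻¹) with hβ
  have hβ1 : 1 ≤ β := Real.one_le_rpow (by linarith) (by positivity)
  set Λ : ℝ := 2 ^ (p - 1) * ((L : ℝ) + 1) ^ p * β with hΛ
  have hΛ0 : 0 ≤ Λ := by positivity
  let σ : Ω → ℝ := fun t => Λ * energy δ p (fun a => h a t)
  have hσ0 : ∀ t, 0 ≤ σ t := fun t => mul_nonneg hΛ0 (energy_nonneg δ hδ0 p _)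
  have hEi : Integrable (fun t => energy δ p (fun a => h a t)) μ := by
    unfold energy slope
    refine integrable_finsetSum _ (fun a _ => integrable_finsetSum _ (fun w _ => ?_))
    exact ((hint a w).div_const _).const_mul _
  have hσi : Integrable σ μ := hEi.const_mul _
  have hσ : ∀ a b, 0 < δ a b → ∀ t, |h a t - h b t| ^ p ≤ δ a b ^ p * σ t := by
    intro a b hab t
    have hch := chain_bound δ p hp (fun a => h a t) hδ0 hδs hδt hδr
      (fun a b hz => hzero a b hz t) a b hab L hL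
    rw [Fintype.card_fin] at hch
    simp only [σ]
    refine le_trans hch (le_of_eq ?_)
    rw [Real.mul_rpow (by positivity) (hδ0 a b), hΛ]
    ring
  have hEint : ∫ t, energy δ p (fun a => h a t) ∂μ ≤ (n : ℝ) * (1 + Real.log n) := by
    have hcalc : ∫ t, energy δ p (fun a => h a t) ∂μ
        = ∑ a, ∑ w, cw δ a w * (δ a w ^ p / δ a w ^ p) := by
      unfold energy slope
      rw [integral_finsetSum]
      · refine Finset.sum_congr rfl (fun a _ => ?_)
        rw [integral_finsetSum]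
        · refine Finset.sum_congr rfl (fun w _ => ?_)
          rw [integral_const_mul, integral_div, hval]
        · intro w _
          exact ((hint a w).div_const _).const_mul _
      · intro a _
        refine integrable_finsetSum _ (fun w _ => ?_)
        exact ((hint a w).div_const _).const_mul _
    rw [hcalc]
    calc ∑ a, ∑ w, cw δ a w * (δ a w ^ p / δ a w ^ p)
        ≤ ∑ a : Fin n, ∑ w, cw δ a w := by
          refine Finset.sum_le_sum (fun a _ => Finset.sum_le_sum (fun w _ => ?_))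
          have h1 : δ a w ^ p / δ a w ^ p ≤ 1 := div_self_le_one _
          have h2 := cw_nonneg δ a w
          nlinarith
      _ ≤ ∑ _a : Fin n, (1 + Real.log n) := by
          refine Finset.sum_le_sum (fun a _ => ?_)
          have := sum_cw_le δ a
          rwa [Fintype.card_fin] at this
      _ = (n : ℝ) * (1 + Real.log n) := by
          rw [Finset.sum_const, Finset.card_univ, Fintype.card_fin, nsmul_eq_mul]
  set K₀ : ℝ := Λ * ((n : ℝ) * (1 + Real.log n)) with hK₀def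
  have hK₀ : ∫ t, σ t ∂μ ≤ K₀ := by
    simp only [σ]
    rw [integral_const_mul]
    exact mul_le_mul_of_nonneg_left hEint hΛ0
  obtain ⟨d, y, hd, hy⟩ := embed_of_density hn h δ p hp hδ0 hint hval hzero σ hσ0 hσi hσ K₀ hK₀
    ε hε hε1
  refine ⟨d, y, ?_, hy⟩
  refine le_trans hd ?_
  have hnpos : (0:ℝ) < n := by linarith
  have hrp : (n : ℝ) ^ (1 + 1 / (L : ℝ)) = n * β := by
    rw [Real.rpow_add hnpos, Real.rpow_one, hβ, one_div]
  have h2L : (2 * (L : ℝ) + 2) ^ p = 2 * (2 ^ (p - 1) * ((L : ℝ) + 1) ^ p) := by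
    have : 2 * (L : ℝ) + 2 = 2 * ((L : ℝ) + 1) := by ring
    rw [this, Real.mul_rpow (by norm_num) (by positivity), Real.rpow_sub_one (by norm_num)]
    field_simp
  rw [hrp, h2L, hK₀def, hΛ]
  have hlog2 : Real.log n ≤ 1 + Real.log n := by linarith
  have hpos : 0 ≤ 2 ^ (p - 1) * ((L : ℝ) + 1) ^ p * β * (n : ℝ) * (1 + Real.log n) / ε ^ 2 := by
    positivity
  calc 384 / ε ^ 2 * (2 ^ (p - 1) * ((L : ℝ) + 1) ^ p * β * ((n : ℝ) * (1 + Real.log n)))
        * Real.log n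
      = 384 * (2 ^ (p - 1) * ((L : ℝ) + 1) ^ p * β * (n : ℝ) * (1 + Real.log n) / ε ^ 2)
        * Real.log n := by ring
    _ ≤ 384 * (2 ^ (p - 1) * ((L : ℝ) + 1) ^ p * β * (n : ℝ) * (1 + Real.log n) / ε ^ 2)
        * (1 + Real.log n) := by
        apply mul_le_mul_of_nonneg_left hlog2
        positivity
    _ = _ := by ring

end Main

end Vale.Agent.Lib.P249
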