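import Mathlib
import Vale.Agent.Lib.P249.Chain

namespace Vale.Agent.Lib.P249

section Transport

variable {V : Type*} [Fintype V] [LinearOrder V]

/-- the average of `f` under the weights `μ` -/
noncomputable def avg (μ f : V → ℝ) : ℝ := ∑ u, μ u * f u

/-- the weights obtained by moving the mass at `u` according to `ν u` -/
noncomputable def mix (μ : V → ℝ) (ν : V → V → ℝ) (v : V) : ℝ := ∑ u, μ u * ν u v

omit [LinearOrder V] in
lemma avg_mix (μ : V → ℝ) (ν : V → V → ℝ) (f : V → ℝ) :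
    avg (mix μ ν) f = ∑ u, μ u * avg (ν u) f := by
  unfold avg mix
  simp_rw [Finset.sum_mul, Finset.mul_sum]
  rw [Finset.sum_comm]
  refine Finset.sum_congr rfl (fun u _ => Finset.sum_congr rfl (fun v _ => ?_))
  ring

omit [LinearOrder V] in
lemma sum_mix (μ : V → ℝ) (ν : V → V → ℝ) (hν1 : ∀ u, μ u ≠ 0 → ∑ v, ν u v = 1) :
    ∑ v, mix μ ν v = ∑ u, μ u := by
  unfold mix
  rw [Finset.sum_comm]
  refine Finset.sum_congr rfl (fun u _ => ?_)
  rw [← Finset.mul_sum]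
  by_cases h : μ u = 0
  · simp [h]
  · rw [hν1 u h, mul_one]

lemma transport (δ : V → V → ℝ) (p : ℝ) (hp : 1 ≤ p) (f : V → ℝ)
    (hδ0 : ∀ a b, 0 ≤ δ a b) (hf : ∀ a b, δ a b = 0 → f a = f b)
    (μ : V → ℝ) (hμ0 : ∀ u, 0 ≤ μ u) (hμ1 : ∑ u, μ u = 1) (θ : ℝ) (hθ : ∀ u, μ u ≤ θ)
    (ν : V → V → ℝ) (hν0 : ∀ u v, 0 ≤ ν u v) (hν1 : ∀ u, μ u ≠ 0 → ∑ v, ν u v = 1)
    (ρ Q : ℝ) (hρ0 : 0 ≤ ρ) (hQ0 : 0 ≤ Q)
    (hρ : ∀ u v, μ u ≠ 0 → ν u v ≠ 0 → δ u v ≤ ρ)
    (hQ : ∀ u v, μ u ≠ 0 → ν u v ≠ 0 → ν u v ≤ Q * rwt δ u v) :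
    |avg μ f - avg (mix μ ν) f| ≤ ρ * (θ * Q * ren δ p f) ^ (1 / p) := by
  have hp0 : 0 < p := by linarith
  have hE0 := ren_nonneg δ hδ0 p f
  have hV : Nonempty V := by
    by_contra hne
    rw [not_nonempty_iff] at hne
    simp at hμ1
  have hθ0 : 0 ≤ θ := le_trans (hμ0 hV.some) (hθ _)
  -- the joint weights
  let π : V × V → ℝ := fun e => μ e.1 * ν e.1 e.2
  have hπ0 : ∀ e ∈ (Finset.univ : Finset (V × V)), 0 ≤ π e :=
    fun e _ => mul_nonneg (hμ0 _) (hν0 _ _)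
  have hπ1 : ∑ e ∈ (Finset.univ : Finset (V × V)), π e = 1 := by
    rw [Fintype.sum_prod_type]
    have := sum_mix μ ν hν1
    rw [hμ1] at this
    rw [← this]
    unfold mix
    rw [Finset.sum_comm]
  have hdiff : avg μ f - avg (mix μ ν) f
      = ∑ e ∈ (Finset.univ : Finset (V × V)), π e * (f e.1 - f e.2) := by
    rw [avg_mix, Fintype.sum_prod_type]
    unfold avg
    rw [← Finset.sum_sub_distrib]
    refine Finset.sum_congr rfl (fun u _ => ?_)
    by_cases h : μ u = 0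
    · simp [π, h]
    · have h1 := hν1 u h
      simp only [π]
      calc μ u * f u - μ u * avg (ν u) f
          = μ u * ((∑ v, ν u v) * f u - avg (ν u) f) := by rw [h1, one_mul, mul_sub]
        _ = ∑ v, μ u * ν u v * (f u - f v) := by
            unfold avg
            rw [Finset.sum_mul, ← Finset.sum_sub_distrib, Finset.mul_sum]
            refine Finset.sum_congr rfl (fun v _ => ?_)
            ring
  have h1 : |avg μ f - avg (mix μ ν) f|
      ≤ ∑ e ∈ (Finset.univ : Finset (V × V)), π e * |f e.1 - f e.2| := by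
    rw [hdiff]
    refine le_trans (Finset.abs_sum_le_sum_abs _ _) (le_of_eq ?_)
    refine Finset.sum_congr rfl (fun e he => ?_)
    rw [abs_mul, abs_of_nonneg (hπ0 e he)]
  have h2 : (∑ e ∈ (Finset.univ : Finset (V × V)), π e * |f e.1 - f e.2|) ^ p
      ≤ ∑ e ∈ (Finset.univ : Finset (V × V)), π e * |f e.1 - f e.2| ^ p :=
    Real.rpow_arith_mean_le_arith_mean_rpow _ _ _ hπ0 hπ1 (fun _ _ => abs_nonneg _) hp
  have hterm : ∀ e ∈ (Finset.univ : Finset (V × V)), π e * |f e.1 - f e.2| ^ p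
      ≤ θ * Q * ρ ^ p * (rwt δ e.1 e.2 * slope δ p f e.1 e.2) := by
    intro e _
    have hsl := slope_nonneg δ hδ0 p f e.1 e.2
    have hw := (rwt_pos δ e.1 e.2).le
    have hRHS : 0 ≤ θ * Q * ρ ^ p * (rwt δ e.1 e.2 * slope δ p f e.1 e.2) := by positivity
    by_cases hμe : μ e.1 = 0
    · simp only [π, hμe, zero_mul]
      exact hRHS
    by_cases hνe : ν e.1 e.2 = 0
    · simp only [π, hνe, mul_zero, zero_mul]
      exact hRHS
    have h3 := abs_rpow_le_mul_slope δ hδ0 p hp f hf e.1 e.2 ρ (hρ _ _ hμe hνe)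
    have h4 : π e ≤ θ * (Q * rwt δ e.1 e.2) :=
      mul_le_mul (hθ _) (hQ _ _ hμe hνe) (hν0 _ _) hθ0
    have h5 : 0 ≤ π e := mul_nonneg (hμ0 _) (hν0 _ _)
    calc π e * |f e.1 - f e.2| ^ p ≤ π e * (ρ ^ p * slope δ p f e.1 e.2) :=
          mul_le_mul_of_nonneg_left h3 h5
      _ ≤ (θ * (Q * rwt δ e.1 e.2)) * (ρ ^ p * slope δ p f e.1 e.2) :=
          mul_le_mul_of_nonneg_right h4 (by positivity)
      _ = _ := by ring
  have h3 : ∑ e ∈ (Finset.univ : Finset (V × V)), π e * |f e.1 - f e.2| ^ p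
      ≤ θ * Q * ρ ^ p * ren δ p f := by
    refine le_trans (Finset.sum_le_sum hterm) (le_of_eq ?_)
    rw [← Finset.mul_sum, Fintype.sum_prod_type]
    rfl
  have hZ0 : 0 ≤ ∑ e ∈ (Finset.univ : Finset (V × V)), π e * |f e.1 - f e.2| :=
    Finset.sum_nonneg (fun e he => mul_nonneg (hπ0 e he) (abs_nonneg _))
  have h4 : |avg μ f - avg (mix μ ν) f| ^ p ≤ ρ ^ p * (θ * Q * ren δ p f) := by
    calc |avg μ f - avg (mix μ ν) f| ^ p
        ≤ (∑ e ∈ (Finset.univ : Finset (V × V)), π e * |f e.1 - f e.2|) ^ p :=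
          Real.rpow_le_rpow (abs_nonneg _) h1 hp0.le
      _ ≤ θ * Q * ρ ^ p * ren δ p f := le_trans h2 h3
      _ = _ := by ring
  have h5 := Real.rpow_le_rpow (by positivity) h4 (by positivity : 0 ≤ 1 / p)
  rw [← Real.rpow_mul (abs_nonneg _), mul_one_div_cancel hp0.ne', Real.rpow_one,
    Real.mul_rpow (by positivity) (by positivity), ← Real.rpow_mul hρ0,
    mul_one_div_cancel hp0.ne', Real.rpow_one] at h5
  exact h5

/-- the uniform weights on a finite set -/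
noncomputable def unif (S : Finset V) (v : V) : ℝ := if v ∈ S then 1 / (S.card : ℝ) else 0

omit [Fintype V] in
lemma unif_nonneg (S : Finset V) (v : V) : 0 ≤ unif S v := by
  unfold unif
  split_ifs <;> positivity

lemma sum_unif (S : Finset V) (hS : S.Nonempty) : ∑ v, unif S v = 1 := by
  unfold unif
  rw [Finset.sum_ite_mem, Finset.univ_inter, Finset.sum_const, nsmul_eq_mul]
  have : (S.card : ℝ) ≠ 0 := by
    have := Finset.card_pos.mpr hS
    positivity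
  field_simp

omit [Fintype V] in
lemma mem_of_unif_ne (S : Finset V) (v : V) (h : unif S v ≠ 0) : v ∈ S := by
  unfold unif at h
  by_contra hv
  simp [hv] at h

omit [Fintype V] in
lemma unif_le (S : Finset V) (v : V) : unif S v ≤ 1 / (S.card : ℝ) := by
  unfold unif
  split_ifs
  · exact le_rfl
  · positivity

/-- a probability vector with bounded entries and support near `x` -/
def Flat (δ : V → V → ℝ) (x : V) (μ : V → ℝ) (θ R : ℝ) : Prop :=
  (∀ u, 0 ≤ μ u) ∧ ∑ u, μ u = 1 ∧ (∀ u, μ u ≤ θ) ∧ (∀ u, μ u ≠ 0 → δ x u ≤ R)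

/-- one step of the chain: spread the mass over `m` nearest points -/
lemma step_low (δ : V → V → ℝ) (p : ℝ) (hp : 1 ≤ p) (f : V → ℝ)
    (hδ0 : ∀ a b, 0 ≤ δ a b) (hδt : ∀ a b c, δ a c ≤ δ a b + δ b c)
    (hf : ∀ a b, δ a b = 0 → f a = f b)
    (x : V) (μ : V → ℝ) (θ R : ℝ) (h : Flat δ x μ θ R) (m : ℕ) (hm1 : 1 ≤ m) (ρ : ℝ) (hρ0 : 0 ≤ ρ)
    (hballs : ∀ u, μ u ≠ 0 → m ≤ (ball δ u ρ).card) :
    ∃ μ', Flat δ x μ' (1 / (m : ℝ)) (R + ρ) ∧
      |avg μ f - avg μ' f| ≤ ρ * (θ * ell m ^ 2 * ren δ p f) ^ (1 / p) := by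
  obtain ⟨hμ0, hμ1, hθ, hsupp⟩ := h
  have hmR : (1:ℝ) ≤ m := by exact_mod_cast hm1
  have hcard : ∀ u, μ u ≠ 0 → (low δ u m).card = m := by
    intro u hu
    apply card_low
    exact le_trans (hballs u hu) (Finset.card_le_univ _)
  have hne : ∀ u, μ u ≠ 0 → (low δ u m).Nonempty := by
    intro u hu
    rw [← Finset.card_pos, hcard u hu]
    omega
  let ν : V → V → ℝ := fun u => unif (low δ u m)
  have hν0 : ∀ u v, 0 ≤ ν u v := fun u v => unif_nonneg _ _
  have hν1 : ∀ u, μ u ≠ 0 → ∑ v, ν u v = 1 := fun u hu => sum_unif _ (hne u hu)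
  have hνle : ∀ u v, μ u ≠ 0 → ν u v ≤ 1 / (m : ℝ) := by
    intro u v hu
    have := unif_le (low δ u m) v
    rwa [hcard u hu] at this
  have hmem : ∀ u v, ν u v ≠ 0 → v ∈ low δ u m := fun u v h => mem_of_unif_ne _ _ h
  refine ⟨mix μ ν, ⟨?_, ?_, ?_, ?_⟩, ?_⟩
  · intro v
    exact Finset.sum_nonneg (fun u _ => mul_nonneg (hμ0 u) (hν0 u v))
  · rw [sum_mix μ ν hν1]
    exact hμ1
  · intro v
    unfold mix
    calc ∑ u, μ u * ν u v ≤ ∑ u, μ u * (1 / (m : ℝ)) := by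
          refine Finset.sum_le_sum (fun u _ => ?_)
          by_cases hu : μ u = 0
          · simp [hu]
          · exact mul_le_mul_of_nonneg_left (hνle u v hu) (hμ0 u)
      _ = 1 / (m : ℝ) := by rw [← Finset.sum_mul, hμ1, one_mul]
  · intro v hv
    unfold mix at hv
    obtain ⟨u, _, hu⟩ := Finset.exists_ne_zero_of_sum_ne_zero hv
    have hu1 : μ u ≠ 0 := left_ne_zero_of_mul hu
    have hu2 : ν u v ≠ 0 := right_ne_zero_of_mul hu
    have h1 := hsupp u hu1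
    have h2 := low_subset_ball δ u m ρ (hballs u hu1) (hmem u v hu2)
    rw [mem_ball] at h2
    linarith [hδt x u v]
  · apply transport δ p hp f hδ0 hf μ hμ0 hμ1 θ hθ ν hν0 hν1 ρ (ell m ^ 2) hρ0 (by positivity)
    · intro u v hu hv
      have h2 := low_subset_ball δ u m ρ (hballs u hu) (hmem u v hv)
      rwa [mem_ball] at h2
    · intro u v hu hv
      have h1 := gw_rk_ge_of_mem_low δ u v m (hmem u v hv)
      have h2 := hνle u v hu
      refine le_trans h2 ?_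
      have h3 := ell_pos m hmR
      have h4 : ell m ^ 2 * gw m = 1 / (m : ℝ) := by
        unfold gw
        field_simp
      rw [← h4]
      exact mul_le_mul_of_nonneg_left h1 (by positivity)

/-- the last step of the chain: jump to the uniform weights on a set -/
lemma step_final (δ : V → V → ℝ) (p : ℝ) (hp : 1 ≤ p) (f : V → ℝ)
    (hδ0 : ∀ a b, 0 ≤ δ a b) (hf : ∀ a b, δ a b = 0 → f a = f b)
    (x : V) (μ : V → ℝ) (θ R : ℝ) (h : Flat δ x μ θ R) (U : Finset V) (hU : U.Nonempty)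
    (ρ : ℝ) (hρ0 : 0 ≤ ρ) (W : ℕ) (hW1 : 1 ≤ W)
    (hUρ : ∀ u, μ u ≠ 0 → ∀ v ∈ U, δ u v ≤ ρ)
    (hWb : ∀ u, μ u ≠ 0 → (ball δ u ρ).card ≤ W) :
    |avg μ f - avg (unif U) f|
      ≤ ρ * (θ * ((W : ℝ) * ell W ^ 2 / (U.card : ℝ)) * ren δ p f) ^ (1 / p) := by
  obtain ⟨hμ0, hμ1, hθ, hsupp⟩ := h
  have hWR : (1:ℝ) ≤ W := by exact_mod_cast hW1
  have hell := ell_pos W hWR
  have hUc : (0:ℝ) < U.card := by exact_mod_cast Finset.card_pos.mpr hU
  have hmix : mix μ (fun _ => unif U) = unif U := by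
    funext v
    unfold mix
    rw [← Finset.sum_mul, hμ1, one_mul]
  have key := transport δ p hp f hδ0 hf μ hμ0 hμ1 θ hθ (fun _ => unif U)
    (fun _ v => unif_nonneg _ _) (fun _ _ => sum_unif U hU) ρ ((W : ℝ) * ell W ^ 2 / (U.card : ℝ))
    hρ0 (by positivity)
    (fun u v hu hv => hUρ u hu v (mem_of_unif_ne _ _ hv))
    (by
      intro u v hu hv
      have hv' := mem_of_unif_ne _ _ hv
      have h1 := hUρ u hu v hv'
      have h2 : gw W ≤ rwt δ u v := by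
        refine le_trans (gw_anti _ _ ?_ (hWb u hu)) (gw_rk_ge_of_ball δ u v ρ h1)
        apply Finset.card_pos.mpr
        exact ⟨v, by rw [mem_ball]; exact h1⟩
      refine le_trans (unif_le U v) ?_
      have h4 : (W : ℝ) * ell W ^ 2 / (U.card : ℝ) * gw W = 1 / (U.card : ℝ) := by
        unfold gw
        field_simp
      rw [← h4]
      exact mul_le_mul_of_nonneg_left h2 (by positivity))
  rwa [hmix] at key

end Transport

end Vale.Agent.Lib.P249
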