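import Mathlib
import Vale.Agent.Lib.P249.Flat

namespace Vale.Agent.Lib.P249

section ChainSeq

set_option linter.unusedSectionVars false

variable {V : Type*} [Fintype V] [LinearOrder V]

/-- the sizes of the balls around `x` along the scales of the chain -/
noncomputable def Wseq (δ : V → V → ℝ) (x : V) (R : ℝ) (j : ℕ) : ℕ :=
  (ball δ x (2 * 4 ^ j * R)).card

/-- the sizes of the sets used along the chain -/
noncomputable def mseq (δ : V → V → ℝ) (x : V) (R : ℝ) (M : ℕ) : ℕ → ℕ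
  | 0 => M
  | j + 1 => min (Wseq δ x R j) ((mseq δ x R M j) ^ 2)

lemma Wseq_pos (δ : V → V → ℝ) (hδr : ∀ a, δ a a = 0) (x : V) (R : ℝ) (hR : 0 ≤ R) (j : ℕ) :
    1 ≤ Wseq δ x R j := by
  unfold Wseq
  apply Finset.card_pos.mpr
  exact ⟨x, by rw [mem_ball, hδr]; positivity⟩

lemma Wseq_mono (δ : V → V → ℝ) (x : V) (R : ℝ) (hR : 0 ≤ R) (j : ℕ) :
    Wseq δ x R j ≤ Wseq δ x R (j + 1) := by
  unfold Wseq
  apply Finset.card_le_card
  intro k hk
  rw [mem_ball] at hk ⊢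
  refine le_trans hk ?_
  have h1 : (4:ℝ) ^ j ≤ 4 ^ (j + 1) := pow_le_pow_right₀ (by norm_num) (by omega)
  nlinarith

lemma mseq_pos (δ : V → V → ℝ) (hδr : ∀ a, δ a a = 0) (x : V) (R : ℝ) (hR : 0 ≤ R) (M : ℕ)
    (hM : 1 ≤ M) (j : ℕ) : 1 ≤ mseq δ x R M j := by
  induction j with
  | zero => exact hM
  | succ j ih =>
    unfold mseq
    apply le_min (Wseq_pos δ hδr x R hR j)
    exact Nat.one_le_pow _ _ ih

lemma flat_mono (δ : V → V → ℝ) (x : V) (μ : V → ℝ) (θ θ' R R' : ℝ) (h : Flat δ x μ θ R)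
    (hθ : θ ≤ θ') (hR : R ≤ R') : Flat δ x μ θ' R' := by
  obtain ⟨h1, h2, h3, h4⟩ := h
  exact ⟨h1, h2, fun u => le_trans (h3 u) hθ, fun u hu => le_trans (h4 u hu) hR⟩

lemma chain_flat (δ : V → V → ℝ) (p : ℝ) (hp : 1 ≤ p) (f : V → ℝ)
    (hδ0 : ∀ a b, 0 ≤ δ a b) (hδs : ∀ a b, δ a b = δ b a)
    (hδt : ∀ a b c, δ a c ≤ δ a b + δ b c) (hδr : ∀ a, δ a a = 0)
    (hf : ∀ a b, δ a b = 0 → f a = f b)
    (x : V) (R : ℝ) (hR : 0 < R) (M : ℕ) (hM : 1 ≤ M) (μ : V → ℝ)
    (h : Flat δ x μ (1 / (M : ℝ)) R) (J : ℕ) :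
    ∃ μJ, Flat δ x μJ (1 / (mseq δ x R M J : ℝ)) (2 * 4 ^ J * R) ∧
      |avg μ f - avg μJ f| ≤ R * ren δ p f ^ (1 / p) *
        ∑ j ∈ Finset.range J, (4:ℝ) ^ (j + 1) *
          (ell (mseq δ x R M (j + 1)) ^ 2 / (mseq δ x R M j : ℝ)) ^ (1 / p) := by
  have hp0 : 0 < p := by linarith
  have hE0 := ren_nonneg δ hδ0 p f
  induction J with
  | zero =>
    refine ⟨μ, ?_, by simp⟩
    refine flat_mono δ x μ _ _ _ _ h le_rfl ?_
    norm_num
    linarith
  | succ J ih =>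
    obtain ⟨μJ, hflat, hcost⟩ := ih
    have hρ : (0:ℝ) ≤ 4 ^ (J + 1) * R := by positivity
    have hm1 := mseq_pos δ hδr x R hR.le M hM (J + 1)
    have hmJ := mseq_pos δ hδr x R hR.le M hM J
    have hmJR : (1:ℝ) ≤ mseq δ x R M J := by exact_mod_cast hmJ
    have hm1R : (1:ℝ) ≤ mseq δ x R M (J + 1) := by exact_mod_cast hm1
    obtain ⟨μ', hflat', hcost'⟩ := step_low δ p hp f hδ0 hδt hf x μJ _ _ hflat
      (mseq δ x R M (J + 1)) hm1 (4 ^ (J + 1) * R) hρ (by
        intro u hu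
        have h1 : mseq δ x R M (J + 1) ≤ Wseq δ x R J := min_le_left _ _
        refine le_trans h1 ?_
        apply Finset.card_le_card
        intro k hk
        rw [mem_ball] at hk ⊢
        have h2 := hflat.2.2.2 u hu
        have h3 := hδt u x k
        rw [hδs u x] at h3
        have h4 : (4:ℝ) ^ (J + 1) = 4 ^ J * 4 := pow_succ _ _
        rw [h4]
        nlinarith)
    refine ⟨μ', flat_mono δ x μ' _ _ _ _ hflat' le_rfl ?_, ?_⟩
    · have h4 : (4:ℝ) ^ (J + 1) = 4 ^ J * 4 := pow_succ _ _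
      rw [h4]
      have h5 : (0:ℝ) ≤ 4 ^ J * R := by positivity
      nlinarith
    · rw [Finset.sum_range_succ, mul_add]
      have h1 := abs_sub_le (avg μ f) (avg μJ f) (avg μ' f)
      refine le_trans h1 (add_le_add hcost ?_)
      refine le_trans hcost' (le_of_eq ?_)
      have hell := ell_pos (mseq δ x R M (J + 1)) hm1R
      have h2 : 1 / (mseq δ x R M J : ℝ) * ell (mseq δ x R M (J + 1)) ^ 2 * ren δ p f
          = (ell (mseq δ x R M (J + 1)) ^ 2 / (mseq δ x R M J : ℝ)) * ren δ p f := by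
        ring
      rw [h2, Real.mul_rpow (by positivity) hE0]
      ring

lemma chain_final (δ : V → V → ℝ) (p : ℝ) (hp : 1 ≤ p) (f : V → ℝ)
    (hδ0 : ∀ a b, 0 ≤ δ a b) (hδs : ∀ a b, δ a b = δ b a)
    (hδt : ∀ a b c, δ a c ≤ δ a b + δ b c) (hδr : ∀ a, δ a a = 0)
    (hf : ∀ a b, δ a b = 0 → f a = f b)
    (x : V) (R : ℝ) (hR : 0 < R) (M : ℕ) (hM : 1 ≤ M) (μ : V → ℝ)
    (h : Flat δ x μ (1 / (M : ℝ)) R) (I : ℕ) :
    |avg μ f - avg (unif (ball δ x (2 * 4 ^ I * R))) f| ≤ R * ren δ p f ^ (1 / p) *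
        (∑ j ∈ Finset.range I, (4:ℝ) ^ (j + 1) *
          (ell (mseq δ x R M (j + 1)) ^ 2 / (mseq δ x R M j : ℝ)) ^ (1 / p)
        + (4:ℝ) ^ (I + 1) * ((Wseq δ x R (I + 1) : ℝ) * ell (Wseq δ x R (I + 1)) ^ 2
            / ((Wseq δ x R I : ℝ) * (mseq δ x R M I : ℝ))) ^ (1 / p)) := by
  have hp0 : 0 < p := by linarith
  have hE0 := ren_nonneg δ hδ0 p f
  obtain ⟨μI, hflat, hcost⟩ := chain_flat δ p hp f hδ0 hδs hδt hδr hf x R hR M hM μ h I
  have hρ : (0:ℝ) ≤ 4 ^ (I + 1) * R := by positivity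
  have hU : (ball δ x (2 * 4 ^ I * R)).Nonempty :=
    ⟨x, by rw [mem_ball, hδr]; positivity⟩
  have hW1 := Wseq_pos δ hδr x R hR.le (I + 1)
  have hW0 := Wseq_pos δ hδr x R hR.le I
  have hmI := mseq_pos δ hδr x R hR.le M hM I
  have hW1R : (1:ℝ) ≤ Wseq δ x R (I + 1) := by exact_mod_cast hW1
  have hW0R : (1:ℝ) ≤ Wseq δ x R I := by exact_mod_cast hW0
  have hmIR : (1:ℝ) ≤ mseq δ x R M I := by exact_mod_cast hmI
  have key := step_final δ p hp f hδ0 hf x μI _ _ hflat (ball δ x (2 * 4 ^ I * R)) hU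
    (4 ^ (I + 1) * R) hρ (Wseq δ x R (I + 1)) hW1 (by
      intro u hu v hv
      rw [mem_ball] at hv
      have h2 := hflat.2.2.2 u hu
      have h3 := hδt u x v
      rw [hδs u x] at h3
      have h4 : (4:ℝ) ^ (I + 1) = 4 ^ I * 4 := pow_succ _ _
      rw [h4]
      nlinarith) (by
      intro u hu
      unfold Wseq
      apply Finset.card_le_card
      intro k hk
      rw [mem_ball] at hk ⊢
      have h2 := hflat.2.2.2 u hu
      have h3 := hδt x u k
      have h4 : (4:ℝ) ^ (I + 1) = 4 ^ I * 4 := pow_succ _ _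
      rw [h4] at hk ⊢
      have h5 : (0:ℝ) ≤ 4 ^ I * R := by positivity
      nlinarith)
  have h1 := abs_sub_le (avg μ f) (avg μI f) (avg (unif (ball δ x (2 * 4 ^ I * R))) f)
  refine le_trans h1 ?_
  rw [mul_add]
  refine add_le_add hcost ?_
  refine le_trans key (le_of_eq ?_)
  have hcard : ((ball δ x (2 * 4 ^ I * R)).card : ℝ) = (Wseq δ x R I : ℝ) := rfl
  rw [hcard]
  have hell := ell_pos (Wseq δ x R (I + 1)) hW1R
  have h2 : 1 / (mseq δ x R M I : ℝ) * ((Wseq δ x R (I + 1) : ℝ) * ell (Wseq δ x R (I + 1)) ^ 2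
      / (Wseq δ x R I : ℝ)) * ren δ p f
      = ((Wseq δ x R (I + 1) : ℝ) * ell (Wseq δ x R (I + 1)) ^ 2
      / ((Wseq δ x R I : ℝ) * (mseq δ x R M I : ℝ))) * ren δ p f := by
    field_simp
  rw [h2, Real.mul_rpow (by positivity) hE0]
  ring

/-- Two flat distributions near `x` have close averages. -/
theorem flat_transport (δ : V → V → ℝ) (p : ℝ) (hp : 1 ≤ p) (f : V → ℝ)
    (hδ0 : ∀ a b, 0 ≤ δ a b) (hδs : ∀ a b, δ a b = δ b a)
    (hδt : ∀ a b c, δ a c ≤ δ a b + δ b c) (hδr : ∀ a, δ a a = 0)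
    (hf : ∀ a b, δ a b = 0 → f a = f b)
    (x : V) (R : ℝ) (hR : 0 < R) (M : ℕ) (hM : (2:ℝ) ^ (68 * p + 8) ≤ M) (μ μ' : V → ℝ)
    (h : Flat δ x μ (1 / (M : ℝ)) R) (h' : Flat δ x μ' (1 / (M : ℝ)) R) :
    |avg μ f - avg μ' f| ≤ 4 * R * ren δ p f ^ (1 / p) * (M : ℝ) ^ (-(1 / (4 * p))) := by
  have hp0 : 0 < p := by linarith
  have hE0 := ren_nonneg δ hδ0 p f
  have h2rp : (1:ℝ) ≤ (2:ℝ) ^ (68 * p + 8) := Real.one_le_rpow (by norm_num) (by positivity)
  have hMR : (1:ℝ) ≤ M := le_trans h2rp hM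
  have hM1 : 1 ≤ M := by exact_mod_cast hMR
  -- the ball is large
  have hW0 : (M : ℝ) ≤ Wseq δ x R 0 := by
    obtain ⟨h0, h1, h2, h3⟩ := h
    have hsum : (1:ℝ) ≤ ((ball δ x (2 * 4 ^ 0 * R)).card : ℝ) * (1 / (M : ℝ)) := by
      have h4 : ∑ u, μ u = ∑ u ∈ ball δ x (2 * 4 ^ 0 * R), μ u := by
        symm
        apply Finset.sum_subset (Finset.subset_univ _)
        intro u _ hu
        by_contra hne
        apply hu
        rw [mem_ball]
        have := h3 u hne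
        norm_num
        linarith
      calc (1:ℝ) = ∑ u, μ u := h1.symm
        _ = ∑ u ∈ ball δ x (2 * 4 ^ 0 * R), μ u := h4
        _ ≤ ∑ _u ∈ ball δ x (2 * 4 ^ 0 * R), (1 / (M : ℝ)) :=
            Finset.sum_le_sum (fun u _ => h2 u)
        _ = _ := by rw [Finset.sum_const, nsmul_eq_mul]
    have hM0 : (0:ℝ) < M := by linarith
    unfold Wseq
    rw [mul_one_div, le_div_iff₀ hM0] at hsum
    linarith
  obtain ⟨I, hI⟩ := exists_stop2 p hp (M : ℝ) hM (fun j => (mseq δ x R M j : ℝ))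
    (fun j => (Wseq δ x R j : ℝ)) rfl hW0
    (fun j => by exact_mod_cast Wseq_mono δ x R hR.le j)
    (fun j => by
      have : mseq δ x R M (j + 1) = min (Wseq δ x R j) ((mseq δ x R M j) ^ 2) := rfl
      rw [this]
      push_cast
      rfl) (Fintype.card V) (fun j => by
        exact_mod_cast Finset.card_le_univ _)
  have h1 := chain_final δ p hp f hδ0 hδs hδt hδr hf x R hR M hM1 μ h I
  have h2 := chain_final δ p hp f hδ0 hδs hδt hδr hf x R hR M hM1 μ' h' I
  have h3 : |avg μ f - avg μ' f| ≤ |avg μ f - avg (unif (ball δ x (2 * 4 ^ I * R))) f|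
      + |avg μ' f - avg (unif (ball δ x (2 * 4 ^ I * R))) f| := by
    have := abs_sub_le (avg μ f) (avg (unif (ball δ x (2 * 4 ^ I * R))) f) (avg μ' f)
    rwa [abs_sub_comm (avg (unif (ball δ x (2 * 4 ^ I * R))) f) (avg μ' f)] at this
  have hc0 : 0 ≤ R * ren δ p f ^ (1 / p) := by positivity
  have h4 := mul_le_mul_of_nonneg_left hI hc0
  linarith

/-- the threshold rank -/
noncomputable def Mzero (p : ℝ) : ℕ := ⌈(2:ℝ) ^ (68 * p + 8)⌉₊

/-- the total sensitivity factor -/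
noncomputable def Lam (p : ℝ) : ℝ := (Mzero p : ℝ) * ell (Mzero p) ^ 2

lemma Mzero_ge (p : ℝ) : (2:ℝ) ^ (68 * p + 8) ≤ Mzero p := Nat.le_ceil _

lemma Mzero_one_le (p : ℝ) (hp : 1 ≤ p) : (1:ℝ) ≤ Mzero p := by
  have h2rp : (1:ℝ) ≤ (2:ℝ) ^ (68 * p + 8) := Real.one_le_rpow (by norm_num) (by positivity)
  exact le_trans h2rp (Mzero_ge p)

lemma gw_Mzero (p : ℝ) (hp : 1 ≤ p) : Lam p * gw (Mzero p) = 1 := by
  have h1 := Mzero_one_le p hp
  have h2 := ell_pos _ h1
  unfold Lam gw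
  have h3 : (0:ℝ) < Mzero p := by linarith
  field_simp

lemma Lam_pos (p : ℝ) (hp : 1 ≤ p) : 0 < Lam p := by
  have h1 := Mzero_one_le p hp
  have h2 := ell_pos _ h1
  unfold Lam
  have h3 : (0:ℝ) < Mzero p := by linarith
  positivity

lemma slope_comm (δ : V → V → ℝ) (hδs : ∀ a b, δ a b = δ b a) (p : ℝ) (f : V → ℝ) (a b : V) :
    slope δ p f a b = slope δ p f b a := by
  unfold slope
  rw [abs_sub_comm, hδs]

lemma term_le_ren (δ : V → V → ℝ) (hδ0 : ∀ a b, 0 ≤ δ a b) (p : ℝ) (f : V → ℝ) (a b : V) :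
    rwt δ a b * slope δ p f a b ≤ ren δ p f := by
  unfold ren
  have hterm : ∀ a w, 0 ≤ rwt δ a w * slope δ p f a w := fun a w =>
    mul_nonneg (rwt_pos δ a w).le (slope_nonneg δ hδ0 p f a w)
  calc rwt δ a b * slope δ p f a b ≤ ∑ w, rwt δ a w * slope δ p f a w :=
        Finset.single_le_sum (f := fun w => rwt δ a w * slope δ p f a w)
          (fun w _ => hterm a w) (Finset.mem_univ b)
    _ ≤ ∑ a, ∑ w, rwt δ a w * slope δ p f a w :=
        Finset.single_le_sum (f := fun a => ∑ w, rwt δ a w * slope δ p f a w)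
          (fun a _ => Finset.sum_nonneg (fun w _ => hterm a w)) (Finset.mem_univ a)

/-- a pair with small rank is controlled by its own term -/
lemma slope_le_of_rk (δ : V → V → ℝ) (hδ0 : ∀ a b, 0 ≤ δ a b) (p : ℝ) (f : V → ℝ) (a b : V)
    (m : ℕ) (h : rk δ a b ≤ m) : slope δ p f a b * gw m ≤ ren δ p f := by
  have h1 := term_le_ren δ hδ0 p f a b
  have h2 : gw m ≤ rwt δ a b := gw_anti _ _ (rk_pos δ a b) h
  have h3 := slope_nonneg δ hδ0 p f a b
  nlinarith

/-- the point mass -/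
lemma flat_dirac (δ : V → V → ℝ) (x y : V) (r : ℝ) (h : δ x y ≤ r) :
    Flat δ x (unif {y}) 1 r := by
  refine ⟨fun u => unif_nonneg _ _, sum_unif _ ⟨y, by simp⟩, fun u => ?_, fun u hu => ?_⟩
  · have := unif_le ({y} : Finset V) u
    simpa using this
  · have := mem_of_unif_ne _ _ hu
    rw [Finset.mem_singleton] at this
    rw [this]
    exact h

lemma avg_dirac (y : V) (f : V → ℝ) : avg (unif {y}) f = f y := by
  unfold avg unif
  rw [Finset.sum_eq_single y]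
  · simp
  · intro b _ hb
    simp [hb]
  · simp

/-- The pointwise sensitivity bound: every normalised difference is controlled by the energy. -/
theorem slope_le_Lam (δ : V → V → ℝ) (p : ℝ) (hp : 1 ≤ p) (f : V → ℝ)
    (hδ0 : ∀ a b, 0 ≤ δ a b) (hδs : ∀ a b, δ a b = δ b a)
    (hδt : ∀ a b c, δ a c ≤ δ a b + δ b c) (hδr : ∀ a, δ a a = 0)
    (hf : ∀ a b, δ a b = 0 → f a = f b) (x y : V) :
    slope δ p f x y ≤ Lam p * ren δ p f := by
  have hp0 : 0 < p := by linarith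
  have hE0 := ren_nonneg δ hδ0 p f
  have hM1 := Mzero_one_le p hp
  have hLam := Lam_pos p hp
  have hgw := gw_Mzero p hp
  by_cases hr0 : δ x y = 0
  · unfold slope
    rw [hf x y hr0, sub_self, abs_zero, Real.zero_rpow hp0.ne', zero_div]
    positivity
  have hr : 0 < δ x y := lt_of_le_of_ne (hδ0 x y) (Ne.symm hr0)
  set r := δ x y with hrdef
  -- direct cases
  have hdirect : ∀ a b, rk δ a b ≤ Mzero p → slope δ p f a b ≤ Lam p * ren δ p f := by
    intro a b hab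
    have h1 := slope_le_of_rk δ hδ0 p f a b _ hab
    have h2 := mul_le_mul_of_nonneg_left h1 hLam.le
    calc slope δ p f a b = Lam p * (slope δ p f a b * gw (Mzero p)) := by
          rw [mul_comm (slope δ p f a b), ← mul_assoc, hgw, one_mul]
      _ ≤ _ := h2
  by_cases hx : Mzero p ≤ (ball δ x r).card
  swap
  · apply hdirect
    exact le_trans (rk_le_card_ball δ x y) (le_of_not_ge hx)
  by_cases hy : Mzero p ≤ (ball δ y r).card
  swap
  · rw [slope_comm δ hδs]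
    apply hdirect
    have : rk δ y x ≤ (ball δ y (δ y x)).card := rk_le_card_ball δ y x
    rw [hδs y x] at this
    exact le_trans this (le_of_not_ge hy)
  -- the chain case
  have hM1' : 1 ≤ Mzero p := by exact_mod_cast hM1
  obtain ⟨μx, hfx, hcx⟩ := step_low δ p hp f hδ0 hδt hf x (unif {x}) 1 r
    (flat_dirac δ x x r (by rw [hδr]; exact hr.le)) (Mzero p) hM1' r hr.le (by
      intro u hu
      have := mem_of_unif_ne _ _ hu
      rw [Finset.mem_singleton] at this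
      rw [this]
      exact hx)
  obtain ⟨μy, hfy, hcy⟩ := step_low δ p hp f hδ0 hδt hf x (unif {y}) 1 r
    (flat_dirac δ x y r le_rfl) (Mzero p) hM1' r hr.le (by
      intro u hu
      have := mem_of_unif_ne _ _ hu
      rw [Finset.mem_singleton] at this
      rw [this]
      exact hy)
  rw [avg_dirac] at hcx hcy
  have hfx' : Flat δ x μx (1 / (Mzero p : ℝ)) (r + r) :=
    flat_mono δ x μx _ _ _ _ hfx le_rfl (by linarith)
  have hft := flat_transport δ p hp f hδ0 hδs hδt hδr hf x (r + r) (by linarith) (Mzero p)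
    (Mzero_ge p) μx μy hfx' hfy
  have hM0 : (0:ℝ) < Mzero p := by linarith
  set E := ren δ p f with hE
  set el := ell (Mzero p) with hel
  have hel1 : 1 ≤ el := one_le_ell _ hM1
  have hEp : 0 ≤ E ^ (1 / p) := Real.rpow_nonneg hE0 _
  have hel2 : 1 ≤ (el ^ 2) ^ (1 / p) := Real.one_le_rpow (by nlinarith) (by positivity)
  have hM2 : (Mzero p : ℝ) ^ (-(1 / (4 * p))) ≤ 1 :=
    Real.rpow_le_one_of_one_le_of_nonpos hM1 (by
      have : 0 < 1 / (4 * p) := by positivity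
      linarith)
  have hM3 : (11:ℝ) ≤ (Mzero p : ℝ) ^ (1 / p) := by
    have h1 : (2:ℝ) ^ (68 * p) ≤ Mzero p :=
      le_trans (Real.rpow_le_rpow_of_exponent_le (by norm_num) (by linarith)) (Mzero_ge p)
    have h2 : ((2:ℝ) ^ (68 * p)) ^ (1 / p) ≤ (Mzero p : ℝ) ^ (1 / p) :=
      Real.rpow_le_rpow (by positivity) h1 (by positivity)
    rw [← Real.rpow_mul (by norm_num)] at h2
    have h3 : 68 * p * (1 / p) = 68 := by field_simp
    rw [h3] at h2
    refine le_trans ?_ h2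
    have h4 : (11:ℝ) ≤ (2:ℝ) ^ (4:ℕ) := by norm_num
    refine le_trans h4 ?_
    rw [← Real.rpow_natCast]
    exact Real.rpow_le_rpow_of_exponent_le (by norm_num) (by norm_num)
  -- the estimate
  have hcx' : |f x - avg μx f| ≤ r * ((el ^ 2) ^ (1 / p) * E ^ (1 / p)) := by
    refine le_trans hcx (le_of_eq ?_)
    rw [one_mul, Real.mul_rpow (by positivity) hE0]
  have hcy' : |f y - avg μy f| ≤ r * ((el ^ 2) ^ (1 / p) * E ^ (1 / p)) := by
    refine le_trans hcy (le_of_eq ?_)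
    rw [one_mul, Real.mul_rpow (by positivity) hE0]
  have hsum : |f x - f y| ≤ r * ((el ^ 2) ^ (1 / p) * E ^ (1 / p)) * (Mzero p : ℝ) ^ (1 / p) := by
    have h1 : |f x - f y| ≤ |f x - avg μx f| + |avg μx f - avg μy f| + |f y - avg μy f| := by
      have h2 := abs_sub_le (f x) (avg μx f) (f y)
      have h3 := abs_sub_le (avg μx f) (avg μy f) (f y)
      rw [abs_sub_comm (avg μy f) (f y)] at h3
      linarith
    have hA : 0 ≤ r * ((el ^ 2) ^ (1 / p) * E ^ (1 / p)) := by positivity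
    have h4 : |avg μx f - avg μy f| ≤ 8 * (r * ((el ^ 2) ^ (1 / p) * E ^ (1 / p))) := by
      refine le_trans hft ?_
      have h5 : 4 * (r + r) * E ^ (1 / p) * (Mzero p : ℝ) ^ (-(1 / (4 * p)))
          ≤ 8 * r * E ^ (1 / p) * 1 := by
        have : 4 * (r + r) = 8 * r := by ring
        rw [this]
        exact mul_le_mul_of_nonneg_left hM2 (by positivity)
      refine le_trans h5 ?_
      have h6 : r * E ^ (1 / p) ≤ r * E ^ (1 / p) * (el ^ 2) ^ (1 / p) :=
        le_mul_of_one_le_right (by positivity) hel2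
      nlinarith
    calc |f x - f y| ≤ (1 + 8 + 1) * (r * ((el ^ 2) ^ (1 / p) * E ^ (1 / p))) := by linarith
      _ ≤ 11 * (r * ((el ^ 2) ^ (1 / p) * E ^ (1 / p))) :=
          mul_le_mul_of_nonneg_right (by norm_num) hA
      _ ≤ (Mzero p : ℝ) ^ (1 / p) * (r * ((el ^ 2) ^ (1 / p) * E ^ (1 / p))) :=
          mul_le_mul_of_nonneg_right hM3 hA
      _ = _ := by ring
  have hpow : |f x - f y| ^ p ≤ r ^ p * (Lam p * E) := by
    have h1 := Real.rpow_le_rpow (abs_nonneg _) hsum hp0.le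
    refine le_trans h1 (le_of_eq ?_)
    have hel0 : (0:ℝ) ≤ el ^ 2 := by positivity
    rw [Real.mul_rpow (by positivity) (by positivity), Real.mul_rpow hr.le (by positivity),
      Real.mul_rpow (by positivity) hEp, ← Real.rpow_mul hel0, ← Real.rpow_mul hE0,
      ← Real.rpow_mul hM0.le, one_div_mul_cancel hp0.ne', Real.rpow_one, Real.rpow_one,
      Real.rpow_one]
    unfold Lam
    ring
  unfold slope
  have hrp : 0 < r ^ p := Real.rpow_pos_of_pos hr _
  rw [div_le_iff₀ hrp]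
  linarith

end ChainSeq

end Vale.Agent.Lib.P249
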