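import Mathlib
import Vale.Agent.Lib.P249.Cube

namespace Vale.Agent.Lib.P249

section LLL

set_option linter.unusedSectionVars false

variable {T : Type*} [Fintype T] [DecidableEq T] {ι : Type*} [DecidableEq ι]

/-- the points avoiding all the events of a family -/
noncomputable def goodSet (bad : ι → Finset (T → Bool)) (B : Finset ι) : Finset (T → Bool) :=
  (Finset.univ : Finset (T → Bool)).filter (fun ω => ∀ b ∈ B, ω ∉ bad b)

lemma goodSet_empty (bad : ι → Finset (T → Bool)) :
    goodSet bad (∅ : Finset ι) = (Finset.univ : Finset (T → Bool)) := by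
  simp [goodSet]

lemma mem_goodSet (bad : ι → Finset (T → Bool)) (B : Finset ι) (ω : T → Bool) :
    ω ∈ goodSet bad B ↔ ∀ b ∈ B, ω ∉ bad b := by
  simp [goodSet]

lemma goodSet_insert_step (bad : ι → Finset (T → Bool)) (B : Finset ι) (b : ι) (x : ℝ)
    (h : (((goodSet bad B) ∩ bad b).card : ℝ) ≤ x * ((goodSet bad B).card : ℝ)) :
    (1 - x) * ((goodSet bad B).card : ℝ) ≤ ((goodSet bad (insert b B)).card : ℝ) := by
  have hdisj : goodSet bad (insert b B) ∪ ((goodSet bad B) ∩ bad b) = goodSet bad B := by
    ext ω
    simp only [Finset.mem_union, mem_goodSet, Finset.mem_inter, Finset.mem_insert, forall_eq_or_imp]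
    constructor
    · rintro (h | h)
      · exact h.2
      · exact h.1
    · intro h
      by_cases hb : ω ∈ bad b
      · exact Or.inr ⟨h, hb⟩
      · exact Or.inl ⟨hb, h⟩
  have hd2 : Disjoint (goodSet bad (insert b B)) ((goodSet bad B) ∩ bad b) := by
    rw [Finset.disjoint_left]
    intro ω h1 h2
    rw [mem_goodSet] at h1
    rw [Finset.mem_inter] at h2
    exact h1 b (Finset.mem_insert_self _ _) h2.2
  have hc := Finset.card_union_of_disjoint hd2
  rw [hdisj] at hc
  have hc' : ((goodSet bad B).card : ℝ)
      = ((goodSet bad (insert b B)).card : ℝ) + (((goodSet bad B) ∩ bad b).card : ℝ) := by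
    exact_mod_cast hc
  linarith

lemma goodSet_anti (bad : ι → Finset (T → Bool)) (B C : Finset ι) (h : B ⊆ C) :
    goodSet bad C ⊆ goodSet bad B := by
  intro ω hω
  rw [mem_goodSet] at hω ⊢
  exact fun b hb => hω b (h hb)

/-- The local lemma on the cube, in the form of counting. -/
theorem local_lemma (A : Finset ι) (bad : ι → Finset (T → Bool)) (S : ι → Finset T) (x : ι → ℝ)
    (hdep : ∀ a ∈ A, ∀ ω ω', (∀ t ∈ S a, ω t = ω' t) → ω ∈ bad a → ω' ∈ bad a)
    (hx0 : ∀ a ∈ A, 0 ≤ x a) (hx1 : ∀ a ∈ A, x a < 1)
    (hbad : ∀ a ∈ A, ((bad a).card : ℝ)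
      ≤ x a * (∏ b ∈ A.filter (fun b => b ≠ a ∧ ¬ Disjoint (S b) (S a)), (1 - x b))
        * 2 ^ Fintype.card T) :
    ∃ ω : T → Bool, ∀ a ∈ A, ω ∉ bad a := by
  classical
  have hΩ : ((Finset.univ : Finset (T → Bool)).card : ℝ) = 2 ^ Fintype.card T := by
    rw [Finset.card_univ, Fintype.card_fun]
    simp
  -- the statement proved by strong induction
  have key : ∀ k : ℕ, ∀ B : Finset ι, B ⊆ A → B.card = k →
      0 < ((goodSet bad B).card : ℝ) ∧
      ∀ a ∈ A, a ∉ B → (((goodSet bad B) ∩ bad a).card : ℝ) ≤ x a * ((goodSet bad B).card : ℝ) := by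
    intro k
    induction k using Nat.strong_induction_on with
    | _ k ih =>
      intro B hBA hBk
      have hstep : ∀ C : Finset ι, C ⊆ A → C.card < k →
          ∀ b ∈ A, b ∉ C → (1 - x b) * ((goodSet bad C).card : ℝ)
            ≤ ((goodSet bad (insert b C)).card : ℝ) := by
        intro C hC hCk b hb hbC
        exact goodSet_insert_step bad C b _ ((ih _ hCk C hC rfl).2 b hb hbC)
      constructor
      · -- positivity
        by_cases hB : B = ∅
        · rw [hB, goodSet_empty, hΩ]
          positivity
        · obtain ⟨b, hb⟩ := Finset.nonempty_iff_ne_empty.mpr hB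
          have hCk : (B.erase b).card < k := by
            rw [Finset.card_erase_of_mem hb]
            have := Finset.card_pos.mpr ⟨b, hb⟩
            omega
          have hCA : B.erase b ⊆ A := (Finset.erase_subset _ _).trans hBA
          have h1 := (ih _ hCk _ hCA rfl).1
          have h2 := hstep _ hCA hCk b (hBA hb) (Finset.notMem_erase _ _)
          rw [Finset.insert_erase hb] at h2
          have h3 : 0 < 1 - x b := by linarith [hx1 b (hBA hb)]
          exact lt_of_lt_of_le (mul_pos h3 h1) h2
      · intro a ha haB
        let B₁ := B.filter (fun b => ¬ Disjoint (S b) (S a))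
        let B₂ := B.filter (fun b => Disjoint (S b) (S a))
        have hB12 : ∀ D : Finset ι, D ⊆ B₁ →
            ((goodSet bad B₂).card : ℝ) * ∏ b ∈ D, (1 - x b) ≤ ((goodSet bad (B₂ ∪ D)).card : ℝ) := by
          intro D
          induction D using Finset.induction_on with
          | empty =>
            intro _
            simp
          | insert b D hbD ihD =>
            intro hD
            have hbB₁ : b ∈ B₁ := hD (Finset.mem_insert_self _ _)
            have hbB : b ∈ B := (Finset.mem_filter.mp hbB₁).1
            have hbnot : ¬ Disjoint (S b) (S a) := (Finset.mem_filter.mp hbB₁).2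
            have hDsub : D ⊆ B₁ := fun y hy => hD (Finset.mem_insert_of_mem hy)
            have hih := ihD hDsub
            have hsubB : B₂ ∪ insert b D ⊆ B := by
              intro y hy
              rcases Finset.mem_union.mp hy with h | h
              · exact (Finset.mem_filter.mp h).1
              · exact (Finset.mem_filter.mp (hD h)).1
            have hb2 : b ∉ B₂ ∪ D := by
              intro h
              rcases Finset.mem_union.mp h with h | h
              · exact hbnot (Finset.mem_filter.mp h).2
              · exact hbD h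
            have hCk : (B₂ ∪ D).card < k := by
              have h1 : insert b (B₂ ∪ D) = B₂ ∪ insert b D := by
                rw [Finset.union_insert]
              have h2 : (insert b (B₂ ∪ D)).card ≤ B.card := by
                rw [h1]
                exact Finset.card_le_card hsubB
              rw [Finset.card_insert_of_notMem hb2] at h2
              omega
            have hCA : B₂ ∪ D ⊆ A := by
              intro y hy
              apply hBA
              apply hsubB
              rcases Finset.mem_union.mp hy with h | h
              · exact Finset.mem_union_left _ h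
              · exact Finset.mem_union_right _ (Finset.mem_insert_of_mem h)
            have h3 := hstep _ hCA hCk b (hBA hbB) hb2
            rw [Finset.prod_insert hbD, Finset.union_insert]
            have h4 : 0 ≤ 1 - x b := by linarith [hx1 b (hBA hbB)]
            calc ((goodSet bad B₂).card : ℝ) * ((1 - x b) * ∏ y ∈ D, (1 - x y))
                = (1 - x b) * (((goodSet bad B₂).card : ℝ) * ∏ y ∈ D, (1 - x y)) := by ring
              _ ≤ (1 - x b) * ((goodSet bad (B₂ ∪ D)).card : ℝ) :=
                  mul_le_mul_of_nonneg_left hih h4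
              _ ≤ _ := h3
        have hB₁₂ : B₂ ∪ B₁ = B := by
          ext y
          simp only [B₁, B₂, Finset.mem_union, Finset.mem_filter]
          constructor
          · rintro (h | h) <;> exact h.1
          · intro h
            by_cases hy : Disjoint (S y) (S a)
            · exact Or.inl ⟨h, hy⟩
            · exact Or.inr ⟨h, hy⟩
        have h1 := hB12 B₁ (Finset.Subset.refl _)
        rw [hB₁₂] at h1
        -- independence
        have hind := card_inter_mul (S a) (bad a) (goodSet bad B₂) (hdep a ha) (by
          intro ω ω' hag hω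
          rw [mem_goodSet] at hω ⊢
          intro b hb hb'
          have hbB : b ∈ B := (Finset.mem_filter.mp hb).1
          have hdisj : Disjoint (S b) (S a) := (Finset.mem_filter.mp hb).2
          apply hω b hb
          refine hdep b (hBA hbB) ω' ω (fun t ht => ?_) hb'
          exact (hag t (Finset.disjoint_left.mp hdisj ht)).symm)
        have hind' : ((bad a ∩ goodSet bad B₂).card : ℝ) * 2 ^ Fintype.card T
            = ((bad a).card : ℝ) * ((goodSet bad B₂).card : ℝ) := by
          rw [← hΩ]
          exact_mod_cast hind
        have hsub : (goodSet bad B) ∩ bad a ⊆ bad a ∩ goodSet bad B₂ := by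
          intro ω hω
          rw [Finset.mem_inter] at hω ⊢
          refine ⟨hω.2, goodSet_anti bad B₂ B ?_ hω.1⟩
          exact Finset.filter_subset _ _
        have hsub' : (((goodSet bad B) ∩ bad a).card : ℝ) ≤ ((bad a ∩ goodSet bad B₂).card : ℝ) := by
          exact_mod_cast Finset.card_le_card hsub
        have hpow : (0:ℝ) < 2 ^ Fintype.card T := by positivity
        set P := ∏ b ∈ A.filter (fun b => b ≠ a ∧ ¬ Disjoint (S b) (S a)), (1 - x b) with hP
        have hB1sub : B₁ ⊆ A.filter (fun b => b ≠ a ∧ ¬ Disjoint (S b) (S a)) := by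
          intro y hy
          have hy1 := Finset.mem_filter.mp hy
          rw [Finset.mem_filter]
          refine ⟨hBA hy1.1, ?_, hy1.2⟩
          rintro rfl
          exact haB hy1.1
        have hfac0 : ∀ b ∈ A.filter (fun b => b ≠ a ∧ ¬ Disjoint (S b) (S a)), 0 ≤ 1 - x b := by
          intro b hb
          have := hx1 b (Finset.mem_filter.mp hb).1
          linarith
        have hfac1 : ∀ b ∈ A.filter (fun b => b ≠ a ∧ ¬ Disjoint (S b) (S a)), 1 - x b ≤ 1 := by
          intro b hb
          have := hx0 b (Finset.mem_filter.mp hb).1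
          linarith
        have hPle : P ≤ ∏ b ∈ B₁, (1 - x b) := by
          rw [hP, ← Finset.prod_sdiff hB1sub]
          have h5 : ∏ b ∈ A.filter (fun b => b ≠ a ∧ ¬ Disjoint (S b) (S a)) \ B₁, (1 - x b) ≤ 1 :=
            Finset.prod_le_one (fun b hb => hfac0 b (Finset.mem_sdiff.mp hb).1)
              (fun b hb => hfac1 b (Finset.mem_sdiff.mp hb).1)
          have h6 : 0 ≤ ∏ b ∈ B₁, (1 - x b) :=
            Finset.prod_nonneg (fun b hb => hfac0 b (hB1sub hb))
          nlinarith
        have hbada := hbad a ha
        have hG0 : (0:ℝ) ≤ ((goodSet bad B₂).card : ℝ) := by positivity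
        have hx0a := hx0 a ha
        have h7 : ((bad a ∩ goodSet bad B₂).card : ℝ) ≤ x a * P * ((goodSet bad B₂).card : ℝ) := by
          have h8 : ((bad a ∩ goodSet bad B₂).card : ℝ) * 2 ^ Fintype.card T
              ≤ (x a * P * ((goodSet bad B₂).card : ℝ)) * 2 ^ Fintype.card T := by
            rw [hind']
            calc ((bad a).card : ℝ) * ((goodSet bad B₂).card : ℝ)
                ≤ (x a * P * 2 ^ Fintype.card T) * ((goodSet bad B₂).card : ℝ) :=
                  mul_le_mul_of_nonneg_right hbada hG0
              _ = _ := by ring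
          exact le_of_mul_le_mul_right h8 hpow
        calc (((goodSet bad B) ∩ bad a).card : ℝ) ≤ ((bad a ∩ goodSet bad B₂).card : ℝ) := hsub'
          _ ≤ x a * P * ((goodSet bad B₂).card : ℝ) := h7
          _ ≤ x a * (∏ b ∈ B₁, (1 - x b)) * ((goodSet bad B₂).card : ℝ) := by
              apply mul_le_mul_of_nonneg_right _ hG0
              exact mul_le_mul_of_nonneg_left hPle hx0a
          _ = x a * (((goodSet bad B₂).card : ℝ) * ∏ b ∈ B₁, (1 - x b)) := by ring
          _ ≤ x a * ((goodSet bad B).card : ℝ) := mul_le_mul_of_nonneg_left h1 hx0a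
  obtain ⟨h1, _⟩ := key A.card A (Finset.Subset.refl _) rfl
  have h2 : 0 < (goodSet bad A).card := by exact_mod_cast h1
  obtain ⟨ω, hω⟩ := Finset.card_pos.mp h2
  exact ⟨ω, (mem_goodSet _ _ _).mp hω⟩

end LLL

end Vale.Agent.Lib.P249
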