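import Mathlib
import Vale.Agent.Lib.P249.LLL

namespace Vale.Agent.Lib.P249

section Halving

set_option linter.unusedSectionVars false

variable {T : Type*} [Fintype T] [DecidableEq T] {ι : Type*} [DecidableEq ι]

lemma one_sub_ge_exp (y : ℝ) (hy0 : 0 ≤ y) (hy1 : y ≤ 1 / 2) : Real.exp (-(2 * y)) ≤ 1 - y := by
  have h1 : 0 < 1 - y := by linarith
  have h2 := Real.one_sub_inv_le_log_of_pos h1
  have h3 : -(2 * y) ≤ Real.log (1 - y) := by
    refine le_trans ?_ h2
    have h4 : (1 - y)⁻¹ ≤ 1 + 2 * y := by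
      rw [inv_le_iff_one_le_mul₀ h1]
      nlinarith
    linarith
  calc Real.exp (-(2 * y)) ≤ Real.exp (Real.log (1 - y)) := Real.exp_le_exp.mpr h3
    _ = 1 - y := Real.exp_log h1

/-- the tail estimate for one event -/
lemma bad_card_le (u : T → ℝ) (s κ w ε₁ R₀ : ℝ) (hw : 0 < w) (hε : 0 < ε₁) (hR₀ : 1 ≤ R₀)
    (hs : 0 < s) (hκ : 0 < κ)
    (hv : ∀ t, u t ≠ 0 → s / R₀ ≤ |u t| ∧ |u t| ≤ s) :
    (((Finset.univ : Finset (T → Bool)).filter
        (fun ω => ε₁ * (w * ∑ t, |u t|) + κ < |w * ∑ t, sg ω t * u t|)).card : ℝ)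
      ≤ 2 * 2 ^ Fintype.card T * Real.exp (-(ε₁ ^ 2 * (((Finset.univ.filter (fun t => u t ≠ 0)).card : ℝ))
          / (2 * R₀) + ε₁ * κ / (w * s))) := by
  set M := ∑ t, |u t| with hM
  set nS : ℝ := ((Finset.univ.filter (fun t => u t ≠ 0)).card : ℝ) with hnS
  set Sq := ∑ t, u t ^ 2 with hSq
  have hR₀0 : 0 < R₀ := by linarith
  have hM0 : 0 ≤ M := Finset.sum_nonneg (fun t _ => abs_nonneg _)
  have hSqle : Sq ≤ s * M := by
    rw [hSq, hM, Finset.mul_sum]
    refine Finset.sum_le_sum (fun t _ => ?_)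
    by_cases ht : u t = 0
    · simp [ht]
    · have h1 := (hv t ht).2
      rw [← sq_abs]
      have h2 := abs_nonneg (u t)
      nlinarith
  have hMnS : nS * (s / R₀) ≤ M := by
    rw [hnS, ← nsmul_eq_mul, ← Finset.sum_const, hM]
    calc ∑ _x ∈ Finset.univ.filter (fun t => u t ≠ 0), s / R₀
        ≤ ∑ t ∈ Finset.univ.filter (fun t => u t ≠ 0), |u t| := by
          refine Finset.sum_le_sum (fun t ht => ?_)
          exact (hv t (Finset.mem_filter.mp ht).2).1
      _ ≤ ∑ t, |u t| := Finset.sum_le_sum_of_subset_of_nonneg (Finset.subset_univ _)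
          (fun _ _ _ => abs_nonneg _)
  by_cases hSq0 : Sq = 0
  · have hall : ∀ t, u t = 0 := by
      intro t
      have h1 : u t ^ 2 = 0 := by
        have := (Finset.sum_eq_zero_iff_of_nonneg (fun t _ => sq_nonneg (u t))).mp hSq0
        exact this t (Finset.mem_univ _)
      exact pow_eq_zero_iff (by norm_num) |>.mp h1
    have hempty : (Finset.univ : Finset (T → Bool)).filter
        (fun ω => ε₁ * (w * M) + κ < |w * ∑ t, sg ω t * u t|) = ∅ := by
      apply Finset.filter_eq_empty_iff.mpr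
      intro ω _
      simp only [hall, mul_zero, Finset.sum_const_zero, abs_zero, not_lt]
      positivity
    rw [hempty]
    simp only [Finset.card_empty, Nat.cast_zero]
    positivity
  have hSqpos : 0 < Sq := lt_of_le_of_ne (Finset.sum_nonneg (fun t _ => sq_nonneg _)) (Ne.symm hSq0)
  have hMpos : 0 < M := by
    by_contra h
    have : M = 0 := le_antisymm (not_lt.mp h) hM0
    rw [this] at hSqle
    linarith
  set τ := (ε₁ * (w * M) + κ) / w with hτ
  have hτ0 : 0 < τ := by positivity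
  have hsub : (Finset.univ : Finset (T → Bool)).filter
        (fun ω => ε₁ * (w * M) + κ < |w * ∑ t, sg ω t * u t|)
      ⊆ (Finset.univ : Finset (T → Bool)).filter (fun ω => τ < |∑ t, u t * sg ω t|) := by
    intro ω hω
    rw [Finset.mem_filter] at hω ⊢
    refine ⟨hω.1, ?_⟩
    have h1 := hω.2
    rw [abs_mul, abs_of_pos hw] at h1
    have h2 : ∑ t, u t * sg ω t = ∑ t, sg ω t * u t :=
      Finset.sum_congr rfl (fun t _ => mul_comm _ _)
    rw [h2, hτ, div_lt_iff₀ hw]
    linarith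
  have h1 := hoeffding_two u τ hτ0 hSqpos
  have h2 : (((Finset.univ : Finset (T → Bool)).filter
        (fun ω => ε₁ * (w * M) + κ < |w * ∑ t, sg ω t * u t|)).card : ℝ)
      ≤ (((Finset.univ : Finset (T → Bool)).filter (fun ω => τ < |∑ t, u t * sg ω t|)).card : ℝ) := by
    exact_mod_cast Finset.card_le_card hsub
  refine le_trans h2 (le_trans h1 ?_)
  apply mul_le_mul_of_nonneg_left _ (by positivity)
  apply Real.exp_le_exp.mpr
  apply neg_le_neg
  -- the exponent
  have hexp : ε₁ ^ 2 * M / (2 * s) + ε₁ * κ / (w * s) ≤ τ ^ 2 / (2 * Sq) := by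
    have h3 : τ ^ 2 / (2 * (s * M)) ≤ τ ^ 2 / (2 * Sq) := by
      apply div_le_div_of_nonneg_left (by positivity) (by positivity)
      linarith
    refine le_trans ?_ h3
    rw [hτ]
    have h5 : ((ε₁ * (w * M) + κ) / w) ^ 2 / (2 * (s * M))
        = ε₁ ^ 2 * M / (2 * s) + ε₁ * κ / (w * s) + κ ^ 2 / (2 * w ^ 2 * s * M) := by
      field_simp
      ring
    rw [h5]
    have h6 : 0 ≤ κ ^ 2 / (2 * w ^ 2 * s * M) := by positivity
    linarith
  have h7 : ε₁ ^ 2 * nS / (2 * R₀) ≤ ε₁ ^ 2 * M / (2 * s) := by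
    have h8 : nS / R₀ ≤ M / s := by
      rw [le_div_iff₀ hs]
      calc nS / R₀ * s = nS * (s / R₀) := by ring
        _ ≤ M := hMnS
    have h9 : ε₁ ^ 2 * nS / (2 * R₀) = (ε₁ ^ 2 / 2) * (nS / R₀) := by
      field_simp
    have h10 : ε₁ ^ 2 * M / (2 * s) = (ε₁ ^ 2 / 2) * (M / s) := by
      field_simp
    rw [h9, h10]
    exact mul_le_mul_of_nonneg_left h8 (by positivity)
  linarith

/-- Random signs keeping all the given sums under control, by the local lemma. -/
theorem halving (A : Finset ι) (v : ι → T → ℝ) (s κ : ι → ℝ) (w ε₁ R₀ : ℝ)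
    (hw : 0 < w) (hε : 0 < ε₁) (hR₀ : 1 ≤ R₀)
    (hs : ∀ a ∈ A, 0 < s a) (hκ : ∀ a ∈ A, 0 < κ a)
    (hv : ∀ a ∈ A, ∀ t, v a t ≠ 0 → s a / R₀ ≤ |v a t| ∧ |v a t| ≤ s a)
    (hf : ∀ a ∈ A, 2 ≤ ε₁ * κ a / (w * s a))
    (hload : ∀ t, ∑ a ∈ A.filter (fun a => v a t ≠ 0),
      Real.exp (-(ε₁ * κ a / (w * s a) / 2)) ≤ ε₁ ^ 2 / (8 * R₀)) :
    ∃ ζ : T → ℝ, (∀ t, ζ t = 1 ∨ ζ t = -1) ∧
      ∀ a ∈ A, |w * ∑ t, ζ t * v a t| ≤ ε₁ * (w * ∑ t, |v a t|) + κ a := by
  classical
  have hR₀0 : 0 < R₀ := by linarith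
  let F : ι → ℝ := fun a => ε₁ * κ a / (w * s a)
  let x : ι → ℝ := fun a => Real.exp (-(F a / 2))
  let S : ι → Finset T := fun a => Finset.univ.filter (fun t => v a t ≠ 0)
  let bad : ι → Finset (T → Bool) := fun a => (Finset.univ : Finset (T → Bool)).filter
    (fun ω => ε₁ * (w * ∑ t, |v a t|) + κ a < |w * ∑ t, sg ω t * v a t|)
  have hxpos : ∀ a, 0 < x a := fun a => Real.exp_pos _
  have hxhalf : ∀ a ∈ A, x a ≤ 1 / 2 := by
    intro a ha
    have h1 : F a / 2 ≥ 1 := by
      have := hf a ha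
      simp only [F]
      linarith
    have h2 : x a ≤ Real.exp (-1) := Real.exp_le_exp.mpr (by linarith)
    have h3 : Real.exp (-1) ≤ 1 / 2 := by
      rw [Real.exp_neg, one_div]
      apply inv_anti₀ (by norm_num)
      have := Real.add_one_le_exp (1:ℝ)
      linarith
    linarith
  have hdep : ∀ a ∈ A, ∀ ω ω', (∀ t ∈ S a, ω t = ω' t) → ω ∈ bad a → ω' ∈ bad a := by
    intro a _ ω ω' hag hω
    simp only [bad, Finset.mem_filter, Finset.mem_univ, true_and] at hω ⊢
    have h1 : ∑ t, sg ω' t * v a t = ∑ t, sg ω t * v a t := by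
      refine Finset.sum_congr rfl (fun t _ => ?_)
      by_cases ht : v a t = 0
      · simp [ht]
      · have : t ∈ S a := by simp [S, ht]
        unfold sg
        rw [hag t this]
    rw [h1]
    exact hω
  have hbad : ∀ a ∈ A, ((bad a).card : ℝ)
      ≤ x a * (∏ b ∈ A.filter (fun b => b ≠ a ∧ ¬ Disjoint (S b) (S a)), (1 - x b))
        * 2 ^ Fintype.card T := by
    intro a ha
    have h1 := bad_card_le (v a) (s a) (κ a) w ε₁ R₀ hw hε hR₀ (hs a ha) (hκ a ha) (hv a ha)
    refine le_trans h1 ?_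
    set nS : ℝ := ((S a).card : ℝ) with hnS
    -- the sum over the neighbours
    have hsumx : ∑ b ∈ A.filter (fun b => b ≠ a ∧ ¬ Disjoint (S b) (S a)), x b
        ≤ nS * (ε₁ ^ 2 / (8 * R₀)) := by
      have h2 : ∑ b ∈ A.filter (fun b => b ≠ a ∧ ¬ Disjoint (S b) (S a)), x b
          ≤ ∑ b ∈ A, ∑ t ∈ S a, (if v b t ≠ 0 then x b else 0) := by
        refine le_trans ?_ (Finset.sum_le_sum_of_subset_of_nonneg (Finset.filter_subset (fun b => b ≠ a ∧ ¬ Disjoint (S b) (S a)) A) ?_)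
        · refine Finset.sum_le_sum (fun b hb => ?_)
          have hb2 := (Finset.mem_filter.mp hb).2.2
          rw [Finset.not_disjoint_iff] at hb2
          obtain ⟨t, ht1, ht2⟩ := hb2
          have hvb : v b t ≠ 0 := (Finset.mem_filter.mp ht1).2
          calc x b = (if v b t ≠ 0 then x b else 0) := by rw [if_pos hvb]
            _ ≤ _ := Finset.single_le_sum
                (f := fun t => if v b t ≠ 0 then x b else 0)
                (fun t _ => by
                  split_ifs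
                  · exact (hxpos b).le
                  · exact le_rfl) ht2
        · intro b _ _
          refine Finset.sum_nonneg (fun t _ => ?_)
          split_ifs
          · exact (hxpos b).le
          · exact le_rfl
      refine le_trans h2 ?_
      rw [Finset.sum_comm]
      calc ∑ t ∈ S a, ∑ b ∈ A, (if v b t ≠ 0 then x b else 0)
          = ∑ t ∈ S a, ∑ b ∈ A.filter (fun b => v b t ≠ 0), x b := by
            refine Finset.sum_congr rfl (fun t _ => ?_)
            rw [Finset.sum_filter]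
        _ ≤ ∑ _t ∈ S a, ε₁ ^ 2 / (8 * R₀) := Finset.sum_le_sum (fun t _ => hload t)
        _ = nS * (ε₁ ^ 2 / (8 * R₀)) := by rw [Finset.sum_const, nsmul_eq_mul]
    -- the product
    have hprod : Real.exp (-(2 * (nS * (ε₁ ^ 2 / (8 * R₀)))))
        ≤ ∏ b ∈ A.filter (fun b => b ≠ a ∧ ¬ Disjoint (S b) (S a)), (1 - x b) := by
      have h3 : ∏ b ∈ A.filter (fun b => b ≠ a ∧ ¬ Disjoint (S b) (S a)), Real.exp (-(2 * x b))
          ≤ ∏ b ∈ A.filter (fun b => b ≠ a ∧ ¬ Disjoint (S b) (S a)), (1 - x b) :=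
        Finset.prod_le_prod (fun b _ => (Real.exp_pos _).le)
          (fun b hb => one_sub_ge_exp _ (hxpos b).le (hxhalf b (Finset.mem_filter.mp hb).1))
      refine le_trans ?_ h3
      rw [← Real.exp_sum]
      apply Real.exp_le_exp.mpr
      rw [Finset.sum_neg_distrib, ← Finset.mul_sum]
      linarith
    -- the comparison
    have hfa : 2 ≤ F a := hf a ha
    have h4 : (2:ℝ) ≤ Real.exp (F a / 2 + nS * ε₁ ^ 2 / (4 * R₀)) := by
      have h5 : 1 ≤ F a / 2 + nS * ε₁ ^ 2 / (4 * R₀) := by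
        have : 0 ≤ nS * ε₁ ^ 2 / (4 * R₀) := by positivity
        linarith
      have h6 := Real.add_one_le_exp (F a / 2 + nS * ε₁ ^ 2 / (4 * R₀))
      linarith
    have hpow : (0:ℝ) < 2 ^ Fintype.card T := by positivity
    have h7 : 2 * Real.exp (-(ε₁ ^ 2 * nS / (2 * R₀) + F a))
        ≤ x a * Real.exp (-(2 * (nS * (ε₁ ^ 2 / (8 * R₀))))) := by
      have h8 : x a * Real.exp (-(2 * (nS * (ε₁ ^ 2 / (8 * R₀)))))
          = Real.exp (F a / 2 + nS * ε₁ ^ 2 / (4 * R₀))
            * Real.exp (-(ε₁ ^ 2 * nS / (2 * R₀) + F a)) := by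
        simp only [x]
        rw [← Real.exp_add, ← Real.exp_add]
        congr 1
        field_simp
        ring
      rw [h8]
      exact mul_le_mul_of_nonneg_right h4 (Real.exp_pos _).le
    calc 2 * 2 ^ Fintype.card T * Real.exp (-(ε₁ ^ 2 * nS / (2 * R₀) + ε₁ * κ a / (w * s a)))
        = (2 * Real.exp (-(ε₁ ^ 2 * nS / (2 * R₀) + F a))) * 2 ^ Fintype.card T := by
          simp only [F]
          ring
      _ ≤ (x a * Real.exp (-(2 * (nS * (ε₁ ^ 2 / (8 * R₀)))))) * 2 ^ Fintype.card T :=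
          mul_le_mul_of_nonneg_right h7 hpow.le
      _ ≤ (x a * ∏ b ∈ A.filter (fun b => b ≠ a ∧ ¬ Disjoint (S b) (S a)), (1 - x b))
            * 2 ^ Fintype.card T := by
          apply mul_le_mul_of_nonneg_right _ hpow.le
          exact mul_le_mul_of_nonneg_left hprod (hxpos a).le
  obtain ⟨ω, hω⟩ := local_lemma A bad S x hdep (fun a _ => (hxpos a).le)
    (fun a ha => by linarith [hxhalf a ha]) hbad
  refine ⟨sg ω, sg_eq ω, fun a ha => ?_⟩
  have := hω a ha
  simp only [bad, Finset.mem_filter, Finset.mem_univ, true_and, not_lt] at this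
  exact this

end Halving

end Vale.Agent.Lib.P249
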