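import Mathlib
import Vale.Agent.Lib.P249.Embedding
import Vale.Agent.Lib.P249.FlatChain

open MeasureTheory

namespace Vale.Agent.Lib.P249

section Main

variable {Ω : Type*} [MeasurableSpace Ω] {μ : Measure Ω}

lemma Lam_le (p : ℝ) (hp : 1 ≤ p) : Lam p ≤ (2:ℝ) ^ (70 * p + 21) := by
  have hp0 : 0 < p := by linarith
  have h2rp : (1:ℝ) ≤ (2:ℝ) ^ (68 * p + 8) := Real.one_le_rpow (by norm_num) (by positivity)
  have hM1 := Mzero_one_le p hp
  have hM0 : (0:ℝ) < Mzero p := by linarith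
  have hM2 : (Mzero p : ℝ) ≤ (2:ℝ) ^ (68 * p + 9) := by
    have h1 : (Mzero p : ℝ) < (2:ℝ) ^ (68 * p + 8) + 1 := Nat.ceil_lt_add_one (by positivity)
    have h2 : (2:ℝ) ^ (68 * p + 9) = (2:ℝ) ^ (68 * p + 8) * 2 := by
      rw [← Real.rpow_add_one (by norm_num)]
      norm_num
      ring_nf
    rw [h2]
    linarith
  have hell : ell (Mzero p) ≤ 56 * p := by
    unfold ell
    have h1 := Real.log_le_log hM0 hM2
    rw [Real.log_rpow (by norm_num)] at h1
    have h3 := Real.log_two_lt_d9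
    have h4 : (0:ℝ) < Real.log 2 := Real.log_pos (by norm_num)
    nlinarith
  have hell2 : ell (Mzero p) ^ 2 ≤ 4096 * p ^ 2 := by
    have h1 := one_le_ell _ hM1
    have h2 : ell (Mzero p) ^ 2 ≤ (56 * p) ^ 2 := pow_le_pow_left₀ (by linarith) hell 2
    nlinarith [sq_nonneg p]
  have hpp : p ^ 2 ≤ (2:ℝ) ^ (2 * p) := by
    have h1 : 1 + p * 1 ≤ (1 + 1 : ℝ) ^ p := one_add_mul_self_le_rpow_one_add (by norm_num) hp
    norm_num at h1
    have h2 : (2:ℝ) ^ (2 * p) = ((2:ℝ) ^ p) ^ 2 := by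
      rw [← Real.rpow_natCast, ← Real.rpow_mul (by norm_num)]
      congr 1
      push_cast
      ring
    rw [h2]
    exact pow_le_pow_left₀ hp0.le (by linarith) 2
  unfold Lam
  have h4096 : (4096:ℝ) = (2:ℝ) ^ (12:ℝ) := by norm_num
  calc (Mzero p : ℝ) * ell (Mzero p) ^ 2
      ≤ (2:ℝ) ^ (68 * p + 9) * (4096 * p ^ 2) :=
        mul_le_mul hM2 hell2 (by positivity) (by positivity)
    _ ≤ (2:ℝ) ^ (68 * p + 9) * (4096 * (2:ℝ) ^ (2 * p)) := by
        apply mul_le_mul_of_nonneg_left _ (by positivity)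
        exact mul_le_mul_of_nonneg_left hpp (by norm_num)
    _ = (2:ℝ) ^ (70 * p + 21) := by
        rw [h4096, ← Real.rpow_add (by norm_num), ← Real.rpow_add (by norm_num)]
        congr 1
        ring

/-- The main bound with rank weights. -/
theorem main_rank (p : ℝ) (hp : 1 ≤ p) (ε : ℝ) (hε : 0 < ε) (hε1 : ε ≤ 1)
    (n : ℕ) (hn : 2 ≤ n) (x : Fin n → Lp ℝ (ENNReal.ofReal p) μ) :
    ∃ (d : ℕ) (y : Fin n → Fin d → ℝ),
      (d : ℝ) ≤ (2:ℝ) ^ (70 * p + 31) / ε ^ 2 * (n : ℝ) * Real.log n ∧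
      ∀ i j, ‖x i - x j‖ ^ p ≤ ∑ k, |y i k - y j k| ^ p ∧
        ∑ k, |y i k - y j k| ^ p ≤ (1 + ε) * ‖x i - x j‖ ^ p := by
  classical
  have hp0 : 0 < p := by linarith
  haveI : Fact (1 ≤ ENNReal.ofReal p) := ⟨by simpa using ENNReal.ofReal_le_ofReal hp⟩
  have hnR : (2:ℝ) ≤ n := by exact_mod_cast hn
  have hlogn : 0 < Real.log n := Real.log_pos (by linarith)
  let δ : Fin n → Fin n → ℝ := fun a b => ‖x a - x b‖
  let h : Fin n → Ω → ℝ := fun a t => x a t
  have hδ0 : ∀ a b, 0 ≤ δ a b := fun a b => norm_nonneg _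
  have hδs : ∀ a b, δ a b = δ b a := fun a b => norm_sub_rev _ _
  have hδt : ∀ a b c, δ a c ≤ δ a b + δ b c := fun a b c => norm_sub_le_norm_sub_add_norm_sub _ _ _
  have hδr : ∀ a, δ a a = 0 := fun a => by simp [δ]
  have hzero : ∀ a b, δ a b = 0 → ∀ t, h a t = h b t := by
    intro a b hab t
    have : x a = x b := sub_eq_zero.mp (norm_eq_zero.mp hab)
    simp only [h, this]
  have hint : ∀ a b, Integrable (fun t => |h a t - h b t| ^ p) μ :=
    fun a b => lp_integrable p hp (x a) (x b)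
  have hval : ∀ a b, ∫ t, |h a t - h b t| ^ p ∂μ = δ a b ^ p :=
    fun a b => lp_integral p hp (x a) (x b)
  have hΛ := Lam_pos p hp
  let σ : Ω → ℝ := fun t => Lam p * ren δ p (fun a => h a t)
  have hσ0 : ∀ t, 0 ≤ σ t := fun t => mul_nonneg hΛ.le (ren_nonneg δ hδ0 p _)
  have hEi : Integrable (fun t => ren δ p (fun a => h a t)) μ := by
    unfold ren slope
    refine integrable_finsetSum _ (fun a _ => integrable_finsetSum _ (fun w _ => ?_))
    exact ((hint a w).div_const _).const_mul _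
  have hσi : Integrable σ μ := hEi.const_mul _
  have hσ : ∀ a b, 0 < δ a b → ∀ t, |h a t - h b t| ^ p ≤ δ a b ^ p * σ t := by
    intro a b hab t
    have hch := slope_le_Lam δ p hp (fun a => h a t) hδ0 hδs hδt hδr
      (fun a b hz => hzero a b hz t) a b
    unfold slope at hch
    have hdp : 0 < δ a b ^ p := Real.rpow_pos_of_pos hab _
    rw [div_le_iff₀ hdp] at hch
    simp only [σ]
    linarith
  have hEint : ∫ t, ren δ p (fun a => h a t) ∂μ ≤ 2 * (n : ℝ) := by
    have hcalc : ∫ t, ren δ p (fun a => h a t) ∂μ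
        = ∑ a, ∑ w, rwt δ a w * (δ a w ^ p / δ a w ^ p) := by
      unfold ren slope
      rw [integral_finsetSum]
      · refine Finset.sum_congr rfl (fun a _ => ?_)
        rw [integral_finsetSum]
        · refine Finset.sum_congr rfl (fun w _ => ?_)
          rw [integral_const_mul, integral_div, hval]
        · intro w _
          exact ((hint a w).div_const _).const_mul _
      · intro a _
        refine integrable_finsetSum _ (fun w _ => ?_)
        exact ((hint a w).div_const _).const_mul _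
    rw [hcalc]
    calc ∑ a, ∑ w, rwt δ a w * (δ a w ^ p / δ a w ^ p)
        ≤ ∑ a : Fin n, ∑ w, rwt δ a w := by
          refine Finset.sum_le_sum (fun a _ => Finset.sum_le_sum (fun w _ => ?_))
          have h1 : δ a w ^ p / δ a w ^ p ≤ 1 := div_self_le_one _
          have h2 := (rwt_pos δ a w).le
          nlinarith
      _ ≤ 2 * (n : ℝ) := by
          have := sum_sum_rwt_le δ
          rwa [Fintype.card_fin] at this
  set K₀ : ℝ := Lam p * (2 * (n : ℝ)) with hK₀def
  have hK₀ : ∫ t, σ t ∂μ ≤ K₀ := by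
    simp only [σ]
    rw [integral_const_mul]
    exact mul_le_mul_of_nonneg_left hEint hΛ.le
  obtain ⟨d, y, hd, hy⟩ := embed_of_density hn h δ p hp hδ0 hint hval hzero σ hσ0 hσi hσ K₀ hK₀
    ε hε hε1
  refine ⟨d, y, ?_, hy⟩
  refine le_trans hd ?_
  have hL := Lam_le p hp
  have h31 : (2:ℝ) ^ (70 * p + 31) = (2:ℝ) ^ (70 * p + 21) * 1024 := by
    have : (1024:ℝ) = (2:ℝ) ^ (10:ℝ) := by norm_num
    rw [this, ← Real.rpow_add (by norm_num)]
    congr 1
    ring
  rw [h31, hK₀def]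
  have hnpos : (0:ℝ) < n := by linarith
  have hεp : 0 < ε ^ 2 := by positivity
  have hA : (0:ℝ) ≤ (n : ℝ) * Real.log n / ε ^ 2 := by positivity
  calc 384 / ε ^ 2 * (Lam p * (2 * (n : ℝ))) * Real.log n
      = 768 * Lam p * ((n : ℝ) * Real.log n / ε ^ 2) := by ring
    _ ≤ 1024 * (2:ℝ) ^ (70 * p + 21) * ((n : ℝ) * Real.log n / ε ^ 2) := by
        apply mul_le_mul_of_nonneg_right _ hA
        have : (0:ℝ) < (2:ℝ) ^ (70 * p + 21) := by positivity
        nlinarith
    _ = _ := by ring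

end Main

end Vale.Agent.Lib.P249
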