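import Mathlib
import Vale.Agent.Lib.P249.FlatChain

namespace Vale.Agent.Lib.P249

section Stage1

set_option linter.unusedSectionVars false

variable {V : Type*} [Fintype V] [LinearOrder V]

/-- the rank used at level `i` -/
def mr (Pi i : ℕ) : ℕ := 2 ^ (Pi * 2 ^ i)

lemma mr_pos (Pi i : ℕ) : 1 ≤ mr Pi i := Nat.one_le_two_pow

lemma mr_mono (Pi : ℕ) {i j : ℕ} (h : i ≤ j) : mr Pi i ≤ mr Pi j := by
  unfold mr
  apply Nat.pow_le_pow_right (by norm_num)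
  exact Nat.mul_le_mul_left _ (Nat.pow_le_pow_right (by norm_num) h)

lemma mr_real (Pi i : ℕ) : (mr Pi i : ℝ) = (2:ℝ) ^ ((Pi : ℝ) * (2:ℝ) ^ (i : ℕ)) := by
  unfold mr
  have : ((Pi : ℝ) * (2:ℝ) ^ (i : ℕ)) = ((Pi * 2 ^ i : ℕ) : ℝ) := by
    push_cast
    rfl
  rw [this, Real.rpow_natCast]
  push_cast
  rfl

/-- the error in the comparison of two centres at level `i` -/
noncomputable def Dv (Pi : ℕ) (p : ℝ) (i : ℕ) : ℝ := 4 * (mr Pi i : ℝ) ^ (-(1 / (4 * p)))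

lemma Dv_pos (Pi : ℕ) (p : ℝ) (i : ℕ) : 0 < Dv Pi p i := by
  unfold Dv
  have : (0:ℝ) < mr Pi i := by exact_mod_cast mr_pos Pi i
  have := Real.rpow_pos_of_pos this (-(1 / (4 * p)))
  positivity

/-- the centre of `x` at level `i` -/
noncomputable def cen (δ : V → V → ℝ) (Pi : ℕ) (x : V) (i : ℕ) (f : V → ℝ) : ℝ :=
  avg (unif (low δ x (mr Pi i))) f

/-- the deviation of `f` at `x` from its centre at level `i` -/
noncomputable def gap (δ : V → V → ℝ) (Pi : ℕ) (x : V) (i : ℕ) (f : V → ℝ) : ℝ :=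
  f x - cen δ Pi x i f

/-- level `i` is available at `x` for the scale `S` -/
def valid (δ : V → V → ℝ) (Pi : ℕ) (p : ℝ) (x : V) (S : ℝ) (i : ℕ) : Prop :=
  mr Pi i ≤ (ball δ x (S ^ (1 / p))).card

/-- the normalised size of the deviation -/
noncomputable def Th (δ : V → V → ℝ) (Pi : ℕ) (p : ℝ) (x : V) (S : ℝ) (i : ℕ) (f : V → ℝ) : ℝ :=
  |gap δ Pi x i f| ^ p / S

/-- the normalised deviation before taking the power -/
noncomputable def th (δ : V → V → ℝ) (Pi : ℕ) (p : ℝ) (x : V) (S : ℝ) (i : ℕ) (f : V → ℝ) : ℝ :=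
  |gap δ Pi x i f| / S ^ (1 / p)

/-- the functions handled at a stage: normalised energy -/
def Gd (δ : V → V → ℝ) (p : ℝ) (f : V → ℝ) : Prop :=
  (∀ a b, δ a b = 0 → f a = f b) ∧ ren δ p f ≤ 1 / Lam p

lemma Th_nonneg (δ : V → V → ℝ) (Pi : ℕ) (p : ℝ) (x : V) (S : ℝ) (hS : 0 < S) (i : ℕ)
    (f : V → ℝ) : 0 ≤ Th δ Pi p x S i f := by
  unfold Th
  positivity

lemma th_nonneg (δ : V → V → ℝ) (Pi : ℕ) (p : ℝ) (x : V) (S : ℝ) (hS : 0 < S) (i : ℕ)
    (f : V → ℝ) : 0 ≤ th δ Pi p x S i f := by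
  unfold th
  positivity

lemma Th_eq (δ : V → V → ℝ) (Pi : ℕ) (p : ℝ) (hp : 1 ≤ p) (x : V) (S : ℝ) (hS : 0 < S) (i : ℕ)
    (f : V → ℝ) : Th δ Pi p x S i f = th δ Pi p x S i f ^ p := by
  have hp0 : 0 < p := by linarith
  unfold Th th
  rw [Real.div_rpow (abs_nonneg _) (by positivity), ← Real.rpow_mul hS.le,
    one_div_mul_cancel hp0.ne', Real.rpow_one]

lemma avg_unif (s : Finset V) (f : V → ℝ) :
    avg (unif s) f = (1 / (s.card : ℝ)) * ∑ u ∈ s, f u := by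
  unfold avg unif
  have : ∀ u, (if u ∈ s then 1 / (s.card : ℝ) else 0) * f u
      = if u ∈ s then (1 / (s.card : ℝ)) * f u else 0 := by
    intro u
    split_ifs <;> simp
  simp_rw [this]
  rw [Finset.sum_ite_mem, Finset.univ_inter, Finset.mul_sum]

lemma valid_card (δ : V → V → ℝ) (Pi : ℕ) (p : ℝ) (x : V) (S : ℝ) (i : ℕ)
    (h : valid δ Pi p x S i) : (low δ x (mr Pi i)).card = mr Pi i :=
  card_low δ x _ (le_trans h (Finset.card_le_univ _))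

lemma valid_sub (δ : V → V → ℝ) (Pi : ℕ) (p : ℝ) (x : V) (S : ℝ) (i : ℕ)
    (h : valid δ Pi p x S i) (v : V) (hv : v ∈ low δ x (mr Pi i)) : δ x v ≤ S ^ (1 / p) := by
  have := low_subset_ball δ x _ _ h hv
  rwa [mem_ball] at this

lemma valid_nonempty (δ : V → V → ℝ) (Pi : ℕ) (p : ℝ) (x : V) (S : ℝ) (i : ℕ)
    (h : valid δ Pi p x S i) : (low δ x (mr Pi i)).Nonempty := by
  rw [← Finset.card_pos, valid_card δ Pi p x S i h]
  exact mr_pos Pi i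

lemma valid_mono (δ : V → V → ℝ) (Pi : ℕ) (p : ℝ) (x : V) (S : ℝ) {i j : ℕ} (hij : i ≤ j)
    (h : valid δ Pi p x S j) : valid δ Pi p x S i :=
  le_trans (mr_mono Pi hij) h

/-- the uniform weights on the first points are flat -/
lemma flat_low (δ : V → V → ℝ) (Pi : ℕ) (p : ℝ) (x : V) (S : ℝ) (i : ℕ)
    (h : valid δ Pi p x S i) :
    Flat δ x (unif (low δ x (mr Pi i))) (1 / (mr Pi i : ℝ)) (S ^ (1 / p)) := by
  refine ⟨fun u => unif_nonneg _ _, sum_unif _ (valid_nonempty δ Pi p x S i h), fun u => ?_,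
    fun u hu => ?_⟩
  · have := unif_le (low δ x (mr Pi i)) u
    rwa [valid_card δ Pi p x S i h] at this
  · exact valid_sub δ Pi p x S i h u (mem_of_unif_ne _ _ hu)

/-- the Jensen bound for the deviation -/
lemma Th_le_avg (δ : V → V → ℝ) (Pi : ℕ) (p : ℝ) (hp : 1 ≤ p) (x : V) (S : ℝ) (hS : 0 < S) (i : ℕ)
    (h : valid δ Pi p x S i) (f : V → ℝ) :
    Th δ Pi p x S i f ≤ (1 / (mr Pi i : ℝ)) * ∑ v ∈ low δ x (mr Pi i), (|f x - f v| ^ p / S) := by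
  have hm : (0:ℝ) < mr Pi i := by exact_mod_cast mr_pos Pi i
  have hcard := valid_card δ Pi p x S i h
  have hgap : gap δ Pi x i f = ∑ v ∈ low δ x (mr Pi i), (1 / (mr Pi i : ℝ)) * (f x - f v) := by
    unfold gap cen
    rw [avg_unif, hcard, ← Finset.mul_sum, Finset.sum_sub_distrib, Finset.sum_const, hcard,
      nsmul_eq_mul]
    field_simp
  have h1 : |gap δ Pi x i f| ≤ ∑ v ∈ low δ x (mr Pi i), (1 / (mr Pi i : ℝ)) * |f x - f v| := by
    rw [hgap]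
    refine le_trans (Finset.abs_sum_le_sum_abs _ _) (le_of_eq ?_)
    refine Finset.sum_congr rfl (fun v _ => ?_)
    rw [abs_mul, abs_of_nonneg (by positivity)]
  have h2 := Real.rpow_arith_mean_le_arith_mean_rpow (low δ x (mr Pi i))
    (fun _ => 1 / (mr Pi i : ℝ)) (fun v => |f x - f v|) (fun _ _ => by positivity)
    (by rw [Finset.sum_const, hcard, nsmul_eq_mul]; field_simp) (fun _ _ => abs_nonneg _) hp
  have hp0 : 0 ≤ p := by linarith
  have h3 := Real.rpow_le_rpow (abs_nonneg _) h1 hp0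
  have h4 := le_trans h3 h2
  unfold Th
  rw [div_le_iff₀ hS]
  refine le_trans h4 (le_of_eq ?_)
  rw [Finset.mul_sum, Finset.sum_mul]
  refine Finset.sum_congr rfl (fun v _ => ?_)
  field_simp

lemma ratio_le_slope (δ : V → V → ℝ) (p : ℝ) (hp : 1 ≤ p) (hδ0 : ∀ a b, 0 ≤ δ a b)
    (f : V → ℝ) (hf : ∀ a b, δ a b = 0 → f a = f b) (S : ℝ) (hS : 0 < S) (x v : V)
    (hv : δ x v ≤ S ^ (1 / p)) : |f x - f v| ^ p / S ≤ slope δ p f x v := by
  have hp0 : 0 < p := by linarith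
  have h1 := abs_rpow_le_mul_slope δ hδ0 p hp f hf x v (S ^ (1 / p)) hv
  rw [← Real.rpow_mul hS.le, one_div_mul_cancel hp0.ne', Real.rpow_one] at h1
  rw [div_le_iff₀ hS]
  linarith

lemma Lam_ge_one (p : ℝ) (hp : 1 ≤ p) : 1 ≤ Lam p := by
  have h1 := Mzero_one_le p hp
  have h2 := one_le_ell _ h1
  unfold Lam
  nlinarith [pow_le_pow_left₀ (by norm_num : (0:ℝ) ≤ 1) h2 2]

lemma slope_le_one (δ : V → V → ℝ) (p : ℝ) (hp : 1 ≤ p) (f : V → ℝ)
    (hδ0 : ∀ a b, 0 ≤ δ a b) (hδs : ∀ a b, δ a b = δ b a)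
    (hδt : ∀ a b c, δ a c ≤ δ a b + δ b c) (hδr : ∀ a, δ a a = 0)
    (hG : Gd δ p f) (x y : V) : slope δ p f x y ≤ 1 := by
  have h1 := slope_le_Lam δ p hp f hδ0 hδs hδt hδr hG.1 x y
  have hL := Lam_pos p hp
  refine le_trans h1 ?_
  have h2 := mul_le_mul_of_nonneg_left hG.2 hL.le
  rwa [mul_one_div_cancel hL.ne'] at h2

lemma Th_le_one (δ : V → V → ℝ) (Pi : ℕ) (p : ℝ) (hp : 1 ≤ p) (f : V → ℝ)
    (hδ0 : ∀ a b, 0 ≤ δ a b) (hδs : ∀ a b, δ a b = δ b a)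
    (hδt : ∀ a b c, δ a c ≤ δ a b + δ b c) (hδr : ∀ a, δ a a = 0)
    (hG : Gd δ p f) (x : V) (S : ℝ) (hS : 0 < S) (i : ℕ)
    (h : valid δ Pi p x S i) : Th δ Pi p x S i f ≤ 1 := by
  have hm : (0:ℝ) < mr Pi i := by exact_mod_cast mr_pos Pi i
  refine le_trans (Th_le_avg δ Pi p hp x S hS i h f) ?_
  have h1 : ∑ v ∈ low δ x (mr Pi i), (|f x - f v| ^ p / S) ≤ ∑ _v ∈ low δ x (mr Pi i), (1:ℝ) := by
    refine Finset.sum_le_sum (fun v hv => ?_)
    refine le_trans (ratio_le_slope δ p hp hδ0 f hG.1 S hS x v (valid_sub δ Pi p x S i h v hv)) ?_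
    exact slope_le_one δ p hp f hδ0 hδs hδt hδr hG x v
  rw [Finset.sum_const, valid_card δ Pi p x S i h, nsmul_eq_mul, mul_one] at h1
  have h2 := mul_le_mul_of_nonneg_left h1 (by positivity : (0:ℝ) ≤ 1 / (mr Pi i : ℝ))
  rwa [one_div_mul_cancel hm.ne'] at h2

/-- the deviation is controlled by the energy at the vertex -/
lemma Th_le_ven (δ : V → V → ℝ) (Pi : ℕ) (p : ℝ) (hp : 1 ≤ p) (f : V → ℝ)
    (hδ0 : ∀ a b, 0 ≤ δ a b) (hf : ∀ a b, δ a b = 0 → f a = f b)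
    (x : V) (S : ℝ) (hS : 0 < S) (i : ℕ)
    (h : valid δ Pi p x S i) :
    Th δ Pi p x S i f ≤ ell (mr Pi i) ^ 2 * ven δ p f x := by
  have hm1 : (1:ℝ) ≤ mr Pi i := by exact_mod_cast mr_pos Pi i
  have hm : (0:ℝ) < mr Pi i := by linarith
  have hell := ell_pos _ hm1
  refine le_trans (Th_le_avg δ Pi p hp x S hS i h f) ?_
  have hgw : 0 < gw (mr Pi i) := gw_pos _ (mr_pos Pi i)
  have h1 : ∑ v ∈ low δ x (mr Pi i), (|f x - f v| ^ p / S)
      ≤ (1 / gw (mr Pi i)) * ven δ p f x := by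
    unfold ven
    have h2 : ∑ v ∈ low δ x (mr Pi i), (|f x - f v| ^ p / S)
        ≤ ∑ v ∈ low δ x (mr Pi i), (1 / gw (mr Pi i)) * (rwt δ x v * slope δ p f x v) := by
      refine Finset.sum_le_sum (fun v hv => ?_)
      have h3 := ratio_le_slope δ p hp hδ0 f hf S hS x v (valid_sub δ Pi p x S i h v hv)
      have h4 := gw_rk_ge_of_mem_low δ x v _ hv
      have h5 := slope_nonneg δ hδ0 p f x v
      refine le_trans h3 ?_
      rw [← mul_assoc]
      have h6 : 1 ≤ 1 / gw (mr Pi i) * rwt δ x v := by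
        rw [div_mul_eq_mul_div, one_mul, le_div_iff₀ hgw]
        linarith
      nlinarith
    refine le_trans h2 ?_
    rw [← Finset.mul_sum]
    apply mul_le_mul_of_nonneg_left _ (by positivity)
    apply Finset.sum_le_sum_of_subset_of_nonneg (Finset.subset_univ _)
    intro v _ _
    exact mul_nonneg (rwt_pos δ x v).le (slope_nonneg δ hδ0 p f x v)
  have h7 := mul_le_mul_of_nonneg_left h1 (by positivity : (0:ℝ) ≤ 1 / (mr Pi i : ℝ))
  refine le_trans h7 (le_of_eq ?_)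
  unfold gw
  field_simp

/-- the key comparison of centres -/
lemma cen_diff (δ : V → V → ℝ) (Pi : ℕ) (p : ℝ) (hp : 1 ≤ p) (f : V → ℝ)
    (hδ0 : ∀ a b, 0 ≤ δ a b) (hδs : ∀ a b, δ a b = δ b a)
    (hδt : ∀ a b c, δ a c ≤ δ a b + δ b c) (hδr : ∀ a, δ a a = 0)
    (hG : Gd δ p f) (hPi : (2:ℝ) ^ (68 * p + 8) ≤ mr Pi 0)
    (x : V) (R : ℝ) (hR : 0 < R) (i j : ℕ) (y : V)
    (hx : Flat δ x (unif (low δ x (mr Pi i))) (1 / (mr Pi i : ℝ)) R)
    (hy : Flat δ x (unif (low δ y (mr Pi j))) (1 / (mr Pi i : ℝ)) R) :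
    |cen δ Pi x i f - cen δ Pi y j f| ≤ R * Dv Pi p i := by
  have hp0 : 0 < p := by linarith
  have hL := Lam_pos p hp
  have hm1 : (1:ℝ) ≤ mr Pi i := by exact_mod_cast mr_pos Pi i
  have hm : (0:ℝ) < mr Pi i := by linarith
  have hM : (2:ℝ) ^ (68 * p + 8) ≤ mr Pi i := by
    refine le_trans hPi ?_
    exact_mod_cast mr_mono Pi (Nat.zero_le i)
  have h1 := flat_transport δ p hp f hδ0 hδs hδt hδr hG.1 x R hR (mr Pi i) hM _ _ hx hy
  unfold cen
  refine le_trans h1 ?_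
  have hE0 := ren_nonneg δ hδ0 p f
  have hE1 : ren δ p f ≤ 1 := by
    refine le_trans hG.2 ?_
    rw [div_le_one hL]
    exact Lam_ge_one p hp
  have hE : ren δ p f ^ (1 / p) ≤ 1 := Real.rpow_le_one hE0 hE1 (by positivity)
  have hrp : 0 < (mr Pi i : ℝ) ^ (-(1 / (4 * p))) := Real.rpow_pos_of_pos hm _
  unfold Dv
  calc 4 * R * ren δ p f ^ (1 / p) * (mr Pi i : ℝ) ^ (-(1 / (4 * p)))
      ≤ 4 * R * 1 * (mr Pi i : ℝ) ^ (-(1 / (4 * p))) := by
        apply mul_le_mul_of_nonneg_right _ hrp.le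
        exact mul_le_mul_of_nonneg_left hE (by positivity)
    _ = R * (4 * (mr Pi i : ℝ) ^ (-(1 / (4 * p)))) := by ring

end Stage1

end Vale.Agent.Lib.P249
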