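import Mathlib
import Vale.Agent.Lib.P249.Stage1

namespace Vale.Agent.Lib.P249

section RealPow

lemma rpow_sub_rpow_le (a b p : ℝ) (hp : 1 ≤ p) (hb : 0 ≤ b) (hab : b ≤ a) :
    a ^ p - b ^ p ≤ p * a ^ (p - 1) * (a - b) := by
  have hp0 : 0 < p := by linarith
  by_cases ha : a = 0
  · have hb0 : b = 0 := le_antisymm (by linarith) hb
    simp [ha, hb0, Real.zero_rpow hp0.ne']
  have ha0 : 0 < a := lt_of_le_of_ne (le_trans hb hab) (Ne.symm ha)
  have h1 : -1 ≤ b / a - 1 := by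
    have : 0 ≤ b / a := by positivity
    linarith
  have h2 := one_add_mul_self_le_rpow_one_add h1 hp
  have h3 : 1 + (b / a - 1) = b / a := by ring
  rw [h3, Real.div_rpow hb ha0.le] at h2
  have h4 : 0 < a ^ p := Real.rpow_pos_of_pos ha0 _
  have h5 : a ^ p = a ^ (p - 1) * a := by
    rw [← Real.rpow_add_one ha0.ne']
    congr 1
    ring
  have h6 := mul_le_mul_of_nonneg_right h2 h4.le
  rw [div_mul_cancel₀ _ h4.ne'] at h6
  have h7 : (1 + p * (b / a - 1)) * a ^ p = a ^ p + p * a ^ (p - 1) * (b - a) := by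
    rw [h5]
    field_simp
  rw [h7] at h6
  nlinarith

lemma abs_rpow_sub_le (X e p : ℝ) (hp : 1 ≤ p) :
    abs (|X - e| ^ p - |X| ^ p) ≤ p * (|X| + |e|) ^ (p - 1) * |e| := by
  have hp0 : 0 < p := by linarith
  have hp1 : 0 ≤ p - 1 := by linarith
  have h1 : |X - e| ≤ |X| + |e| := abs_sub _ _
  have h2 : |X| ≤ |X - e| + |e| := by
    have := abs_add_le (X - e) e
    simpa using this
  have h3 : |X| ≤ |X| + |e| := by linarith [abs_nonneg e]
  have hM : 0 ≤ |X| + |e| := by positivity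
  rw [abs_le]
  constructor
  · rcases le_total |X - e| |X| with h | h
    · have h4 := rpow_sub_rpow_le |X| |X - e| p hp (abs_nonneg _) h
      have h5 : |X| ^ (p - 1) ≤ (|X| + |e|) ^ (p - 1) := Real.rpow_le_rpow (abs_nonneg _) h3 hp1
      have h6 : |X| - |X - e| ≤ |e| := by linarith
      have h7 : 0 ≤ |X| - |X - e| := by linarith
      have h8 : p * |X| ^ (p - 1) * (|X| - |X - e|) ≤ p * (|X| + |e|) ^ (p - 1) * |e| := by
        apply mul_le_mul _ h6 h7 (by positivity)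
        exact mul_le_mul_of_nonneg_left h5 hp0.le
      linarith
    · have h4 : |X| ^ p ≤ |X - e| ^ p := Real.rpow_le_rpow (abs_nonneg _) h hp0.le
      have h5 : 0 ≤ p * (|X| + |e|) ^ (p - 1) * |e| := by positivity
      linarith
  · rcases le_total |X - e| |X| with h | h
    · have h4 : |X - e| ^ p ≤ |X| ^ p := Real.rpow_le_rpow (abs_nonneg _) h hp0.le
      have h5 : 0 ≤ p * (|X| + |e|) ^ (p - 1) * |e| := by positivity
      linarith
    · have h4 := rpow_sub_rpow_le |X - e| |X| p hp (abs_nonneg _) h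
      have h5 : |X - e| ^ (p - 1) ≤ (|X| + |e|) ^ (p - 1) :=
        Real.rpow_le_rpow (abs_nonneg _) h1 hp1
      have h6 : |X - e| - |X| ≤ |e| := by linarith
      have h7 : 0 ≤ |X - e| - |X| := by linarith
      have h8 : p * |X - e| ^ (p - 1) * (|X - e| - |X|) ≤ p * (|X| + |e|) ^ (p - 1) * |e| := by
        apply mul_le_mul _ h6 h7 (by positivity)
        exact mul_le_mul_of_nonneg_left h5 hp0.le
      linarith

lemma one_add_rpow_le_two (p : ℝ) (hp : 1 ≤ p) : (1 + 1 / (2 * p)) ^ p ≤ 2 := by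
  have hp0 : 0 < p := by linarith
  have h1 : 1 + 1 / (2 * p) ≤ Real.exp (1 / (2 * p)) := by
    have := Real.add_one_le_exp (1 / (2 * p))
    linarith
  have h2 : (1 + 1 / (2 * p)) ^ p ≤ Real.exp (1 / (2 * p)) ^ p :=
    Real.rpow_le_rpow (by positivity) h1 hp0.le
  refine le_trans h2 ?_
  rw [← Real.exp_mul]
  have h3 : 1 / (2 * p) * p = 1 / 2 := by field_simp
  rw [h3]
  have h4 : (1:ℝ) / 2 ≤ Real.log 2 := by
    have := Real.log_two_gt_d9
    linarith
  have := Real.exp_le_exp.mpr h4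
  rwa [Real.exp_log (by norm_num)] at this

lemma one_sub_rpow_ge_half (p : ℝ) (hp : 1 ≤ p) : 1 / 2 ≤ (1 - 1 / (2 * p)) ^ p := by
  have hp0 : 0 < p := by linarith
  have h1 : -1 ≤ -(1 / (2 * p)) := by
    have : 1 / (2 * p) ≤ 1 := by
      rw [div_le_one (by positivity)]
      linarith
    linarith
  have h2 := one_add_mul_self_le_rpow_one_add h1 hp
  have h3 : 1 + p * -(1 / (2 * p)) = 1 / 2 := by
    field_simp
    norm_num
  rw [h3] at h2
  have h4 : 1 + -(1 / (2 * p)) = 1 - 1 / (2 * p) := by ring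
  rwa [h4] at h2

end RealPow

section Stage2

set_option linter.unusedSectionVars false

variable {V : Type*} [Fintype V] [LinearOrder V]

/-- the hypotheses on the pseudometric -/
structure PM (δ : V → V → ℝ) : Prop where
  h0 : ∀ a b, 0 ≤ δ a b
  hs : ∀ a b, δ a b = δ b a
  ht : ∀ a b c, δ a c ≤ δ a b + δ b c
  hr : ∀ a, δ a a = 0

/-- the hypotheses on the rank parameter -/
structure PP (Pi : ℕ) (p : ℝ) : Prop where
  hp : 2 ≤ p
  hPi : (2:ℝ) ^ (68 * p + 8) ≤ mr Pi 0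
  hD : ∀ i, Dv Pi p i ≤ (1 / (2 * p)) * (1 / 16 ^ i : ℝ) ^ (1 / p)

/-- `f` first passes the threshold at level `i` -/
def U (δ : V → V → ℝ) (Pi : ℕ) (p : ℝ) (x : V) (S : ℝ) (i : ℕ) (f : V → ℝ) : Prop :=
  valid δ Pi p x S i ∧ 1 / 16 ^ i < Th δ Pi p x S i f ∧
    ∀ k < i, Th δ Pi p x S k f ≤ 1 / 16 ^ k

open Classical in
/-- the part of the deviation recorded at level `i` -/
noncomputable def aval (δ : V → V → ℝ) (Pi : ℕ) (p : ℝ) (x : V) (S : ℝ) (i : ℕ) (f : V → ℝ) : ℝ :=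
  if U δ Pi p x S i f then Th δ Pi p x S i f else 0

/-- the recorded deviation up to level `I` -/
noncomputable def Ac (δ : V → V → ℝ) (Pi : ℕ) (p : ℝ) (x : V) (S : ℝ) (I : ℕ) (f : V → ℝ) : ℝ :=
  ∑ i ∈ Finset.range I, aval δ Pi p x S i f

/-- what remains of a pair after removing the recorded deviations -/
noncomputable def Fp (δ : V → V → ℝ) (Pi : ℕ) (p : ℝ) (x y : V) (S : ℝ) (I : ℕ) (f : V → ℝ) : ℝ :=
  |f x - f y| ^ p / S - Ac δ Pi p x S I f - Ac δ Pi p y S I f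

lemma U_unique (δ : V → V → ℝ) (Pi : ℕ) (p : ℝ) (x : V) (S : ℝ) (i j : ℕ) (f : V → ℝ)
    (hi : U δ Pi p x S i f) (hj : U δ Pi p x S j f) : i = j := by
  rcases lt_trichotomy i j with h | h | h
  · have := hj.2.2 i h
    linarith [hi.2.1]
  · exact h
  · have := hi.2.2 j h
    linarith [hj.2.1]

lemma aval_nonneg (δ : V → V → ℝ) (Pi : ℕ) (p : ℝ) (x : V) (S : ℝ) (hS : 0 < S) (i : ℕ)
    (f : V → ℝ) : 0 ≤ aval δ Pi p x S i f := by
  unfold aval
  split_ifs
  · exact Th_nonneg δ Pi p x S hS i f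
  · exact le_rfl

lemma Ac_nonneg (δ : V → V → ℝ) (Pi : ℕ) (p : ℝ) (x : V) (S : ℝ) (hS : 0 < S) (I : ℕ)
    (f : V → ℝ) : 0 ≤ Ac δ Pi p x S I f :=
  Finset.sum_nonneg (fun i _ => aval_nonneg δ Pi p x S hS i f)

lemma Ac_eq_of_U (δ : V → V → ℝ) (Pi : ℕ) (p : ℝ) (x : V) (S : ℝ) (I i : ℕ) (f : V → ℝ)
    (hi : i < I) (hU : U δ Pi p x S i f) : Ac δ Pi p x S I f = Th δ Pi p x S i f := by
  unfold Ac
  rw [Finset.sum_eq_single i]
  · unfold aval
    rw [if_pos hU]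
  · intro j _ hji
    unfold aval
    rw [if_neg]
    intro hj
    exact hji (U_unique δ Pi p x S j i f hj hU)
  · intro h
    exact absurd (Finset.mem_range.mpr hi) h

lemma Ac_eq_zero (δ : V → V → ℝ) (Pi : ℕ) (p : ℝ) (x : V) (S : ℝ) (I : ℕ) (f : V → ℝ)
    (h : ∀ i < I, ¬ U δ Pi p x S i f) : Ac δ Pi p x S I f = 0 := by
  unfold Ac
  apply Finset.sum_eq_zero
  intro i hi
  unfold aval
  rw [if_neg (h i (Finset.mem_range.mp hi))]

/-- dichotomy for the recorded deviation -/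
lemma Ac_cases (δ : V → V → ℝ) (Pi : ℕ) (p : ℝ) (x : V) (S : ℝ) (I : ℕ) (f : V → ℝ) :
    Ac δ Pi p x S I f = 0 ∨ ∃ i < I, U δ Pi p x S i f ∧ Ac δ Pi p x S I f = Th δ Pi p x S i f := by
  by_cases h : ∃ i < I, U δ Pi p x S i f
  · obtain ⟨i, hi, hU⟩ := h
    exact Or.inr ⟨i, hi, hU, Ac_eq_of_U δ Pi p x S I i f hi hU⟩
  · push Not at h
    exact Or.inl (Ac_eq_zero δ Pi p x S I f h)

section Main

variable {δ : V → V → ℝ} (hδ : PM δ) {Pi : ℕ} {p : ℝ} (hP : PP Pi p)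

include hδ hP

lemma flat_low_near (x y : V) (S : ℝ) (hS : 0 < S) (i j : ℕ) (hij : i ≤ j)
    (hv : valid δ Pi p y S j) (hxy : δ x y ≤ S ^ (1 / p)) :
    Flat δ x (unif (low δ y (mr Pi j))) (1 / (mr Pi i : ℝ)) (2 * S ^ (1 / p)) := by
  have hm : (0:ℝ) < mr Pi i := by exact_mod_cast mr_pos Pi i
  obtain ⟨h1, h2, h3, h4⟩ := flat_low δ Pi p y S j hv
  refine ⟨h1, h2, fun u => le_trans (h3 u) ?_, fun u hu => ?_⟩
  · apply one_div_le_one_div_of_le hm
    exact_mod_cast mr_mono Pi hij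
  · have := h4 u hu
    have h5 := hδ.ht x y u
    linarith

lemma cen_near (x y : V) (S : ℝ) (hS : 0 < S) (f : V → ℝ) (hG : Gd δ p f) (i : ℕ)
    (hx : valid δ Pi p x S i) (hy : valid δ Pi p y S i) (hxy : δ x y ≤ S ^ (1 / p)) :
    |cen δ Pi x i f - cen δ Pi y i f| ≤ 2 * S ^ (1 / p) * Dv Pi p i := by
  have hp : 1 ≤ p := by linarith [hP.hp]
  have hR : 0 < S ^ (1 / p) := Real.rpow_pos_of_pos hS _
  have h0 : δ x x ≤ S ^ (1 / p) := by rw [hδ.hr]; exact hR.le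
  exact cen_diff δ Pi p hp f hδ.h0 hδ.hs hδ.ht hδ.hr hG hP.hPi x (2 * S ^ (1 / p)) (by positivity)
    i i y (flat_low_near hδ hP x x S hS i i le_rfl hx h0)
    (flat_low_near hδ hP x y S hS i i le_rfl hy hxy)

lemma cen_same (x : V) (S : ℝ) (hS : 0 < S) (f : V → ℝ) (hG : Gd δ p f) (i j : ℕ) (hij : i ≤ j)
    (hj : valid δ Pi p x S j) :
    |cen δ Pi x i f - cen δ Pi x j f| ≤ S ^ (1 / p) * Dv Pi p i := by
  have hp : 1 ≤ p := by linarith [hP.hp]
  have hR : 0 < S ^ (1 / p) := Real.rpow_pos_of_pos hS _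
  have hm : (0:ℝ) < mr Pi i := by exact_mod_cast mr_pos Pi i
  have hi : valid δ Pi p x S i := valid_mono δ Pi p x S hij hj
  refine cen_diff δ Pi p hp f hδ.h0 hδ.hs hδ.ht hδ.hr hG hP.hPi x _ hR i j x
    (flat_low δ Pi p x S i hi) ?_
  obtain ⟨h1, h2, h3, h4⟩ := flat_low δ Pi p x S j hj
  refine ⟨h1, h2, fun u => le_trans (h3 u) ?_, h4⟩
  apply one_div_le_one_div_of_le hm
  exact_mod_cast mr_mono Pi hij

lemma th_diff (x : V) (S : ℝ) (hS : 0 < S) (f : V → ℝ) (hG : Gd δ p f) (i j : ℕ) (hij : i ≤ j)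
    (hj : valid δ Pi p x S j) :
    |th δ Pi p x S i f - th δ Pi p x S j f| ≤ Dv Pi p i := by
  have hR : 0 < S ^ (1 / p) := Real.rpow_pos_of_pos hS _
  have h1 := cen_same hδ hP x S hS f hG i j hij hj
  unfold th
  rw [← sub_div, abs_div, abs_of_pos hR, div_le_iff₀ hR]
  have h2 : gap δ Pi x i f - gap δ Pi x j f = -(cen δ Pi x i f - cen δ Pi x j f) := by
    unfold gap
    ring
  have h3 := abs_abs_sub_abs_le_abs_sub (gap δ Pi x i f) (gap δ Pi x j f)
  rw [h2, abs_neg] at h3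
  linarith

lemma th_le_base (x : V) (S : ℝ) (hS : 0 < S) (f : V → ℝ) (i : ℕ)
    (h : Th δ Pi p x S i f ≤ 1 / 16 ^ i) : th δ Pi p x S i f ≤ (1 / 16 ^ i : ℝ) ^ (1 / p) := by
  have hp : 1 ≤ p := by linarith [hP.hp]
  have hp0 : 0 < p := by linarith
  have h0 := th_nonneg δ Pi p x S hS i f
  rw [Th_eq δ Pi p hp x S hS i f] at h
  have h1 := Real.rpow_le_rpow (by positivity) h (by positivity : 0 ≤ 1 / p)
  rwa [← Real.rpow_mul h0, mul_one_div_cancel hp0.ne', Real.rpow_one] at h1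

lemma base_lt_th (x : V) (S : ℝ) (hS : 0 < S) (f : V → ℝ) (i : ℕ)
    (h : 1 / 16 ^ i < Th δ Pi p x S i f) : (1 / 16 ^ i : ℝ) ^ (1 / p) < th δ Pi p x S i f := by
  have hp : 1 ≤ p := by linarith [hP.hp]
  have hp0 : 0 < p := by linarith
  have h0 := th_nonneg δ Pi p x S hS i f
  rw [Th_eq δ Pi p hp x S hS i f] at h
  have h1 := Real.rpow_lt_rpow (by positivity) h (by positivity : 0 < 1 / p)
  rwa [← Real.rpow_mul h0, mul_one_div_cancel hp0.ne', Real.rpow_one] at h1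

/-- the window of a stopping level -/
lemma U_window (x : V) (S : ℝ) (hS : 0 < S) (f : V → ℝ) (hG : Gd δ p f) (i : ℕ)
    (hU : U δ Pi p x S i f) : Th δ Pi p x S i f ≤ 32 / 16 ^ i := by
  have hp : 1 ≤ p := by linarith [hP.hp]
  have hp0 : 0 < p := by linarith
  obtain ⟨hv, hlow, hprev⟩ := hU
  cases i with
  | zero =>
    have := Th_le_one δ Pi p hp f hδ.h0 hδ.hs hδ.ht hδ.hr hG x S hS 0 hv
    norm_num
    linarith
  | succ k =>
    have h1 := th_le_base hδ hP x S hS f k (hprev k (Nat.lt_succ_self k))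
    have h2 := th_diff hδ hP x S hS f hG k (k + 1) (Nat.le_succ k) hv
    have h3 := hP.hD k
    have hb : 0 < (1 / 16 ^ k : ℝ) ^ (1 / p) := by positivity
    have h4 : th δ Pi p x S (k + 1) f ≤ (1 / 16 ^ k : ℝ) ^ (1 / p) * (1 + 1 / (2 * p)) := by
      have h5 := (abs_le.mp h2).1
      nlinarith
    rw [Th_eq δ Pi p hp x S hS (k + 1) f]
    have h6 := Real.rpow_le_rpow (th_nonneg δ Pi p x S hS (k + 1) f) h4 hp0.le
    refine le_trans h6 ?_
    rw [Real.mul_rpow hb.le (by positivity), ← Real.rpow_mul (by positivity),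
      one_div_mul_cancel hp0.ne', Real.rpow_one]
    have h7 := one_add_rpow_le_two p hp
    have h8 : (0:ℝ) < 1 / 16 ^ k := by positivity
    calc (1 / 16 ^ k : ℝ) * (1 + 1 / (2 * p)) ^ p ≤ (1 / 16 ^ k : ℝ) * 2 :=
          mul_le_mul_of_nonneg_left h7 h8.le
      _ = 32 / 16 ^ (k + 1) := by
          rw [pow_succ]
          field_simp
          norm_num

/-- a stopped deviation stays of the same size at later levels -/
lemma U_compare (x : V) (S : ℝ) (hS : 0 < S) (f : V → ℝ) (hG : Gd δ p f) (i j : ℕ) (hij : i ≤ j)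
    (hU : U δ Pi p x S i f) (hj : valid δ Pi p x S j) :
    Th δ Pi p x S i f ≤ 2 * Th δ Pi p x S j f := by
  have hp : 1 ≤ p := by linarith [hP.hp]
  have hp0 : 0 < p := by linarith
  have h1 := base_lt_th hδ hP x S hS f i hU.2.1
  have h2 := th_diff hδ hP x S hS f hG i j hij hj
  have h3 := hP.hD i
  have h4 : th δ Pi p x S i f * (1 - 1 / (2 * p)) ≤ th δ Pi p x S j f := by
    have h5 := (abs_le.mp h2).2
    have h6 : (1 / (2 * p)) * (1 / 16 ^ i : ℝ) ^ (1 / p)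
        ≤ (1 / (2 * p)) * th δ Pi p x S i f :=
      mul_le_mul_of_nonneg_left h1.le (by positivity)
    linarith
  have hthi := th_nonneg δ Pi p x S hS i f
  have hfac : 0 ≤ 1 - 1 / (2 * p) := by
    have : 1 / (2 * p) ≤ 1 := by
      rw [div_le_one (by positivity)]
      linarith
    linarith
  have h7 := Real.rpow_le_rpow (mul_nonneg hthi hfac) h4 hp0.le
  rw [Real.mul_rpow hthi hfac, ← Th_eq δ Pi p hp x S hS i f, ← Th_eq δ Pi p hp x S hS j f] at h7
  have h8 := one_sub_rpow_ge_half p hp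
  have hTh := Th_nonneg δ Pi p x S hS i f
  nlinarith

/-- bound for the recorded deviation by the last available level -/
lemma Ac_le_two_Th (x : V) (S : ℝ) (hS : 0 < S) (f : V → ℝ) (hG : Gd δ p f) (j : ℕ)
    (hj : valid δ Pi p x S j) : Ac δ Pi p x S (j + 1) f ≤ 2 * Th δ Pi p x S j f := by
  have h0 := Th_nonneg δ Pi p x S hS j f
  rcases Ac_cases δ Pi p x S (j + 1) f with h | ⟨i, hi, hU, h⟩
  · rw [h]
    positivity
  · rw [h]
    exact U_compare hδ hP x S hS f hG i j (Nat.lt_succ_iff.mp hi) hU hj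

end Main

end Stage2

end Vale.Agent.Lib.P249
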