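import Mathlib
import Vale.Agent.Lib.P249.Stage2

namespace Vale.Agent.Lib.P249

section Stage3

set_option linter.unusedSectionVars false

/-- the constant in the bound for the remainder of a pair -/
noncomputable def Cp (p : ℝ) : ℝ := (p + 1) * (3:ℝ) ^ (p - 1) * 32

lemma Cp_pos (p : ℝ) (hp : 1 ≤ p) : 0 < Cp p := by
  unfold Cp
  positivity

lemma four_pow_half (i : ℕ) : (1 / 16 ^ i : ℝ) ^ ((1:ℝ) / 2) = 1 / 4 ^ i := by
  have h : (1 / 16 ^ i : ℝ) = (1 / 4 ^ i : ℝ) ^ (2:ℕ) := by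
    rw [div_pow, one_pow, ← pow_mul, mul_comm, pow_mul]
    norm_num
  rw [h, ← Real.rpow_natCast, ← Real.rpow_mul (by positivity)]
  norm_num

lemma ui_pow (p : ℝ) (hp : 2 ≤ p) (i : ℕ) :
    ((32 / 16 ^ i : ℝ) ^ (1 / p)) ^ (p - 1) ≤ 32 / 4 ^ i := by
  have hp0 : 0 < p := by linarith
  have hq1 : 1 / p * (p - 1) ≤ 1 := by
    have : 1 / p * (p - 1) = 1 - 1 / p := by field_simp
    rw [this]
    have : 0 < 1 / p := by positivity
    linarith
  have hq2 : (1:ℝ) / 2 ≤ 1 / p * (p - 1) := by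
    have : 1 / p * (p - 1) = 1 - 1 / p := by field_simp
    rw [this]
    have : 1 / p ≤ 1 / 2 := one_div_le_one_div_of_le (by norm_num) hp
    linarith
  rw [← Real.rpow_mul (by positivity)]
  have h1 : (32 / 16 ^ i : ℝ) = 32 * (1 / 16 ^ i) := by ring
  rw [h1, Real.mul_rpow (by norm_num) (by positivity)]
  have h2 : (32:ℝ) ^ (1 / p * (p - 1)) ≤ 32 := by
    have := Real.rpow_le_rpow_of_exponent_le (by norm_num : (1:ℝ) ≤ 32) hq1
    simpa using this
  have h3 : (1 / 16 ^ i : ℝ) ^ (1 / p * (p - 1)) ≤ 1 / 4 ^ i := by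
    rw [← four_pow_half]
    apply Real.rpow_le_rpow_of_exponent_ge (by positivity) _ hq2
    rw [div_le_one (by positivity)]
    exact one_le_pow₀ (by norm_num)
  calc (32:ℝ) ^ (1 / p * (p - 1)) * (1 / 16 ^ i : ℝ) ^ (1 / p * (p - 1))
      ≤ 32 * (1 / 4 ^ i) := mul_le_mul h2 h3 (by positivity) (by norm_num)
    _ = 32 / 4 ^ i := by ring

lemma psi_eq (p : ℝ) (hp : 1 ≤ p) (S : ℝ) (hS : 0 < S) (z : ℝ) :
    |z| ^ p / S = (|z| / S ^ (1 / p)) ^ p := by
  have hp0 : 0 < p := by linarith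
  rw [Real.div_rpow (abs_nonneg _) (by positivity), ← Real.rpow_mul hS.le,
    one_div_mul_cancel hp0.ne', Real.rpow_one]

variable {V : Type*} [Fintype V] [LinearOrder V]

/-- `u` leads `w` at level `i` -/
def Led (δ : V → V → ℝ) (Pi : ℕ) (p : ℝ) (u w : V) (S : ℝ) (I i : ℕ) (f : V → ℝ) : Prop :=
  i < I ∧ U δ Pi p u S i f ∧ ∀ k < i, Th δ Pi p w S k f ≤ 1 / 16 ^ k

lemma Fp_comm (δ : V → V → ℝ) (Pi : ℕ) (p : ℝ) (x y : V) (S : ℝ) (I : ℕ) (f : V → ℝ) :
    Fp δ Pi p x y S I f = Fp δ Pi p y x S I f := by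
  unfold Fp
  rw [abs_sub_comm]
  ring

section Main

variable {δ : V → V → ℝ} (hδ : PM δ) {Pi : ℕ} {p : ℝ} (hP : PP Pi p)

include hδ hP

/-- the main estimate when `u` leads `w` -/
lemma led_bound (u w : V) (S : ℝ) (hS : 0 < S) (f : V → ℝ) (hG : Gd δ p f) (I i : ℕ)
    (hvu : ∀ k < I, valid δ Pi p u S k) (hvw : ∀ k < I, valid δ Pi p w S k)
    (hδuw : δ u w ≤ S ^ (1 / p)) (hL : Led δ Pi p u w S I i f) :
    |Fp δ Pi p u w S I f| ≤ Cp p / 4 ^ i * (th δ Pi p w S i f + 2 * Dv Pi p i) := by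
  have hp2 := hP.hp
  have hp : 1 ≤ p := by linarith
  have hp0 : 0 < p := by linarith
  have hR : 0 < S ^ (1 / p) := Real.rpow_pos_of_pos hS _
  obtain ⟨hiI, hU, hprev⟩ := hL
  have hvi : valid δ Pi p w S i := hvw i hiI
  have huv : valid δ Pi p u S i := hvu i hiI
  set R := S ^ (1 / p) with hRdef
  set υ := th δ Pi p u S i f with hυ
  set ν := th δ Pi p w S i f with hν
  set D := Dv Pi p i with hD
  set ui := (32 / 16 ^ i : ℝ) ^ (1 / p) with hui
  have hui0 : 0 < ui := by positivity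
  have hυ0 : 0 ≤ υ := th_nonneg δ Pi p u S hS i f
  have hν0 : 0 ≤ ν := th_nonneg δ Pi p w S hS i f
  have hD0 : 0 < D := Dv_pos Pi p i
  have hbridge : ∀ z, z ≤ 32 / 16 ^ i → ∀ a : V, Th δ Pi p a S i f ≤ z →
      th δ Pi p a S i f ≤ ui := by
    intro z hz a ha
    have h1 := le_trans ha hz
    rw [Th_eq δ Pi p hp a S hS i f] at h1
    have h2 := Real.rpow_le_rpow (Real.rpow_nonneg (th_nonneg δ Pi p a S hS i f) _) h1
      (by positivity : 0 ≤ 1 / p)
    rwa [← Real.rpow_mul (th_nonneg δ Pi p a S hS i f), mul_one_div_cancel hp0.ne',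
      Real.rpow_one] at h2
  have hυui : υ ≤ ui := hbridge _ le_rfl u (U_window hδ hP u S hS f hG i hU)
  have hνui : ν ≤ ui := by
    by_cases hUw : U δ Pi p w S i f
    · exact hbridge _ le_rfl w (U_window hδ hP w S hS f hG i hUw)
    · have : Th δ Pi p w S i f ≤ 1 / 16 ^ i := by
        by_contra hcon
        exact hUw ⟨hvi, not_le.mp hcon, hprev⟩
      refine hbridge _ ?_ w this
      apply div_le_div_of_nonneg_right (by norm_num) (by positivity)
  have hDle : 2 * D ≤ ui / 2 := by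
    have h1 := hP.hD i
    have h2 : (1 / 16 ^ i : ℝ) ^ (1 / p) ≤ ui := by
      apply Real.rpow_le_rpow (by positivity) _ (by positivity)
      apply div_le_div_of_nonneg_right (by norm_num) (by positivity)
    have h3 : 1 / (2 * p) ≤ 1 / 4 := one_div_le_one_div_of_le (by norm_num) (by linarith)
    have h4 : (1 / (2 * p)) * (1 / 16 ^ i : ℝ) ^ (1 / p) ≤ (1 / 4) * ui :=
      mul_le_mul h3 h2 (by positivity) (by norm_num)
    linarith
  set B := ν + 2 * D with hB
  have hB0 : 0 < B := by positivity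
  -- the decomposition
  let X := gap δ Pi u i f / R
  let e := (gap δ Pi w i f - (cen δ Pi u i f - cen δ Pi w i f)) / R
  have hXabs : |X| = υ := by
    simp only [X, hυ]
    unfold th
    rw [abs_div, abs_of_pos hR]
  have heabs : |e| ≤ B := by
    simp only [e]
    rw [abs_div, abs_of_pos hR, div_le_iff₀ hR]
    have h1 := abs_sub (gap δ Pi w i f) (cen δ Pi u i f - cen δ Pi w i f)
    have h2 := cen_near hδ hP u w S hS f hG i huv hvi hδuw
    have h3 : |gap δ Pi w i f| = ν * R := by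
      have h30 : ν = |gap δ Pi w i f| / R := rfl
      rw [h30]
      field_simp
    rw [hB]
    nlinarith
  have hpsi : |f u - f w| ^ p / S = |X - e| ^ p := by
    rw [psi_eq p hp S hS]
    congr 1
    have h1 : X - e = (f u - f w) / R := by
      simp only [X, e]
      unfold gap
      field_simp
      ring
    rw [h1, abs_div, abs_of_pos hR]
  have hAu : Ac δ Pi p u S I f = υ ^ p := by
    rw [Ac_eq_of_U δ Pi p u S I i f hiI hU, Th_eq δ Pi p hp u S hS i f]
  have hAw0 := Ac_nonneg δ Pi p w S hS I f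
  have hAw : Ac δ Pi p w S I f ≤ B ^ p := by
    rcases Ac_cases δ Pi p w S I f with h | ⟨j, hj, hUj, h⟩
    · rw [h]
      positivity
    · rw [h, Th_eq δ Pi p hp w S hS j f]
      have hij : i ≤ j := by
        by_contra hcon
        have := hprev j (not_le.mp hcon)
        linarith [hUj.2.1]
      have h1 := th_diff hδ hP w S hS f hG i j hij (hvw j hj)
      have h2 := (abs_le.mp h1).1
      apply Real.rpow_le_rpow (th_nonneg δ Pi p w S hS j f) _ hp0.le
      rw [hB]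
      linarith
  have hmain := abs_rpow_sub_le X e p hp
  rw [hXabs] at hmain
  have hp1 : 0 ≤ p - 1 := by linarith
  have hsum : υ + B ≤ 3 * ui := by linarith
  have hpow1 : (υ + |e|) ^ (p - 1) ≤ (υ + B) ^ (p - 1) :=
    Real.rpow_le_rpow (by positivity) (by linarith) hp1
  have hpow2 : B ^ (p - 1) ≤ (υ + B) ^ (p - 1) :=
    Real.rpow_le_rpow hB0.le (by linarith) hp1
  have hBp : B ^ p = B ^ (p - 1) * B := by
    rw [← Real.rpow_add_one hB0.ne']
    congr 1
    ring
  have hF1 : |Fp δ Pi p u w S I f| ≤ (p + 1) * (υ + B) ^ (p - 1) * B := by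
    unfold Fp
    rw [hpsi, hAu]
    have h1 : |X - e| ^ p - υ ^ p - Ac δ Pi p w S I f
        = (|X - e| ^ p - υ ^ p) - Ac δ Pi p w S I f := by ring
    rw [h1]
    refine le_trans (abs_sub _ _) ?_
    rw [abs_of_nonneg hAw0]
    have h2 : p * (υ + |e|) ^ (p - 1) * |e| ≤ p * (υ + B) ^ (p - 1) * B := by
      apply mul_le_mul _ heabs (abs_nonneg _) (by positivity)
      exact mul_le_mul_of_nonneg_left hpow1 hp0.le
    have h3 : Ac δ Pi p w S I f ≤ (υ + B) ^ (p - 1) * B := by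
      refine le_trans hAw ?_
      rw [hBp]
      exact mul_le_mul_of_nonneg_right hpow2 hB0.le
    calc abs (|X - e| ^ p - υ ^ p) + Ac δ Pi p w S I f
        ≤ p * (υ + B) ^ (p - 1) * B + (υ + B) ^ (p - 1) * B := add_le_add (le_trans hmain h2) h3
      _ = _ := by ring
  have hfinal : (υ + B) ^ (p - 1) ≤ (3:ℝ) ^ (p - 1) * (32 / 4 ^ i) := by
    have h1 : (υ + B) ^ (p - 1) ≤ (3 * ui) ^ (p - 1) :=
      Real.rpow_le_rpow (by positivity) hsum hp1
    rw [Real.mul_rpow (by norm_num) hui0.le] at h1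
    refine le_trans h1 ?_
    exact mul_le_mul_of_nonneg_left (ui_pow p hp2 i) (by positivity)
  refine le_trans hF1 ?_
  unfold Cp
  calc (p + 1) * (υ + B) ^ (p - 1) * B
      ≤ (p + 1) * ((3:ℝ) ^ (p - 1) * (32 / 4 ^ i)) * B := by
        apply mul_le_mul_of_nonneg_right _ hB0.le
        exact mul_le_mul_of_nonneg_left hfinal (by positivity)
    _ = (p + 1) * (3:ℝ) ^ (p - 1) * 32 / 4 ^ i * B := by ring

/-- the estimate when nothing has stopped -/
lemma case0_bound (x y : V) (S : ℝ) (hS : 0 < S) (f : V → ℝ) (hG : Gd δ p f) (I : ℕ)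
    (hvx : ∀ k < I, valid δ Pi p x S k) (hvy : ∀ k < I, valid δ Pi p y S k)
    (hδxy : δ x y ≤ S ^ (1 / p))
    (hsmall : ∀ k < I, Th δ Pi p x S k f ≤ 1 / 16 ^ k ∧ Th δ Pi p y S k f ≤ 1 / 16 ^ k) :
    |f x - f y| ^ p / S ≤ (3:ℝ) ^ p * 16 / 16 ^ I := by
  have hp2 := hP.hp
  have hp : 1 ≤ p := by linarith
  have hp0 : 0 < p := by linarith
  have hR : 0 < S ^ (1 / p) := Real.rpow_pos_of_pos hS _
  cases I with
  | zero =>
    have h1 := ratio_le_slope δ p hp hδ.h0 f hG.1 S hS x y hδxy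
    have h2 := slope_le_one δ p hp f hδ.h0 hδ.hs hδ.ht hδ.hr hG x y
    have h3 : (1:ℝ) ≤ (3:ℝ) ^ p := Real.one_le_rpow (by norm_num) hp0.le
    simp only [pow_zero, div_one]
    linarith
  | succ j =>
    have hs := hsmall j (Nat.lt_succ_self j)
    have h1 := th_le_base hδ hP x S hS f j hs.1
    have h2 := th_le_base hδ hP y S hS f j hs.2
    have h3 := cen_near hδ hP x y S hS f hG j (hvx j (Nat.lt_succ_self j))
      (hvy j (Nat.lt_succ_self j)) hδxy
    have h4 := hP.hD j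
    have hb : 0 < (1 / 16 ^ j : ℝ) ^ (1 / p) := by positivity
    have hpfrac : 1 / (2 * p) ≤ 1 / 2 := one_div_le_one_div_of_le (by norm_num) (by linarith)
    have h5 : Dv Pi p j ≤ (1 / 2) * (1 / 16 ^ j : ℝ) ^ (1 / p) :=
      le_trans h4 (mul_le_mul_of_nonneg_right hpfrac hb.le)
    have h6 : |f x - f y| / S ^ (1 / p) ≤ 3 * (1 / 16 ^ j : ℝ) ^ (1 / p) := by
      rw [div_le_iff₀ hR]
      have h7 : f x - f y = gap δ Pi x j f - gap δ Pi y j f + (cen δ Pi x j f - cen δ Pi y j f) := by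
        unfold gap
        ring
      have h8 : |f x - f y| ≤ |gap δ Pi x j f| + |gap δ Pi y j f|
          + |cen δ Pi x j f - cen δ Pi y j f| := by
        rw [h7]
        refine le_trans (abs_add_le _ _) ?_
        have := abs_sub (gap δ Pi x j f) (gap δ Pi y j f)
        linarith
      have h9 : |gap δ Pi x j f| ≤ (1 / 16 ^ j : ℝ) ^ (1 / p) * S ^ (1 / p) := by
        unfold th at h1
        rwa [div_le_iff₀ hR] at h1
      have h10 : |gap δ Pi y j f| ≤ (1 / 16 ^ j : ℝ) ^ (1 / p) * S ^ (1 / p) := by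
        unfold th at h2
        rwa [div_le_iff₀ hR] at h2
      nlinarith
    rw [psi_eq p hp S hS]
    have h11 := Real.rpow_le_rpow (by positivity) h6 hp0.le
    refine le_trans h11 (le_of_eq ?_)
    rw [Real.mul_rpow (by norm_num) hb.le, ← Real.rpow_mul (by positivity),
      one_div_mul_cancel hp0.ne', Real.rpow_one, pow_succ]
    field_simp

end Main

/-- either nothing passes the threshold, or there is a first level where something does -/
lemma classify (δ : V → V → ℝ) (Pi : ℕ) (p : ℝ) (x y : V) (S : ℝ) (I : ℕ) (f : V → ℝ) :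
    (∀ k < I, Th δ Pi p x S k f ≤ 1 / 16 ^ k ∧ Th δ Pi p y S k f ≤ 1 / 16 ^ k) ∨
    ∃ i < I, (1 / 16 ^ i < Th δ Pi p x S i f ∨ 1 / 16 ^ i < Th δ Pi p y S i f) ∧
      ∀ k < i, Th δ Pi p x S k f ≤ 1 / 16 ^ k ∧ Th δ Pi p y S k f ≤ 1 / 16 ^ k := by
  classical
  by_cases h : ∃ i, i < I ∧ (1 / 16 ^ i < Th δ Pi p x S i f ∨ 1 / 16 ^ i < Th δ Pi p y S i f)
  · right
    refine ⟨Nat.find h, (Nat.find_spec h).1, (Nat.find_spec h).2, fun k hk => ?_⟩
    have h1 := Nat.find_min h hk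
    have hkI : k < I := lt_trans hk (Nat.find_spec h).1
    push Not at h1
    exact h1 hkI
  · left
    push Not at h
    exact fun k hk => h k hk

end Stage3

end Vale.Agent.Lib.P249
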