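import Mathlib
import Vale.Agent.Lib.P249.Stage3

namespace Vale.Agent.Lib.P249

section Stage4

set_option linter.unusedSectionVars false

variable {V : Type*} [Fintype V] [LinearOrder V]

/-- the number of levels available for the pair at scale `S` -/
noncomputable def Iz (δ : V → V → ℝ) (Pi : ℕ) (p : ℝ) (x y : V) (S : ℝ) : ℕ :=
  sInf {i | ¬ (valid δ Pi p x S i ∧ valid δ Pi p y S i)}

lemma Iz_comm (δ : V → V → ℝ) (Pi : ℕ) (p : ℝ) (x y : V) (S : ℝ) :
    Iz δ Pi p x y S = Iz δ Pi p y x S := by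
  unfold Iz
  congr 1
  ext i
  simp only [Set.mem_ofPred_eq, and_comm]

lemma Iz_valid (δ : V → V → ℝ) (Pi : ℕ) (p : ℝ) (x y : V) (S : ℝ) (k : ℕ)
    (hk : k < Iz δ Pi p x y S) : valid δ Pi p x S k ∧ valid δ Pi p y S k := by
  have := Nat.notMem_of_lt_sInf hk
  simpa using this

/-- for a large level the rank exceeds the number of points -/
lemma not_valid_of_large (δ : V → V → ℝ) (Pi : ℕ) (p : ℝ) (hPi : 1 ≤ Pi) (x : V) (S : ℝ)
    (k : ℕ) (hk : Fintype.card V ≤ k) : ¬ valid δ Pi p x S k := by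
  unfold valid
  rw [not_le]
  have h1 : (ball δ x (S ^ (1 / p))).card ≤ Fintype.card V := Finset.card_le_univ _
  have h2 : k < 2 ^ k := Nat.lt_two_pow_self
  have h3 : k < 2 ^ (Pi * 2 ^ k) := by
    refine lt_of_lt_of_le h2 ?_
    apply Nat.pow_le_pow_right (by norm_num)
    have : k ≤ 2 ^ k := h2.le
    nlinarith
  unfold mr
  omega

lemma Iz_le (δ : V → V → ℝ) (Pi : ℕ) (p : ℝ) (hPi : 1 ≤ Pi) (x y : V) (S : ℝ) :
    Iz δ Pi p x y S ≤ Fintype.card V := by
  unfold Iz
  apply Nat.sInf_le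
  simp only [Set.mem_ofPred_eq, not_and]
  intro h
  exact absurd h (not_valid_of_large δ Pi p hPi x S _ le_rfl)

/-- at the first unavailable level, the pair has small rank in one of the directions -/
lemma Iz_rank (δ : V → V → ℝ) (Pi : ℕ) (p : ℝ) (hPi : 1 ≤ Pi) (x y : V) (S : ℝ)
    (hxy : δ x y ≤ S ^ (1 / p)) (hyx : δ y x ≤ S ^ (1 / p)) :
    rk δ x y < mr Pi (Iz δ Pi p x y S) ∨ rk δ y x < mr Pi (Iz δ Pi p x y S) := by
  have hne : {i | ¬ (valid δ Pi p x S i ∧ valid δ Pi p y S i)}.Nonempty := by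
    refine ⟨Fintype.card V, ?_⟩
    simp only [Set.mem_ofPred_eq, not_and]
    intro h
    exact absurd h (not_valid_of_large δ Pi p hPi x S _ le_rfl)
  have h1 : ¬ (valid δ Pi p x S (Iz δ Pi p x y S) ∧ valid δ Pi p y S (Iz δ Pi p x y S)) :=
    Nat.sInf_mem hne
  have hsub : ∀ a b, δ a b ≤ S ^ (1 / p) → rk δ a b ≤ (ball δ a (S ^ (1 / p))).card := by
    intro a b hab
    refine le_trans (rk_le_card_ball δ a b) ?_
    apply Finset.card_le_card
    intro k hk
    rw [mem_ball] at hk ⊢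
    linarith
  rcases not_and_or.mp h1 with h | h
  · left
    unfold valid at h
    have := hsub x y hxy
    omega
  · right
    unfold valid at h
    have := hsub y x hyx
    omega

/-- the part of a pair handled deterministically -/
def Det (δ : V → V → ℝ) (Pi : ℕ) (p : ℝ) (x y : V) (S : ℝ) (I : ℕ) (f : V → ℝ) : Prop :=
  ∃ i, (Led δ Pi p x y S I i f ∧ th δ Pi p y S i f < 2 * Dv Pi p i) ∨
    (Led δ Pi p y x S I i f ∧ th δ Pi p x S i f < 2 * Dv Pi p i)

open Classical in
/-- the part of the remainder of a pair at level `l` -/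
noncomputable def pv (δ : V → V → ℝ) (Pi : ℕ) (p : ℝ) (x y : V) (S : ℝ) (I l : ℕ) (f : V → ℝ) : ℝ :=
  if ¬ Det δ Pi p x y S I f ∧ 16 / 16 ^ l < |Fp δ Pi p x y S I f| ∧
      |Fp δ Pi p x y S I f| ≤ 256 / 16 ^ l then Fp δ Pi p x y S I f else 0

lemma pv_cases (δ : V → V → ℝ) (Pi : ℕ) (p : ℝ) (x y : V) (S : ℝ) (I l : ℕ) (f : V → ℝ) :
    pv δ Pi p x y S I l f = 0 ∨ (¬ Det δ Pi p x y S I f ∧ 16 / 16 ^ l < |Fp δ Pi p x y S I f| ∧
      |Fp δ Pi p x y S I f| ≤ 256 / 16 ^ l ∧ pv δ Pi p x y S I l f = Fp δ Pi p x y S I f) := by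
  unfold pv
  split_ifs with h
  · exact Or.inr ⟨h.1, h.2.1, h.2.2, rfl⟩
  · exact Or.inl rfl

lemma pv_unique (δ : V → V → ℝ) (Pi : ℕ) (p : ℝ) (x y : V) (S : ℝ) (I l l' : ℕ) (f : V → ℝ)
    (h : pv δ Pi p x y S I l f ≠ 0) (h' : pv δ Pi p x y S I l' f ≠ 0) : l = l' := by
  rcases pv_cases δ Pi p x y S I l f with h1 | ⟨_, h2, h3, _⟩
  · exact absurd h1 h
  rcases pv_cases δ Pi p x y S I l' f with h1' | ⟨_, h2', h3', _⟩
  · exact absurd h1' h'
  have key : ∀ a b : ℕ, a < b → (256:ℝ) / 16 ^ b ≤ 16 / 16 ^ a := by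
    intro a b hab
    have hb : b = a + 1 + (b - a - 1) := by omega
    rw [hb, pow_add, pow_succ]
    have h16 : (1:ℝ) ≤ 16 ^ (b - a - 1) := one_le_pow₀ (by norm_num)
    rw [div_le_div_iff₀ (by positivity) (by positivity)]
    have h0 : (0:ℝ) < 16 ^ a := by positivity
    nlinarith [mul_le_mul_of_nonneg_left h16 h0.le]
  rcases lt_trichotomy l l' with hl | hl | hl
  · have := key l l' hl
    linarith
  · exact hl
  · have := key l' l hl
    linarith

lemma sum_abs_pv_le (δ : V → V → ℝ) (Pi : ℕ) (p : ℝ) (x y : V) (S : ℝ) (I L : ℕ) (f : V → ℝ) :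
    ∑ l ∈ Finset.range L, |pv δ Pi p x y S I l f| ≤ |Fp δ Pi p x y S I f| := by
  by_cases h : ∃ l ∈ Finset.range L, pv δ Pi p x y S I l f ≠ 0
  · obtain ⟨l, hl, hne⟩ := h
    rw [Finset.sum_eq_single l]
    · rcases pv_cases δ Pi p x y S I l f with h1 | ⟨_, _, _, h2⟩
      · exact absurd h1 hne
      · rw [h2]
    · intro b _ hb
      by_contra hcon
      have : pv δ Pi p x y S I b f ≠ 0 := fun h0 => hcon (by rw [h0, abs_zero])
      exact hb (pv_unique δ Pi p x y S I b l f this hne)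
    · intro h
      exact absurd hl h
  · push Not at h
    rw [Finset.sum_eq_zero]
    · exact abs_nonneg _
    · intro l hl
      rw [h l hl, abs_zero]

section Main

variable {δ : V → V → ℝ} (hδ : PM δ) {Pi : ℕ} {p : ℝ} (hP : PP Pi p)

include hδ hP

lemma Ac_le_32 (x : V) (S : ℝ) (hS : 0 < S) (f : V → ℝ) (hG : Gd δ p f) (I : ℕ) :
    Ac δ Pi p x S I f ≤ 32 := by
  rcases Ac_cases δ Pi p x S I f with h | ⟨i, _, hU, h⟩
  · rw [h]
    norm_num
  · rw [h]
    refine le_trans (U_window hδ hP x S hS f hG i hU) ?_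
    rw [div_le_iff₀ (by positivity)]
    have h1 : (1:ℝ) ≤ 16 ^ i := one_le_pow₀ (by norm_num)
    linarith

lemma psi_le_one (x y : V) (S : ℝ) (hS : 0 < S) (f : V → ℝ) (hG : Gd δ p f)
    (hxy : δ x y ≤ S ^ (1 / p)) : |f x - f y| ^ p / S ≤ 1 := by
  have hp : 1 ≤ p := by linarith [hP.hp]
  have h1 := ratio_le_slope δ p hp hδ.h0 f hG.1 S hS x y hxy
  have h2 := slope_le_one δ p hp f hδ.h0 hδ.hs hδ.ht hδ.hr hG x y
  linarith

lemma Fp_le_256 (x y : V) (S : ℝ) (hS : 0 < S) (f : V → ℝ) (hG : Gd δ p f) (I : ℕ)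
    (hxy : δ x y ≤ S ^ (1 / p)) : |Fp δ Pi p x y S I f| ≤ 256 := by
  have h1 := psi_le_one hδ hP x y S hS f hG hxy
  have h0 : 0 ≤ |f x - f y| ^ p / S := by positivity
  have h2 := Ac_le_32 hδ hP x S hS f hG I
  have h3 := Ac_le_32 hδ hP y S hS f hG I
  have h4 := Ac_nonneg δ Pi p x S hS I f
  have h5 := Ac_nonneg δ Pi p y S hS I f
  unfold Fp
  rw [abs_le]
  constructor <;> linarith

/-- the deterministic part is small -/
lemma Det_bound (x y : V) (S : ℝ) (hS : 0 < S) (f : V → ℝ) (hG : Gd δ p f)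
    (hxy : δ x y ≤ S ^ (1 / p)) (hD : Det δ Pi p x y S (Iz δ Pi p x y S) f) :
    ∃ i < Iz δ Pi p x y S, (U δ Pi p x S i f ∨ U δ Pi p y S i f) ∧
      |Fp δ Pi p x y S (Iz δ Pi p x y S) f| ≤ Cp p / 4 ^ i * (4 * Dv Pi p i) := by
  have hp : 1 ≤ p := by linarith [hP.hp]
  have hC := Cp_pos p hp
  obtain ⟨i, h | h⟩ := hD
  · obtain ⟨hL, hth⟩ := h
    refine ⟨i, hL.1, Or.inl hL.2.1, ?_⟩
    have h1 := led_bound hδ hP x y S hS f hG (Iz δ Pi p x y S) i
      (fun k hk => (Iz_valid δ Pi p x y S k hk).1) (fun k hk => (Iz_valid δ Pi p x y S k hk).2)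
      hxy hL
    refine le_trans h1 ?_
    apply mul_le_mul_of_nonneg_left _ (by positivity)
    linarith
  · obtain ⟨hL, hth⟩ := h
    refine ⟨i, hL.1, Or.inr hL.2.1, ?_⟩
    have hyx : δ y x ≤ S ^ (1 / p) := by rw [hδ.hs]; exact hxy
    have hI := Iz_comm δ Pi p x y S
    have h1 := led_bound hδ hP y x S hS f hG (Iz δ Pi p x y S) i
      (fun k hk => (Iz_valid δ Pi p x y S k hk).2) (fun k hk => (Iz_valid δ Pi p x y S k hk).1)
      hyx hL
    rw [Fp_comm]
    refine le_trans h1 ?_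
    apply mul_le_mul_of_nonneg_left _ (by positivity)
    linarith

/-- the structure of a pair at an active level -/
lemma active_cases (x y : V) (S : ℝ) (hS : 0 < S) (f : V → ℝ) (hG : Gd δ p f)
    (hxy : δ x y ≤ S ^ (1 / p)) (l : ℕ) (hD : ¬ Det δ Pi p x y S (Iz δ Pi p x y S) f)
    (hF : 16 / 16 ^ l < |Fp δ Pi p x y S (Iz δ Pi p x y S) f|) :
    (16 / 16 ^ l < |f x - f y| ^ p / S ∧
      |f x - f y| ^ p / S ≤ (3:ℝ) ^ p * 16 / 16 ^ (Iz δ Pi p x y S)) ∨
    ∃ i < Iz δ Pi p x y S,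
      (U δ Pi p x S i f ∧ valid δ Pi p y S i ∧
        16 / 16 ^ l < 2 * Cp p / 4 ^ i * th δ Pi p y S i f) ∨
      (U δ Pi p y S i f ∧ valid δ Pi p x S i ∧
        16 / 16 ^ l < 2 * Cp p / 4 ^ i * th δ Pi p x S i f) := by
  have hp : 1 ≤ p := by linarith [hP.hp]
  have hC := Cp_pos p hp
  have hyx : δ y x ≤ S ^ (1 / p) := by rw [hδ.hs]; exact hxy
  set I := Iz δ Pi p x y S with hI
  have hvx : ∀ k < I, valid δ Pi p x S k := fun k hk => (Iz_valid δ Pi p x y S k hk).1
  have hvy : ∀ k < I, valid δ Pi p y S k := fun k hk => (Iz_valid δ Pi p x y S k hk).2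
  rcases classify δ Pi p x y S I f with h0 | ⟨i, hi, hex, hprev⟩
  · left
    have hAx : Ac δ Pi p x S I f = 0 := by
      apply Ac_eq_zero
      intro i hi hU
      have := (h0 i hi).1
      linarith [hU.2.1]
    have hAy : Ac δ Pi p y S I f = 0 := by
      apply Ac_eq_zero
      intro i hi hU
      have := (h0 i hi).2
      linarith [hU.2.1]
    unfold Fp at hF
    rw [hAx, hAy, sub_zero, sub_zero, abs_of_nonneg (by positivity)] at hF
    exact ⟨hF, case0_bound hδ hP x y S hS f hG I hvx hvy hxy h0⟩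
  · right
    refine ⟨i, hi, ?_⟩
    have hDpos := Dv_pos Pi p i
    have hCi : 0 < Cp p / 4 ^ i := by positivity
    by_cases hxex : 1 / 16 ^ i < Th δ Pi p x S i f
    · left
      have hU : U δ Pi p x S i f := ⟨hvx i hi, hxex, fun k hk => (hprev k hk).1⟩
      have hL : Led δ Pi p x y S I i f := ⟨hi, hU, fun k hk => (hprev k hk).2⟩
      refine ⟨hU, hvy i hi, ?_⟩
      have hth : 2 * Dv Pi p i ≤ th δ Pi p y S i f := by
        by_contra hcon
        exact hD ⟨i, Or.inl ⟨hL, not_le.mp hcon⟩⟩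
      have h1 := led_bound hδ hP x y S hS f hG I i hvx hvy hxy hL
      have h2 : Cp p / 4 ^ i * (th δ Pi p y S i f + 2 * Dv Pi p i)
          ≤ 2 * Cp p / 4 ^ i * th δ Pi p y S i f := by
        have : 2 * Cp p / 4 ^ i * th δ Pi p y S i f
            = Cp p / 4 ^ i * (2 * th δ Pi p y S i f) := by ring
        rw [this]
        apply mul_le_mul_of_nonneg_left _ hCi.le
        linarith
      linarith
    · right
      have hyex : 1 / 16 ^ i < Th δ Pi p y S i f := by
        rcases hex with h | h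
        · exact absurd h hxex
        · exact h
      have hU : U δ Pi p y S i f := ⟨hvy i hi, hyex, fun k hk => (hprev k hk).2⟩
      have hL : Led δ Pi p y x S I i f := ⟨hi, hU, fun k hk => (hprev k hk).1⟩
      refine ⟨hU, hvx i hi, ?_⟩
      have hth : 2 * Dv Pi p i ≤ th δ Pi p x S i f := by
        by_contra hcon
        exact hD ⟨i, Or.inr ⟨hL, not_le.mp hcon⟩⟩
      have h1 := led_bound hδ hP y x S hS f hG I i hvy hvx hyx hL
      rw [← Fp_comm] at h1
      have h2 : Cp p / 4 ^ i * (th δ Pi p x S i f + 2 * Dv Pi p i)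
          ≤ 2 * Cp p / 4 ^ i * th δ Pi p x S i f := by
        have : 2 * Cp p / 4 ^ i * th δ Pi p x S i f
            = Cp p / 4 ^ i * (2 * th δ Pi p x S i f) := by ring
        rw [this]
        apply mul_le_mul_of_nonneg_left _ hCi.le
        linarith
      linarith

open Classical in
/-- the remainder after the level decomposition -/
lemma rem_bound (x y : V) (S : ℝ) (hS : 0 < S) (f : V → ℝ) (hG : Gd δ p f) (I L : ℕ)
    (hxy : δ x y ≤ S ^ (1 / p)) :
    |Fp δ Pi p x y S I f - ∑ l ∈ Finset.range L, pv δ Pi p x y S I l f|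
      ≤ (if Det δ Pi p x y S I f then |Fp δ Pi p x y S I f| else 0) + 256 / 16 ^ L := by
  have hpos : (0:ℝ) < 256 / 16 ^ L := by positivity
  by_cases hD : Det δ Pi p x y S I f
  · have hz : ∑ l ∈ Finset.range L, pv δ Pi p x y S I l f = 0 := by
      apply Finset.sum_eq_zero
      intro l _
      rcases pv_cases δ Pi p x y S I l f with h | ⟨h, _⟩
      · exact h
      · exact absurd hD h
    rw [hz, sub_zero, if_pos hD]
    linarith
  rw [if_neg hD, zero_add]
  by_cases hsmall : |Fp δ Pi p x y S I f| ≤ 256 / 16 ^ L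
  · have hz : ∑ l ∈ Finset.range L, pv δ Pi p x y S I l f = 0 := by
      apply Finset.sum_eq_zero
      intro l hl
      rcases pv_cases δ Pi p x y S I l f with h | ⟨_, h, _⟩
      · exact h
      · exfalso
        have hlL : l + 1 ≤ L := Finset.mem_range.mp hl
        have h2 : (256:ℝ) / 16 ^ L ≤ 16 / 16 ^ l := by
          have hb : L = l + 1 + (L - l - 1) := by omega
          rw [hb, pow_add, pow_succ]
          have h16 : (1:ℝ) ≤ 16 ^ (L - l - 1) := one_le_pow₀ (by norm_num)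
          rw [div_le_div_iff₀ (by positivity) (by positivity)]
          have h0 : (0:ℝ) < 16 ^ l := by positivity
          nlinarith [mul_le_mul_of_nonneg_left h16 h0.le]
        linarith
    rw [hz, sub_zero]
    exact hsmall
  · -- a unique level catches the value
    push Not at hsmall
    have hL0 : L ≠ 0 := by
      rintro rfl
      have := Fp_le_256 hδ hP x y S hS f hG I hxy
      simp only [pow_zero, div_one] at hsmall
      linarith
    have hex : ∃ l, 16 / 16 ^ l < |Fp δ Pi p x y S I f| := by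
      refine ⟨L - 1, ?_⟩
      have h1 : (16:ℝ) / 16 ^ (L - 1) = 256 / 16 ^ L := by
        have hb : L = (L - 1) + 1 := by omega
        nth_rewrite 2 [hb]
        rw [pow_succ]
        field_simp
        norm_num
      rw [h1]
      exact hsmall
    set l₀ := Nat.find hex with hl₀
    have h1 : 16 / 16 ^ l₀ < |Fp δ Pi p x y S I f| := Nat.find_spec hex
    have hl₀L : l₀ ≤ L - 1 := by
      apply Nat.find_min'
      have h1 : (16:ℝ) / 16 ^ (L - 1) = 256 / 16 ^ L := by
        have hb : L = (L - 1) + 1 := by omega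
        nth_rewrite 2 [hb]
        rw [pow_succ]
        field_simp
        norm_num
      rw [h1]
      exact hsmall
    have h2 : |Fp δ Pi p x y S I f| ≤ 256 / 16 ^ l₀ := by
      rcases Nat.eq_zero_or_pos l₀ with h0 | h0
      · rw [h0]
        simp only [pow_zero, div_one]
        exact Fp_le_256 hδ hP x y S hS f hG I hxy
      · have h3 := Nat.find_min hex (Nat.sub_lt h0 Nat.one_pos)
        rw [← hl₀] at h3
        push Not at h3
        refine le_trans h3 (le_of_eq ?_)
        have hb : l₀ = (l₀ - 1) + 1 := by omega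
        nth_rewrite 2 [hb]
        rw [pow_succ]
        field_simp
        norm_num
    have hpv : pv δ Pi p x y S I l₀ f = Fp δ Pi p x y S I f := by
      unfold pv
      rw [if_pos ⟨hD, h1, h2⟩]
    have hFne : Fp δ Pi p x y S I f ≠ 0 := by
      intro h0
      rw [h0, abs_zero] at h1
      have : (0:ℝ) < 16 / 16 ^ l₀ := by positivity
      linarith
    have hsum : ∑ l ∈ Finset.range L, pv δ Pi p x y S I l f = Fp δ Pi p x y S I f := by
      rw [Finset.sum_eq_single l₀]
      · exact hpv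
      · intro b _ hb
        by_contra hcon
        exact hb (pv_unique δ Pi p x y S I b l₀ f hcon (by rw [hpv]; exact hFne))
      · intro h
        exact absurd (Finset.mem_range.mpr (by omega)) h
    rw [hsum, sub_self, abs_zero]
    exact hpos.le

end Main

end Stage4

end Vale.Agent.Lib.P249
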