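import Mathlib
import Vale.Agent.Lib.P249.Stage4

namespace Vale.Agent.Lib.P249

section Stage5

set_option linter.unusedSectionVars false

lemma card_gt_le {α : Type*} (s : Finset α) (e : α → ℝ) (he : ∀ a ∈ s, 0 ≤ e a) (E θ : ℝ)
    (hE : ∑ a ∈ s, e a ≤ E) (hθ : 0 < θ) :
    ((s.filter (fun a => θ < e a)).card : ℝ) ≤ E / θ := by
  rw [le_div_iff₀ hθ]
  have h1 : ((s.filter (fun a => θ < e a)).card : ℝ) * θ
      = ∑ _a ∈ s.filter (fun a => θ < e a), θ := by
    rw [Finset.sum_const, nsmul_eq_mul]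
  rw [h1]
  calc ∑ _a ∈ s.filter (fun a => θ < e a), θ
      ≤ ∑ a ∈ s.filter (fun a => θ < e a), e a :=
        Finset.sum_le_sum (fun a ha => (Finset.mem_filter.mp ha).2.le)
    _ ≤ ∑ a ∈ s, e a := Finset.sum_le_sum_of_subset_of_nonneg (Finset.filter_subset _ _)
        (fun a ha _ => he a ha)
    _ ≤ E := hE

variable {V : Type*} [Fintype V] [LinearOrder V]

section Main

variable {δ : V → V → ℝ} (hδ : PM δ) {Pi : ℕ} {p : ℝ} (hP : PP Pi p)

include hδ hP

lemma ren_le_one (f : V → ℝ) (hG : Gd δ p f) : ren δ p f ≤ 1 := by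
  have hp : 1 ≤ p := by linarith [hP.hp]
  refine le_trans hG.2 ?_
  rw [div_le_one (Lam_pos p hp)]
  exact Lam_ge_one p hp

lemma ven_count (f : V → ℝ) (hG : Gd δ p f) (θ : ℝ) (hθ : 0 < θ) :
    (((Finset.univ : Finset V).filter (fun x => θ < ven δ p f x)).card : ℝ) ≤ 1 / θ :=
  card_gt_le _ _ (fun a _ => ven_nonneg δ hδ.h0 p f a) 1 θ (by
    rw [sum_ven]
    exact ren_le_one hδ hP f hG) hθ

lemma pair_count (f : V → ℝ) (hG : Gd δ p f) (θ : ℝ) (hθ : 0 < θ) :
    (((Finset.univ : Finset (V × V)).filter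
      (fun q => θ < rwt δ q.1 q.2 * slope δ p f q.1 q.2)).card : ℝ) ≤ 1 / θ := by
  refine card_gt_le _ _ (fun a _ => mul_nonneg (rwt_pos δ _ _).le (slope_nonneg δ hδ.h0 p f _ _))
    1 θ ?_ hθ
  have h1 := ren_le_one hδ hP f hG
  rw [← Finset.univ_product_univ, Finset.sum_product]
  exact h1

lemma U_ven (x : V) (S : ℝ) (hS : 0 < S) (i : ℕ) (f : V → ℝ) (hG : Gd δ p f)
    (hU : U δ Pi p x S i f) : 1 / (16 ^ i * ell (mr Pi i) ^ 2) < ven δ p f x := by
  have hp : 1 ≤ p := by linarith [hP.hp]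
  have h1 := Th_le_ven δ Pi p hp f hδ.h0 hG.1 x S hS i hU.1
  have h2 := hU.2.1
  have hm1 : (1:ℝ) ≤ mr Pi i := by exact_mod_cast mr_pos Pi i
  have hell := ell_pos _ hm1
  rw [div_lt_iff₀ (by positivity)]
  have h3 : 1 / (16:ℝ) ^ i < ell (mr Pi i) ^ 2 * ven δ p f x := lt_of_lt_of_le h2 h1
  rw [div_lt_iff₀ (by positivity)] at h3
  linarith

lemma aval_ne_zero (x : V) (S : ℝ) (i : ℕ) (f : V → ℝ) (h : aval δ Pi p x S i f ≠ 0) :
    U δ Pi p x S i f := by
  unfold aval at h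
  by_contra hU
  rw [if_neg hU] at h
  exact h rfl

lemma aval_bounds (x : V) (S : ℝ) (hS : 0 < S) (i : ℕ) (f : V → ℝ) (hG : Gd δ p f)
    (h : aval δ Pi p x S i f ≠ 0) :
    (32 / 16 ^ i : ℝ) / 32 ≤ |aval δ Pi p x S i f| ∧ |aval δ Pi p x S i f| ≤ 32 / 16 ^ i := by
  have hU := aval_ne_zero hδ hP x S i f h
  have h1 : aval δ Pi p x S i f = Th δ Pi p x S i f := by
    unfold aval
    rw [if_pos hU]
  rw [h1, abs_of_nonneg (Th_nonneg δ Pi p x S hS i f)]
  refine ⟨?_, U_window hδ hP x S hS f hG i hU⟩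
  have := hU.2.1
  have h3 : (32 / 16 ^ i : ℝ) / 32 = 1 / 16 ^ i := by
    field_simp
  rw [h3]
  exact this.le

lemma aval_scale_unique (x : V) (a a' : ℤ) (i : ℕ) (f : V → ℝ) (hG : Gd δ p f)
    (h : aval δ Pi p x ((32:ℝ) ^ a) i f ≠ 0) (h' : aval δ Pi p x ((32:ℝ) ^ a') i f ≠ 0) :
    a = a' := by
  have key : ∀ b b' : ℤ, b < b' → aval δ Pi p x ((32:ℝ) ^ b) i f ≠ 0 →
      aval δ Pi p x ((32:ℝ) ^ b') i f ≠ 0 → False := by
    intro b b' hb hU hU'
    have hpos : ∀ c : ℤ, (0:ℝ) < (32:ℝ) ^ c := fun c => zpow_pos (by norm_num) c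
    have h1 := U_window hδ hP x _ (hpos b) f hG i (aval_ne_zero hδ hP x _ i f hU)
    have h2 := (aval_ne_zero hδ hP x _ i f hU').2.1
    unfold Th at h1 h2
    have h3 : (32:ℝ) ^ b * 32 ≤ (32:ℝ) ^ b' := by
      have : (32:ℝ) ^ b * 32 = (32:ℝ) ^ (b + 1) := by
        rw [zpow_add_one₀ (by norm_num)]
      rw [this]
      exact zpow_le_zpow_right₀ (by norm_num) (by omega)
    have h4 : 0 ≤ |gap δ Pi x i f| ^ p := by positivity
    rw [div_le_div_iff₀ (hpos b) (by positivity)] at h1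
    rw [div_lt_div_iff₀ (by positivity) (hpos b')] at h2
    have h5 : (0:ℝ) < 16 ^ i := by positivity
    have h6 : |gap δ Pi x i f| ^ p * 16 ^ i ≤ (32:ℝ) ^ b * 32 := by
      linarith
    linarith
  rcases lt_trichotomy a a' with hl | hl | hl
  · exact (key a a' hl h h').elim
  · exact hl
  · exact (key a' a hl h' h).elim

/-- the number of active atoms at one level -/
lemma atom_count (C : Finset ℤ) (i : ℕ) (f : V → ℝ) (hG : Gd δ p f) :
    ((((Finset.univ : Finset V) ×ˢ C).filter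
      (fun c => aval δ Pi p c.1 ((32:ℝ) ^ c.2) i f ≠ 0)).card : ℝ)
      ≤ 16 ^ i * ell (mr Pi i) ^ 2 := by
  have hm1 : (1:ℝ) ≤ mr Pi i := by exact_mod_cast mr_pos Pi i
  have hell := ell_pos _ hm1
  have hθ : 0 < 1 / (16 ^ i * ell (mr Pi i) ^ 2) := by positivity
  have h1 := ven_count hδ hP f hG _ hθ
  have h2 : 1 / (1 / (16 ^ i * ell (mr Pi i) ^ 2)) = 16 ^ i * ell (mr Pi i) ^ 2 := by
    field_simp
  rw [h2] at h1
  refine le_trans ?_ h1
  have h3 : (((Finset.univ : Finset V) ×ˢ C).filter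
      (fun c => aval δ Pi p c.1 ((32:ℝ) ^ c.2) i f ≠ 0)).card
      ≤ ((Finset.univ : Finset V).filter
        (fun x => 1 / (16 ^ i * ell (mr Pi i) ^ 2) < ven δ p f x)).card := by
    apply Finset.card_le_card_of_injOn (fun c => c.1)
    · intro c hc
      have hc' := (Finset.mem_filter.mp hc).2
      simp only [Finset.coe_filter, Finset.mem_univ, true_and]
      exact U_ven hδ hP c.1 _ (zpow_pos (by norm_num) _) i f hG (aval_ne_zero hδ hP _ _ i f hc')
    · intro c hc c' hc' hcc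
      have h4 := (Finset.mem_filter.mp hc).2
      have h5 := (Finset.mem_filter.mp hc').2
      simp only at hcc
      rw [← hcc] at h5
      have := aval_scale_unique hδ hP c.1 c.2 c'.2 i f hG h4 h5
      exact Prod.ext hcc this
  exact_mod_cast h3

/-- the threshold in the second member of a pair -/
noncomputable def lamb (p : ℝ) (l i : ℕ) : ℝ := 16 * 4 ^ i / (2 * Cp p * 16 ^ l)

omit hδ hP in
lemma lamb_pos (p : ℝ) (hp : 1 ≤ p) (l i : ℕ) : 0 < lamb p l i := by
  unfold lamb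
  have := Cp_pos p hp
  positivity

omit hδ in
lemma lamb_bound (l i : ℕ) :
    16 ^ i / lamb p l i ^ p ≤ (Cp p * 16 ^ l) ^ p := by
  have hp2 := hP.hp
  have hp : 1 ≤ p := by linarith
  have hp0 : 0 < p := by linarith
  have hC := Cp_pos p hp
  have h1 : lamb p l i = 4 ^ i / (Cp p * 16 ^ l / 8) := by
    unfold lamb
    field_simp
    ring
  rw [h1, Real.div_rpow (by positivity) (by positivity)]
  have h2 : (16:ℝ) ^ i ≤ ((4:ℝ) ^ i) ^ p := by
    have h3 : (16:ℝ) ^ i = ((4:ℝ) ^ i) ^ (2:ℝ) := by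
      rw [Real.rpow_two, ← pow_mul, mul_comm, pow_mul]
      norm_num
    rw [h3]
    exact Real.rpow_le_rpow_of_exponent_le (one_le_pow₀ (by norm_num)) hp2
  have h4 : (Cp p * 16 ^ l / 8) ^ p ≤ (Cp p * 16 ^ l) ^ p := by
    apply Real.rpow_le_rpow (by positivity) _ hp0.le
    have : 0 < Cp p * 16 ^ l := by positivity
    linarith
  have h5 : (0:ℝ) < ((4:ℝ) ^ i) ^ p := by positivity
  have h6 : 0 < (Cp p * 16 ^ l / 8) ^ p := by positivity
  have h7 : (16:ℝ) ^ i / (((4:ℝ) ^ i) ^ p / (Cp p * 16 ^ l / 8) ^ p)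
      = (16:ℝ) ^ i / ((4:ℝ) ^ i) ^ p * (Cp p * 16 ^ l / 8) ^ p := by
    field_simp
  rw [h7]
  have h8 : (16:ℝ) ^ i / ((4:ℝ) ^ i) ^ p ≤ 1 := by
    rw [div_le_one h5]
    exact h2
  calc (16:ℝ) ^ i / ((4:ℝ) ^ i) ^ p * (Cp p * 16 ^ l / 8) ^ p
      ≤ 1 * (Cp p * 16 ^ l / 8) ^ p := mul_le_mul_of_nonneg_right h8 h6.le
    _ ≤ (Cp p * 16 ^ l) ^ p := by rw [one_mul]; exact h4

/-- a second member of a pair has large energy -/
lemma th_ven (w : V) (S : ℝ) (hS : 0 < S) (i l : ℕ) (f : V → ℝ) (hG : Gd δ p f)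
    (hv : valid δ Pi p w S i) (h : 16 / 16 ^ l < 2 * Cp p / 4 ^ i * th δ Pi p w S i f) :
    lamb p l i ^ p / ell (mr Pi i) ^ 2 < ven δ p f w := by
  have hp : 1 ≤ p := by linarith [hP.hp]
  have hp0 : 0 < p := by linarith
  have hC := Cp_pos p hp
  have hm1 : (1:ℝ) ≤ mr Pi i := by exact_mod_cast mr_pos Pi i
  have hell := ell_pos _ hm1
  have h1 := Th_le_ven δ Pi p hp f hδ.h0 hG.1 w S hS i hv
  rw [Th_eq δ Pi p hp w S hS i f] at h1
  have h2 : lamb p l i < th δ Pi p w S i f := by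
    unfold lamb
    rw [div_lt_iff₀ (by positivity)]
    rw [div_lt_iff₀ (by positivity)] at h
    have h3 : 2 * Cp p / 4 ^ i * th δ Pi p w S i f * 16 ^ l * 4 ^ i
        = th δ Pi p w S i f * (2 * Cp p * 16 ^ l) := by
      field_simp
    have h4 : (0:ℝ) < 4 ^ i := by positivity
    nlinarith [mul_lt_mul_of_pos_right h h4]
  have h3 : lamb p l i ^ p < th δ Pi p w S i f ^ p :=
    Real.rpow_lt_rpow (lamb_pos p hp l i).le h2 hp0
  rw [div_lt_iff₀ (by positivity)]
  nlinarith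

/-- the level of a leading vertex is bounded -/
lemma level_bound (w : V) (S : ℝ) (hS : 0 < S) (i l c : ℕ) (f : V → ℝ) (hG : Gd δ p f)
    (hc : Cp p ≤ 4 ^ c)
    (hv : valid δ Pi p w S i) (h : 16 / 16 ^ l < 2 * Cp p / 4 ^ i * th δ Pi p w S i f) :
    i < c + 2 * l := by
  have hp : 1 ≤ p := by linarith [hP.hp]
  have hp0 : 0 < p := by linarith
  have hC := Cp_pos p hp
  have h1 := Th_le_one δ Pi p hp f hδ.h0 hδ.hs hδ.ht hδ.hr hG w S hS i hv
  rw [Th_eq δ Pi p hp w S hS i f] at h1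
  have h0 := th_nonneg δ Pi p w S hS i f
  have h2 : th δ Pi p w S i f ≤ 1 := by
    by_contra hcon
    push Not at hcon
    have := Real.one_lt_rpow hcon hp0
    linarith
  have h3 : 16 / 16 ^ l < 2 * Cp p / 4 ^ i := by
    refine lt_of_lt_of_le h ?_
    have : 0 < 2 * Cp p / 4 ^ i := by positivity
    nlinarith
  rw [div_lt_div_iff₀ (by positivity) (by positivity)] at h3
  have h4 : (4:ℝ) ^ i < 4 ^ (c + 2 * l) := by
    have h5 : (4:ℝ) ^ (c + 2 * l) = 4 ^ c * 16 ^ l := by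
      rw [pow_add, pow_mul]
      norm_num
    rw [h5]
    have h6 : (0:ℝ) < 16 ^ l := by positivity
    nlinarith [mul_le_mul_of_nonneg_right hc h6.le]
  exact (pow_lt_pow_iff_right₀ (by norm_num)).mp h4

/-- the number of active pairs at level `l` -/
noncomputable def Npair (Pi : ℕ) (p : ℝ) (P₂ c l : ℕ) : ℝ :=
  2 * (16 ^ l / (16 * gw (mr Pi (l + P₂)))) +
    2 * ((c + 2 * l : ℕ) : ℝ) * (ell (mr Pi (c + 2 * l)) ^ 4 * (Cp p * 16 ^ l) ^ p)

/-- the count of the active pairs at level `l` -/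
lemma pv_count (S : V → V → ℝ) (hS : ∀ x y, 0 < S x y)
    (hSδ : ∀ x y, δ x y ≤ S x y ^ (1 / p))
    (P₂ c l : ℕ) (hP₂ : p ≤ P₂) (hc : Cp p ≤ 4 ^ c) (f : V → ℝ) (hG : Gd δ p f) :
    (((Finset.univ : Finset (V × V)).filter
      (fun q => pv δ Pi p q.1 q.2 (S q.1 q.2) (Iz δ Pi p q.1 q.2 (S q.1 q.2)) l f ≠ 0)).card : ℝ)
      ≤ Npair Pi p P₂ c l := by
  have hp2 := hP.hp
  have hp : 1 ≤ p := by linarith
  have hp0 : 0 < p := by linarith
  have hC := Cp_pos p hp
  have hPi1 : 1 ≤ Pi := by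
    have h1 := hP.hPi
    by_contra hcon
    have h0 : Pi = 0 := by omega
    rw [h0] at h1
    have h2 : (1:ℝ) < (2:ℝ) ^ (68 * p + 8) := Real.one_lt_rpow (by norm_num) (by positivity)
    have h3 : ((mr 0 0 : ℕ) : ℝ) = 1 := by
      unfold mr
      norm_num
    rw [h3] at h1
    linarith
  classical
  set m' := mr Pi (l + P₂) with hm'
  have hgw : 0 < gw m' := gw_pos _ (mr_pos _ _)
  set θ : ℝ := gw m' * (16 / 16 ^ l) with hθ
  have hθ0 : 0 < θ := by positivity
  set T := (Finset.univ : Finset (V × V)).filter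
    (fun q => θ < rwt δ q.1 q.2 * slope δ p f q.1 q.2) with hT
  have hTc := pair_count hδ hP f hG θ hθ0
  set A : ℕ → Finset V := fun i => Finset.univ.filter
    (fun x => 1 / (16 ^ i * ell (mr Pi i) ^ 2) < ven δ p f x) with hA
  set B : ℕ → Finset V := fun i => Finset.univ.filter
    (fun x => lamb p l i ^ p / ell (mr Pi i) ^ 2 < ven δ p f x) with hB
  have hsub : (Finset.univ : Finset (V × V)).filter
      (fun q => pv δ Pi p q.1 q.2 (S q.1 q.2) (Iz δ Pi p q.1 q.2 (S q.1 q.2)) l f ≠ 0)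
      ⊆ T ∪ T.image Prod.swap ∪ (Finset.range (c + 2 * l)).biUnion
        (fun i => A i ×ˢ B i ∪ B i ×ˢ A i) := by
    rintro ⟨x, y⟩ hq
    have hq' := (Finset.mem_filter.mp hq).2
    simp only at hq'
    rcases pv_cases δ Pi p x y (S x y) (Iz δ Pi p x y (S x y)) l f with h0 | ⟨hD, hF, _, _⟩
    · exact absurd h0 hq'
    have hSxy := hS x y
    have hxy := hSδ x y
    rcases active_cases hδ hP x y (S x y) hSxy f hG hxy l hD hF with ⟨h1, h2⟩ | ⟨i, hi, h⟩
    · -- a pair of small rank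
      have h3 : Iz δ Pi p x y (S x y) ≤ l + P₂ := by
        have h4 : (16:ℝ) / 16 ^ l < (3:ℝ) ^ p * 16 / 16 ^ (Iz δ Pi p x y (S x y)) :=
          lt_of_lt_of_le h1 h2
        rw [div_lt_div_iff₀ (by positivity) (by positivity)] at h4
        have h5 : (3:ℝ) ^ p ≤ 16 ^ P₂ := by
          calc (3:ℝ) ^ p ≤ (3:ℝ) ^ (P₂ : ℝ) :=
                Real.rpow_le_rpow_of_exponent_le (by norm_num) hP₂
            _ = 3 ^ P₂ := Real.rpow_natCast _ _
            _ ≤ 16 ^ P₂ := pow_le_pow_left₀ (by norm_num) (by norm_num) _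
        have h6 : (16:ℝ) ^ (Iz δ Pi p x y (S x y)) < 16 ^ (l + P₂ + 1) := by
          have h7 : (0:ℝ) < 16 ^ l := by positivity
          have h8 : (16:ℝ) ^ (l + P₂ + 1) = 16 ^ l * 16 ^ P₂ * 16 := by
            rw [pow_succ, pow_add]
          rw [h8]
          have h9 : (3:ℝ) ^ p * 16 * 16 ^ l ≤ 16 ^ l * 16 ^ P₂ * 16 := by
            nlinarith [mul_le_mul_of_nonneg_right h5 h7.le]
          have h10 : (0:ℝ) < 16 ^ (Iz δ Pi p x y (S x y)) := by positivity
          linarith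
        have := (pow_lt_pow_iff_right₀ (by norm_num : (1:ℝ) < 16)).mp h6
        omega
      have hyx : δ y x ≤ S x y ^ (1 / p) := by rw [hδ.hs]; exact hxy
      have h4 := Iz_rank δ Pi p hPi1 x y (S x y) hxy hyx
      have hmono : mr Pi (Iz δ Pi p x y (S x y)) ≤ m' := mr_mono Pi h3
      have hslope := ratio_le_slope δ p hp hδ.h0 f hG.1 (S x y) hSxy x y hxy
      have hbase : 16 / 16 ^ l < slope δ p f x y := lt_of_lt_of_le h1 hslope
      rw [Finset.mem_union]
      left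
      rw [Finset.mem_union]
      rcases h4 with h4 | h4
      · left
        rw [hT, Finset.mem_filter]
        refine ⟨Finset.mem_univ _, ?_⟩
        have h5 : gw m' ≤ rwt δ x y := gw_anti _ _ (rk_pos δ x y) (by omega)
        simp only [hθ]
        calc gw m' * (16 / 16 ^ l) < gw m' * slope δ p f x y :=
              mul_lt_mul_of_pos_left hbase hgw
          _ ≤ rwt δ x y * slope δ p f x y :=
              mul_le_mul_of_nonneg_right h5 (slope_nonneg δ hδ.h0 p f x y)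
      · right
        rw [Finset.mem_image]
        refine ⟨(y, x), ?_, rfl⟩
        rw [hT, Finset.mem_filter]
        refine ⟨Finset.mem_univ _, ?_⟩
        have h5 : gw m' ≤ rwt δ y x := gw_anti _ _ (rk_pos δ y x) (by omega)
        simp only [hθ]
        rw [slope_comm δ hδ.hs p f y x]
        calc gw m' * (16 / 16 ^ l) < gw m' * slope δ p f x y :=
              mul_lt_mul_of_pos_left hbase hgw
          _ ≤ rwt δ y x * slope δ p f x y :=
              mul_le_mul_of_nonneg_right h5 (slope_nonneg δ hδ.h0 p f x y)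
    · rw [Finset.mem_union]
      right
      rw [Finset.mem_biUnion]
      rcases h with ⟨hU, hv, hb⟩ | ⟨hU, hv, hb⟩
      · refine ⟨i, Finset.mem_range.mpr (level_bound hδ hP y (S x y) hSxy i l c f hG hc hv hb), ?_⟩
        rw [Finset.mem_union]
        left
        rw [Finset.mem_product]
        refine ⟨?_, ?_⟩
        · simp only [hA, Finset.mem_filter, Finset.mem_univ, true_and]
          exact U_ven hδ hP x (S x y) hSxy i f hG hU
        · simp only [hB, Finset.mem_filter, Finset.mem_univ, true_and]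
          exact th_ven hδ hP y (S x y) hSxy i l f hG hv hb
      · refine ⟨i, Finset.mem_range.mpr (level_bound hδ hP x (S x y) hSxy i l c f hG hc hv hb), ?_⟩
        rw [Finset.mem_union]
        right
        rw [Finset.mem_product]
        refine ⟨?_, ?_⟩
        · simp only [hB, Finset.mem_filter, Finset.mem_univ, true_and]
          exact th_ven hδ hP x (S x y) hSxy i l f hG hv hb
        · simp only [hA, Finset.mem_filter, Finset.mem_univ, true_and]
          exact U_ven hδ hP y (S x y) hSxy i f hG hU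
  have hcardA : ∀ i, ((A i).card : ℝ) ≤ 16 ^ i * ell (mr Pi i) ^ 2 := by
    intro i
    have hm1 : (1:ℝ) ≤ mr Pi i := by exact_mod_cast mr_pos Pi i
    have hell := ell_pos _ hm1
    have hθ' : 0 < 1 / (16 ^ i * ell (mr Pi i) ^ 2) := by positivity
    have h1 := ven_count hδ hP f hG _ hθ'
    have h2 : 1 / (1 / (16 ^ i * ell (mr Pi i) ^ 2)) = 16 ^ i * ell (mr Pi i) ^ 2 := by
      field_simp
    rwa [h2] at h1
  have hcardB : ∀ i, ((B i).card : ℝ) ≤ ell (mr Pi i) ^ 2 / lamb p l i ^ p := by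
    intro i
    have hm1 : (1:ℝ) ≤ mr Pi i := by exact_mod_cast mr_pos Pi i
    have hell := ell_pos _ hm1
    have hl := lamb_pos p hp l i
    have hθ' : 0 < lamb p l i ^ p / ell (mr Pi i) ^ 2 := by positivity
    have h1 := ven_count hδ hP f hG _ hθ'
    have h2 : 1 / (lamb p l i ^ p / ell (mr Pi i) ^ 2) = ell (mr Pi i) ^ 2 / lamb p l i ^ p := by
      field_simp
    rwa [h2] at h1
  have hprod : ∀ i ∈ Finset.range (c + 2 * l),
      ((A i).card : ℝ) * (B i).card ≤ ell (mr Pi (c + 2 * l)) ^ 4 * (Cp p * 16 ^ l) ^ p := by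
    intro i hi
    have hm1 : (1:ℝ) ≤ mr Pi i := by exact_mod_cast mr_pos Pi i
    have hell := ell_pos _ hm1
    have hl := lamb_pos p hp l i
    have h1 : ((A i).card : ℝ) * (B i).card
        ≤ (16 ^ i * ell (mr Pi i) ^ 2) * (ell (mr Pi i) ^ 2 / lamb p l i ^ p) :=
      mul_le_mul (hcardA i) (hcardB i) (by positivity) (by positivity)
    refine le_trans h1 ?_
    have h2 : (16 ^ i * ell (mr Pi i) ^ 2) * (ell (mr Pi i) ^ 2 / lamb p l i ^ p)
        = ell (mr Pi i) ^ 4 * (16 ^ i / lamb p l i ^ p) := by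
      field_simp
    rw [h2]
    have hile : i ≤ c + 2 * l := (Finset.mem_range.mp hi).le
    have h3 : ell (mr Pi i) ≤ ell (mr Pi (c + 2 * l)) :=
      ell_mono _ _ hm1 (by exact_mod_cast mr_mono Pi hile)
    apply mul_le_mul (pow_le_pow_left₀ hell.le h3 4) (lamb_bound hP l i) (by positivity)
      (by have := ell_pos _ hm1; positivity)
  have hcard1 : ((T ∪ T.image Prod.swap).card : ℝ) ≤ 2 * (1 / θ) := by
    have h1 : (T ∪ T.image Prod.swap).card ≤ T.card + T.card :=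
      le_trans (Finset.card_union_le _ _) (Nat.add_le_add_left Finset.card_image_le _)
    have h2 : ((T ∪ T.image Prod.swap).card : ℝ) ≤ (T.card : ℝ) + T.card := by
      exact_mod_cast h1
    linarith
  have hcard2 : (((Finset.range (c + 2 * l)).biUnion
      (fun i => A i ×ˢ B i ∪ B i ×ˢ A i)).card : ℝ)
      ≤ 2 * ((c + 2 * l : ℕ) : ℝ) * (ell (mr Pi (c + 2 * l)) ^ 4 * (Cp p * 16 ^ l) ^ p) := by
    have h1 : (((Finset.range (c + 2 * l)).biUnion
        (fun i => A i ×ˢ B i ∪ B i ×ˢ A i)).card : ℝ)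
        ≤ ∑ i ∈ Finset.range (c + 2 * l), ((A i ×ˢ B i ∪ B i ×ˢ A i).card : ℝ) := by
      exact_mod_cast Finset.card_biUnion_le
    refine le_trans h1 ?_
    have h2 : ∀ i ∈ Finset.range (c + 2 * l), ((A i ×ˢ B i ∪ B i ×ˢ A i).card : ℝ)
        ≤ 2 * (ell (mr Pi (c + 2 * l)) ^ 4 * (Cp p * 16 ^ l) ^ p) := by
      intro i hi
      have h3 : (A i ×ˢ B i ∪ B i ×ˢ A i).card ≤ (A i).card * (B i).card + (B i).card * (A i).card := by
        refine le_trans (Finset.card_union_le _ _) ?_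
        rw [Finset.card_product, Finset.card_product]
      have h4 : ((A i ×ˢ B i ∪ B i ×ˢ A i).card : ℝ)
          ≤ ((A i).card : ℝ) * (B i).card + (B i).card * (A i).card := by
        exact_mod_cast h3
      have h5 := hprod i hi
      nlinarith
    refine le_trans (Finset.sum_le_sum h2) (le_of_eq ?_)
    rw [Finset.sum_const, Finset.card_range, nsmul_eq_mul]
    ring
  have hfinal := Finset.card_le_card hsub
  have h1 : ((T ∪ T.image Prod.swap ∪ (Finset.range (c + 2 * l)).biUnion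
        (fun i => A i ×ˢ B i ∪ B i ×ˢ A i)).card : ℝ)
      ≤ ((T ∪ T.image Prod.swap).card : ℝ) + ((Finset.range (c + 2 * l)).biUnion
        (fun i => A i ×ˢ B i ∪ B i ×ˢ A i)).card := by
    exact_mod_cast Finset.card_union_le _ _
  have hfinal' : (((Finset.univ : Finset (V × V)).filter
      (fun q => pv δ Pi p q.1 q.2 (S q.1 q.2) (Iz δ Pi p q.1 q.2 (S q.1 q.2)) l f ≠ 0)).card : ℝ)
      ≤ ((T ∪ T.image Prod.swap ∪ (Finset.range (c + 2 * l)).biUnion
        (fun i => A i ×ˢ B i ∪ B i ×ˢ A i)).card : ℝ) := by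
    exact_mod_cast hfinal
  have hθeq : 1 / θ = 16 ^ l / (16 * gw m') := by
    rw [hθ]
    field_simp
  unfold Npair
  rw [← hm', ← hθeq]
  linarith

end Main

end Stage5

end Vale.Agent.Lib.P249
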