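import Mathlib
import Vale.Agent.Lib.P249.Stage5

namespace Vale.Agent.Lib.P249

section Constants

lemma two_pow_le_exp (k : ℕ) : (2:ℝ) ^ k ≤ Real.exp k := by
  have h1 : (2:ℝ) ≤ Real.exp 1 := by
    have := Real.add_one_le_exp (1:ℝ)
    linarith
  calc (2:ℝ) ^ k ≤ Real.exp 1 ^ k := pow_le_pow_left₀ (by norm_num) h1 k
    _ = Real.exp k := by
      rw [← Real.exp_nat_mul]
      simp

lemma ell_mr_le (Pi i : ℕ) : ell (mr Pi i) ≤ ((Pi : ℝ) + 1) * 2 ^ i := by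
  unfold ell mr
  push_cast
  rw [Real.log_pow]
  have h1 : Real.log 2 ≤ 1 := by
    have := Real.log_two_lt_d9
    linarith
  have h2 : (1:ℝ) ≤ 2 ^ i := one_le_pow₀ (by norm_num)
  have h3 : ((Pi * 2 ^ i : ℕ) : ℝ) = (Pi : ℝ) * 2 ^ i := by push_cast; ring
  have h4 : (0:ℝ) ≤ (Pi : ℝ) * 2 ^ i := by positivity
  rw [h3]
  nlinarith

lemma ell_mr_le_exp (Pi i : ℕ) : ell (mr Pi i) ≤ Real.exp ((Pi : ℝ) + i) := by
  rw [Real.exp_add]
  refine le_trans (ell_mr_le Pi i) ?_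
  apply mul_le_mul (by have := Real.add_one_le_exp (Pi : ℝ); linarith) (two_pow_le_exp i)
    (by positivity) (Real.exp_pos _).le

lemma one_le_ell_mr (Pi i : ℕ) : 1 ≤ ell (mr Pi i) := by
  apply one_le_ell
  exact_mod_cast mr_pos Pi i

lemma mr_le_exp (Pi i : ℕ) : (mr Pi i : ℝ) ≤ Real.exp ((Pi : ℝ) * 2 ^ i) := by
  unfold mr
  push_cast
  have h := two_pow_le_exp (Pi * 2 ^ i)
  have h3 : ((Pi * 2 ^ i : ℕ) : ℝ) = (Pi : ℝ) * 2 ^ i := by push_cast; ring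
  rwa [h3] at h

lemma nat_le_eight_pow (l : ℕ) : (l : ℝ) ≤ 8 ^ l := by
  have h1 : l < 2 ^ l := Nat.lt_two_pow_self
  have h2 : ((2:ℕ) ^ l : ℕ) ≤ 8 ^ l := Nat.pow_le_pow_left (by norm_num) l
  exact_mod_cast (le_trans h1.le h2)

lemma one_le_eight_pow (l : ℕ) : (1:ℝ) ≤ 8 ^ l := one_le_pow₀ (by norm_num)

lemma two_pow_le_eight_pow (l : ℕ) : (2:ℝ) ^ l ≤ 8 ^ l :=
  pow_le_pow_left₀ (by norm_num) (by norm_num) l

lemma sixteen_pow_le_exp (l : ℕ) : (16:ℝ) ^ l ≤ Real.exp (4 * l) := by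
  have h : (16:ℝ) ^ l = 2 ^ (4 * l) := by
    rw [pow_mul]
    norm_num
  rw [h]
  have := two_pow_le_exp (4 * l)
  push_cast at this
  exact this

/-- the exponential rate of the number of active events -/
noncomputable def Ybar (Pi : ℕ) (p : ℝ) (P₂ c : ℕ) : ℝ :=
  1 + (6 + 2 * (Pi : ℝ) + 2 * (P₂ : ℝ) + (Pi : ℝ) * 2 ^ P₂) +
    (1 + 5 * (c : ℝ) + 4 * (Pi : ℝ) + 2 * (c : ℝ) * p + 10 + 4 * p) + (2 * (Pi : ℝ) + 6)

lemma atoms_le_exp (Pi : ℕ) (p : ℝ) (hp : 1 ≤ p) (P₂ c i : ℕ) :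
    (16:ℝ) ^ i * ell (mr Pi i) ^ 2 ≤ Real.exp (Ybar Pi p P₂ c * 8 ^ i) := by
  have h1 := sixteen_pow_le_exp i
  have h2 := ell_mr_le_exp Pi i
  have h3 := one_le_ell_mr Pi i
  have h4 : ell (mr Pi i) ^ 2 ≤ Real.exp (2 * ((Pi : ℝ) + i)) := by
    rw [mul_comm, Real.exp_mul]
    have : (Real.exp ((Pi : ℝ) + i)) ^ (2:ℝ) = (Real.exp ((Pi : ℝ) + i)) ^ 2 := Real.rpow_two _
    rw [this]
    exact pow_le_pow_left₀ (by linarith) h2 2
  have h5 : (16:ℝ) ^ i * ell (mr Pi i) ^ 2 ≤ Real.exp (4 * i) * Real.exp (2 * ((Pi : ℝ) + i)) :=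
    mul_le_mul h1 h4 (by positivity) (Real.exp_pos _).le
  refine le_trans h5 ?_
  rw [← Real.exp_add]
  apply Real.exp_le_exp.mpr
  have hi := nat_le_eight_pow i
  have h8 := one_le_eight_pow i
  have hP0 : (0:ℝ) ≤ Pi := by positivity
  have hP2 : (0:ℝ) ≤ P₂ := by positivity
  have hc0 : (0:ℝ) ≤ c := by positivity
  have hpow : (0:ℝ) ≤ (Pi : ℝ) * 2 ^ P₂ := by positivity
  have hcp : (0:ℝ) ≤ (c : ℝ) * p := by positivity
  have hp0 : 0 ≤ p := by linarith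
  unfold Ybar
  nlinarith [mul_le_mul_of_nonneg_left h8 hP0, mul_le_mul_of_nonneg_left h8 hP2,
    mul_le_mul_of_nonneg_left h8 hc0, mul_le_mul_of_nonneg_left h8 hpow,
    mul_le_mul_of_nonneg_left h8 hcp, mul_le_mul_of_nonneg_left h8 hp0]

lemma first_le_exp (Pi : ℕ) (P₂ l : ℕ) :
    2 * ((16:ℝ) ^ l / (16 * gw (mr Pi (l + P₂))))
      ≤ Real.exp ((6 + 2 * (Pi : ℝ) + 2 * (P₂ : ℝ) + (Pi : ℝ) * 2 ^ P₂) * 8 ^ l) := by
  have hm1 : (1:ℝ) ≤ mr Pi (l + P₂) := by exact_mod_cast mr_pos Pi _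
  have hm0 : (0:ℝ) < mr Pi (l + P₂) := by linarith
  have hell := one_le_ell_mr Pi (l + P₂)
  have h0 : 2 * ((16:ℝ) ^ l / (16 * gw (mr Pi (l + P₂))))
      ≤ (16:ℝ) ^ l * ((mr Pi (l + P₂) : ℝ) * ell (mr Pi (l + P₂)) ^ 2) := by
    unfold gw
    have : 2 * ((16:ℝ) ^ l / (16 * (1 / ((mr Pi (l + P₂) : ℝ) * ell (mr Pi (l + P₂)) ^ 2))))
        = (1 / 8) * ((16:ℝ) ^ l * ((mr Pi (l + P₂) : ℝ) * ell (mr Pi (l + P₂)) ^ 2)) := by
      field_simp
      norm_num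
    rw [this]
    have h2 : 0 ≤ (16:ℝ) ^ l * ((mr Pi (l + P₂) : ℝ) * ell (mr Pi (l + P₂)) ^ 2) := by positivity
    linarith
  refine le_trans h0 ?_
  have h1 := sixteen_pow_le_exp l
  have h2 := mr_le_exp Pi (l + P₂)
  have h3 := ell_mr_le_exp Pi (l + P₂)
  have h4 : ell (mr Pi (l + P₂)) ^ 2 ≤ Real.exp (2 * ((Pi : ℝ) + ((l + P₂ : ℕ) : ℝ))) := by
    rw [mul_comm, Real.exp_mul]
    have : (Real.exp ((Pi : ℝ) + ((l + P₂ : ℕ) : ℝ))) ^ (2:ℝ)
        = (Real.exp ((Pi : ℝ) + ((l + P₂ : ℕ) : ℝ))) ^ 2 := Real.rpow_two _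
    rw [this]
    exact pow_le_pow_left₀ (by linarith) h3 2
  have h5 : (mr Pi (l + P₂) : ℝ) * ell (mr Pi (l + P₂)) ^ 2
      ≤ Real.exp ((Pi : ℝ) * 2 ^ (l + P₂)) * Real.exp (2 * ((Pi : ℝ) + ((l + P₂ : ℕ) : ℝ))) :=
    mul_le_mul h2 h4 (by positivity) (Real.exp_pos _).le
  have h6 := mul_le_mul h1 h5 (by positivity) (Real.exp_pos _).le
  refine le_trans h6 ?_
  rw [← Real.exp_add, ← Real.exp_add]
  apply Real.exp_le_exp.mpr
  have hl := nat_le_eight_pow l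
  have h8 := one_le_eight_pow l
  have h28 := two_pow_le_eight_pow l
  have hP0 : (0:ℝ) ≤ Pi := by positivity
  have hP2 : (0:ℝ) ≤ P₂ := by positivity
  have hpow : (0:ℝ) ≤ (Pi : ℝ) * 2 ^ P₂ := by positivity
  have h7 : (Pi : ℝ) * 2 ^ (l + P₂) = ((Pi : ℝ) * 2 ^ P₂) * 2 ^ l := by
    rw [pow_add]
    ring
  rw [h7]
  push_cast
  nlinarith [mul_le_mul_of_nonneg_left h8 hP0, mul_le_mul_of_nonneg_left h8 hP2,
    mul_le_mul_of_nonneg_left h28 hpow]

lemma second_le_exp (Pi : ℕ) (p : ℝ) (hp : 1 ≤ p) (c l : ℕ) (hc : Cp p ≤ 4 ^ c) :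
    2 * ((c + 2 * l : ℕ) : ℝ) * (ell (mr Pi (c + 2 * l)) ^ 4 * (Cp p * 16 ^ l) ^ p)
      ≤ Real.exp ((1 + 5 * (c : ℝ) + 4 * (Pi : ℝ) + 2 * (c : ℝ) * p + 10 + 4 * p) * 8 ^ l) := by
  have hp0 : 0 < p := by linarith
  have hC := Cp_pos p hp
  have h1 : (2:ℝ) ≤ Real.exp 1 := by
    have := Real.add_one_le_exp (1:ℝ)
    linarith
  have h2 : ((c + 2 * l : ℕ) : ℝ) ≤ Real.exp ((c : ℝ) + 2 * l) := by
    have := Real.add_one_le_exp (((c + 2 * l : ℕ) : ℝ))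
    push_cast at this ⊢
    linarith
  have h3 := ell_mr_le_exp Pi (c + 2 * l)
  have h4 : ell (mr Pi (c + 2 * l)) ^ 4 ≤ Real.exp (4 * ((Pi : ℝ) + ((c + 2 * l : ℕ) : ℝ))) := by
    have := one_le_ell_mr Pi (c + 2 * l)
    have h44 : Real.exp (4 * ((Pi : ℝ) + ((c + 2 * l : ℕ) : ℝ)))
        = (Real.exp ((Pi : ℝ) + ((c + 2 * l : ℕ) : ℝ))) ^ 4 := by
      have := Real.exp_nat_mul ((Pi : ℝ) + ((c + 2 * l : ℕ) : ℝ)) 4
      exact_mod_cast this
    rw [h44]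
    exact pow_le_pow_left₀ (by linarith) h3 4
  have h5 : (Cp p * 16 ^ l) ^ p ≤ Real.exp (((2 * c + 4 * l : ℕ) : ℝ) * p) := by
    have h6 : Cp p * 16 ^ l ≤ 2 ^ (2 * c + 4 * l) := by
      have : (2:ℝ) ^ (2 * c + 4 * l) = 4 ^ c * 16 ^ l := by
        rw [pow_add, pow_mul, pow_mul]
        norm_num
      rw [this]
      exact mul_le_mul_of_nonneg_right hc (by positivity)
    have h7 := two_pow_le_exp (2 * c + 4 * l)
    have h8 := le_trans h6 h7
    have h9 := Real.rpow_le_rpow (by positivity) h8 hp0.le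
    rwa [← Real.exp_mul] at h9
  have h6 := mul_le_mul h4 h5 (by positivity) (Real.exp_pos _).le
  have h7 := mul_le_mul h1 h2 (by positivity) (Real.exp_pos _).le
  have h8 := mul_le_mul h7 h6 (by positivity) (by positivity)
  refine le_trans h8 ?_
  rw [← Real.exp_add, ← Real.exp_add, ← Real.exp_add]
  apply Real.exp_le_exp.mpr
  have hl := nat_le_eight_pow l
  have h88 := one_le_eight_pow l
  have hP0 : (0:ℝ) ≤ Pi := by positivity
  have hc0 : (0:ℝ) ≤ c := by positivity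
  have hcp : (0:ℝ) ≤ (c : ℝ) * p := by positivity
  have hl0 : (0:ℝ) ≤ l := by positivity
  have hlp : (l:ℝ) * p ≤ 8 ^ l * p := mul_le_mul_of_nonneg_right hl hp0.le
  push_cast
  nlinarith [mul_le_mul_of_nonneg_left h88 hP0, mul_le_mul_of_nonneg_left h88 hc0,
    mul_le_mul_of_nonneg_left h88 hcp, mul_le_mul_of_nonneg_left h88 hp0.le]

lemma Npair_le_exp (Pi : ℕ) (p : ℝ) (hp : 1 ≤ p) (P₂ c l : ℕ) (hc : Cp p ≤ 4 ^ c) :
    Npair Pi p P₂ c l ≤ Real.exp (Ybar Pi p P₂ c * 8 ^ l) := by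
  have h1 := first_le_exp Pi P₂ l
  have h2 := second_le_exp Pi p hp c l hc
  unfold Npair
  set a := (6 + 2 * (Pi : ℝ) + 2 * (P₂ : ℝ) + (Pi : ℝ) * 2 ^ P₂) * 8 ^ l with ha
  set b := (1 + 5 * (c : ℝ) + 4 * (Pi : ℝ) + 2 * (c : ℝ) * p + 10 + 4 * p) * 8 ^ l with hb
  have h80 : (0:ℝ) < 8 ^ l := by positivity
  have hP0 : (0:ℝ) ≤ Pi := by positivity
  have hP2 : (0:ℝ) ≤ P₂ := by positivity
  have hc0 : (0:ℝ) ≤ c := by positivity
  have hp0 : 0 < p := by linarith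
  have ha0 : 0 ≤ a := by positivity
  have hb0 : 0 ≤ b := by positivity
  have h3 : Real.exp a + Real.exp b ≤ Real.exp (1 + a + b) := by
    have h4 : Real.exp a ≤ Real.exp (a + b) := Real.exp_le_exp.mpr (by linarith)
    have h5 : Real.exp b ≤ Real.exp (a + b) := Real.exp_le_exp.mpr (by linarith)
    have h6 : Real.exp (1 + a + b) = Real.exp 1 * Real.exp (a + b) := by
      rw [← Real.exp_add]
      congr 1
      ring
    rw [h6]
    have h7 : (2:ℝ) ≤ Real.exp 1 := by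
      have := Real.add_one_le_exp (1:ℝ)
      linarith
    nlinarith [Real.exp_pos (a + b)]
  have h4 : Real.exp (1 + a + b) ≤ Real.exp (Ybar Pi p P₂ c * 8 ^ l) := by
    apply Real.exp_le_exp.mpr
    unfold Ybar
    have h8 := one_le_eight_pow l
    have h9 : 0 ≤ (2 * (Pi : ℝ) + 6) * 8 ^ l := by positivity
    rw [ha, hb]
    nlinarith
  linarith

lemma load_sum (K : ℕ) (B : ℕ → ℝ) (Y X η : ℝ) (hB : ∀ l, B l ≤ Real.exp (Y * 8 ^ l))
    (hη : 0 < η) (hη4 : η ≤ 4) (hX : Y + Real.log (4 / η) + 1 ≤ X) :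
    ∑ l ∈ Finset.range K, B l * Real.exp (-(X * 8 ^ l)) ≤ η / 2 := by
  have hlog : 0 ≤ Real.log (4 / η) := Real.log_nonneg (by rw [le_div_iff₀ hη]; linarith)
  have hterm : ∀ l ∈ Finset.range K, B l * Real.exp (-(X * 8 ^ l)) ≤ (η / 4) * (1 / 2) ^ l := by
    intro l _
    have h8 := one_le_eight_pow l
    have hl := nat_le_eight_pow l
    have h1 : B l * Real.exp (-(X * 8 ^ l)) ≤ Real.exp (Y * 8 ^ l) * Real.exp (-(X * 8 ^ l)) :=
      mul_le_mul_of_nonneg_right (hB l) (Real.exp_pos _).le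
    refine le_trans h1 ?_
    rw [← Real.exp_add]
    have h2 : Y * 8 ^ l + -(X * 8 ^ l) ≤ -Real.log (4 / η) + -(l : ℝ) := by
      have h3 : (Y + Real.log (4 / η) + 1) * 8 ^ l ≤ X * 8 ^ l :=
        mul_le_mul_of_nonneg_right hX (by positivity)
      nlinarith
    refine le_trans (Real.exp_le_exp.mpr h2) ?_
    rw [Real.exp_add, Real.exp_neg, Real.exp_log (by positivity), Real.exp_neg]
    have h3 : (4 / η)⁻¹ = η / 4 := by
      field_simp
    rw [h3]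
    apply mul_le_mul_of_nonneg_left _ (by positivity)
    rw [inv_le_comm₀ (Real.exp_pos _) (by positivity)]
    have h4 := two_pow_le_exp l
    have h5 : ((1 / 2 : ℝ) ^ l)⁻¹ = 2 ^ l := by
      rw [one_div, inv_pow, inv_inv]
    rw [h5]
    exact h4
  refine le_trans (Finset.sum_le_sum hterm) ?_
  rw [← Finset.mul_sum]
  have h1 := sum_geometric_two_le K
  have h2 : (0:ℝ) < η / 4 := by positivity
  nlinarith

end Constants

section Mass

set_option linter.unusedSectionVars false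

variable {V : Type*} [Fintype V] [LinearOrder V] {T : Type*} [Fintype T]
variable {δ : V → V → ℝ} (hδ : PM δ) {Pi : ℕ} {p : ℝ} (hP : PP Pi p)

include hδ hP

lemma sum_Th_le (f : T → V → ℝ) (w : ℝ) (hw : 0 < w)
    (hN : ∀ x y, w * ∑ t, |f t x - f t y| ^ p ≤ 2 * δ x y ^ p)
    (z : V) (S : ℝ) (hS : 0 < S) (j : ℕ) (hj : valid δ Pi p z S j) :
    w * ∑ t, Th δ Pi p z S j (f t) ≤ 2 := by
  have hp : 1 ≤ p := by linarith [hP.hp]
  have hp0 : 0 < p := by linarith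
  have hm : (0:ℝ) < mr Pi j := by exact_mod_cast mr_pos Pi j
  have hcard := valid_card δ Pi p z S j hj
  have h1 : ∀ t, Th δ Pi p z S j (f t)
      ≤ (1 / (mr Pi j : ℝ)) * ∑ v ∈ low δ z (mr Pi j), (|f t z - f t v| ^ p / S) :=
    fun t => Th_le_avg δ Pi p hp z S hS j hj (f t)
  have h2 : w * ∑ t, Th δ Pi p z S j (f t)
      ≤ w * ∑ t, ((1 / (mr Pi j : ℝ)) * ∑ v ∈ low δ z (mr Pi j), (|f t z - f t v| ^ p / S)) :=
    mul_le_mul_of_nonneg_left (Finset.sum_le_sum (fun t _ => h1 t)) hw.le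
  refine le_trans h2 ?_
  have h3 : w * ∑ t, ((1 / (mr Pi j : ℝ)) * ∑ v ∈ low δ z (mr Pi j), (|f t z - f t v| ^ p / S))
      = (1 / (mr Pi j : ℝ)) * ∑ v ∈ low δ z (mr Pi j), ((w * ∑ t, |f t z - f t v| ^ p) / S) := by
    rw [← Finset.mul_sum, ← mul_assoc, mul_comm w, mul_assoc]
    congr 1
    rw [Finset.sum_comm, Finset.mul_sum]
    refine Finset.sum_congr rfl (fun v _ => ?_)
    rw [← Finset.sum_div, mul_div_assoc]
  rw [h3]
  have h4 : ∀ v ∈ low δ z (mr Pi j), (w * ∑ t, |f t z - f t v| ^ p) / S ≤ 2 := by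
    intro v hv
    rw [div_le_iff₀ hS]
    refine le_trans (hN z v) ?_
    have h5 := valid_sub δ Pi p z S j hj v hv
    have h6 : δ z v ^ p ≤ S := by
      have h7 := Real.rpow_le_rpow (hδ.h0 z v) h5 hp0.le
      rwa [← Real.rpow_mul hS.le, one_div_mul_cancel hp0.ne', Real.rpow_one] at h7
    linarith
  have h5 := Finset.sum_le_sum h4
  rw [Finset.sum_const, hcard, nsmul_eq_mul] at h5
  have h6 := mul_le_mul_of_nonneg_left h5 (by positivity : (0:ℝ) ≤ 1 / (mr Pi j : ℝ))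
  refine le_trans h6 (le_of_eq ?_)
  field_simp

/-- the total mass of the recorded deviations -/
lemma sum_Ac_le (f : T → V → ℝ) (hG : ∀ t, Gd δ p (f t)) (w : ℝ) (hw : 0 < w)
    (hN : ∀ x y, w * ∑ t, |f t x - f t y| ^ p ≤ 2 * δ x y ^ p)
    (z : V) (S : ℝ) (hS : 0 < S) (I : ℕ) (hI : ∀ k < I, valid δ Pi p z S k) :
    w * ∑ t, Ac δ Pi p z S I (f t) ≤ 4 := by
  cases I with
  | zero =>
    simp [Ac]
  | succ j =>
    have hj := hI j (Nat.lt_succ_self j)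
    have h1 : ∀ t, Ac δ Pi p z S (j + 1) (f t) ≤ 2 * Th δ Pi p z S j (f t) :=
      fun t => Ac_le_two_Th hδ hP z S hS (f t) (hG t) j hj
    have h2 := sum_Th_le hδ hP f w hw hN z S hS j hj
    have h3 : w * ∑ t, Ac δ Pi p z S (j + 1) (f t) ≤ w * ∑ t, 2 * Th δ Pi p z S j (f t) :=
      mul_le_mul_of_nonneg_left (Finset.sum_le_sum (fun t _ => h1 t)) hw.le
    rw [← Finset.mul_sum] at h3
    nlinarith

lemma sum_aval_le (f : T → V → ℝ) (hG : ∀ t, Gd δ p (f t)) (w : ℝ) (hw : 0 < w)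
    (hN : ∀ x y, w * ∑ t, |f t x - f t y| ^ p ≤ 2 * δ x y ^ p)
    (z : V) (S : ℝ) (hS : 0 < S) (I i : ℕ) (hi : i < I) (hI : ∀ k < I, valid δ Pi p z S k) :
    w * ∑ t, aval δ Pi p z S i (f t) ≤ 4 := by
  refine le_trans ?_ (sum_Ac_le hδ hP f hG w hw hN z S hS I hI)
  apply mul_le_mul_of_nonneg_left _ hw.le
  refine Finset.sum_le_sum (fun t _ => ?_)
  unfold Ac
  exact Finset.single_le_sum (f := fun k => aval δ Pi p z S k (f t))
    (fun k _ => aval_nonneg δ Pi p z S hS k (f t)) (Finset.mem_range.mpr hi)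

/-- the mass of the remainder of a pair -/
lemma sum_Fp_le (f : T → V → ℝ) (hG : ∀ t, Gd δ p (f t)) (w : ℝ) (hw : 0 < w)
    (hN : ∀ x y, w * ∑ t, |f t x - f t y| ^ p ≤ 2 * δ x y ^ p)
    (x y : V) (S : ℝ) (hS : 0 < S) (hxy : δ x y ≤ S ^ (1 / p)) (I : ℕ)
    (hIx : ∀ k < I, valid δ Pi p x S k) (hIy : ∀ k < I, valid δ Pi p y S k) :
    w * ∑ t, |Fp δ Pi p x y S I (f t)| ≤ 10 := by
  have hp : 1 ≤ p := by linarith [hP.hp]
  have hp0 : 0 < p := by linarith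
  have h1 : ∀ t, |Fp δ Pi p x y S I (f t)|
      ≤ |f t x - f t y| ^ p / S + Ac δ Pi p x S I (f t) + Ac δ Pi p y S I (f t) := by
    intro t
    have h2 := Ac_nonneg δ Pi p x S hS I (f t)
    have h3 := Ac_nonneg δ Pi p y S hS I (f t)
    have h4 : 0 ≤ |f t x - f t y| ^ p / S := by positivity
    unfold Fp
    rw [abs_le]
    constructor <;> linarith
  have h2 : w * ∑ t, |Fp δ Pi p x y S I (f t)|
      ≤ w * ∑ t, (|f t x - f t y| ^ p / S + Ac δ Pi p x S I (f t) + Ac δ Pi p y S I (f t)) :=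
    mul_le_mul_of_nonneg_left (Finset.sum_le_sum (fun t _ => h1 t)) hw.le
  refine le_trans h2 ?_
  rw [Finset.sum_add_distrib, Finset.sum_add_distrib, mul_add, mul_add, ← Finset.sum_div]
  have h3 := sum_Ac_le hδ hP f hG w hw hN x S hS I hIx
  have h4 := sum_Ac_le hδ hP f hG w hw hN y S hS I hIy
  have h5 : w * ((∑ t, |f t x - f t y| ^ p) / S) ≤ 2 := by
    rw [← mul_div_assoc, div_le_iff₀ hS]
    refine le_trans (hN x y) ?_
    have h7 := Real.rpow_le_rpow (hδ.h0 x y) hxy hp0.le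
    rw [← Real.rpow_mul hS.le, one_div_mul_cancel hp0.ne', Real.rpow_one] at h7
    linarith
  linarith

open Classical in
/-- the deterministic part of the remainder is small -/
lemma sum_Det_le (f : T → V → ℝ) (hG : ∀ t, Gd δ p (f t)) (w : ℝ) (hw : 0 < w)
    (hN : ∀ x y, w * ∑ t, |f t x - f t y| ^ p ≤ 2 * δ x y ^ p)
    (x y : V) (S : ℝ) (hS : 0 < S) (hxy : δ x y ≤ S ^ (1 / p)) :
    w * ∑ t, (if Det δ Pi p x y S (Iz δ Pi p x y S) (f t)
        then |Fp δ Pi p x y S (Iz δ Pi p x y S) (f t)| else 0)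
      ≤ 32 * Cp p * ∑ i ∈ Finset.range (Iz δ Pi p x y S), 4 ^ i * Dv Pi p i := by
  have hp : 1 ≤ p := by linarith [hP.hp]
  have hC := Cp_pos p hp
  set I := Iz δ Pi p x y S with hI
  have hIx : ∀ k < I, valid δ Pi p x S k := fun k hk => (Iz_valid δ Pi p x y S k hk).1
  have hIy : ∀ k < I, valid δ Pi p y S k := fun k hk => (Iz_valid δ Pi p x y S k hk).2
  set D : ℕ → ℝ := fun i => 4 * Cp p * (4 ^ i * Dv Pi p i) with hD
  have hD0 : ∀ i, 0 ≤ D i := fun i => by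
    have := Dv_pos Pi p i
    simp only [hD]
    positivity
  have h1 : ∀ t, (if Det δ Pi p x y S I (f t) then |Fp δ Pi p x y S I (f t)| else 0)
      ≤ ∑ i ∈ Finset.range I, (aval δ Pi p x S i (f t) + aval δ Pi p y S i (f t)) * D i := by
    intro t
    have hnn : ∀ i ∈ Finset.range I,
        0 ≤ (aval δ Pi p x S i (f t) + aval δ Pi p y S i (f t)) * D i := by
      intro i _
      have h2 := aval_nonneg δ Pi p x S hS i (f t)
      have h3 := aval_nonneg δ Pi p y S hS i (f t)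
      have h4 := hD0 i
      positivity
    split_ifs with hDet
    · obtain ⟨i, hi, hU, hF⟩ := Det_bound hδ hP x y S hS (f t) (hG t) hxy hDet
      refine le_trans hF ?_
      refine le_trans ?_ (Finset.single_le_sum hnn (Finset.mem_range.mpr hi))
      have hbase : 1 / 16 ^ i ≤ aval δ Pi p x S i (f t) + aval δ Pi p y S i (f t) := by
        have h2 := aval_nonneg δ Pi p x S hS i (f t)
        have h3 := aval_nonneg δ Pi p y S hS i (f t)
        rcases hU with hU | hU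
        · have h4 : aval δ Pi p x S i (f t) = Th δ Pi p x S i (f t) := by
            unfold aval
            rw [if_pos hU]
          have h5 := hU.2.1
          linarith
        · have h4 : aval δ Pi p y S i (f t) = Th δ Pi p y S i (f t) := by
            unfold aval
            rw [if_pos hU]
          have h5 := hU.2.1
          linarith
      have h6 := mul_le_mul_of_nonneg_right hbase (hD0 i)
      refine le_trans (le_of_eq ?_) h6
      simp only [hD]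
      have h16 : (16:ℝ) ^ i = 4 ^ i * 4 ^ i := by
        rw [← mul_pow]
        norm_num
      rw [h16]
      field_simp
    · exact Finset.sum_nonneg hnn
  have h2 : w * ∑ t, (if Det δ Pi p x y S I (f t) then |Fp δ Pi p x y S I (f t)| else 0)
      ≤ w * ∑ t, ∑ i ∈ Finset.range I, (aval δ Pi p x S i (f t) + aval δ Pi p y S i (f t)) * D i :=
    mul_le_mul_of_nonneg_left (Finset.sum_le_sum (fun t _ => h1 t)) hw.le
  refine le_trans h2 ?_
  rw [Finset.sum_comm, Finset.mul_sum, Finset.mul_sum]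
  refine Finset.sum_le_sum (fun i hi => ?_)
  have hi' := Finset.mem_range.mp hi
  have h3 := sum_aval_le hδ hP f hG w hw hN x S hS I i hi' hIx
  have h4 := sum_aval_le hδ hP f hG w hw hN y S hS I i hi' hIy
  have h5 : w * ∑ t, (aval δ Pi p x S i (f t) + aval δ Pi p y S i (f t)) * D i
      = (w * ∑ t, aval δ Pi p x S i (f t) + w * ∑ t, aval δ Pi p y S i (f t)) * D i := by
    rw [← Finset.sum_mul, Finset.sum_add_distrib]
    ring
  rw [h5]
  have h6 := mul_le_mul_of_nonneg_right (add_le_add h3 h4) (hD0 i)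
  refine le_trans h6 (le_of_eq ?_)
  simp only [hD]
  ring

end Mass

end Vale.Agent.Lib.P249
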