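import Mathlib
import Vale.Agent.Lib.P249.Stage6
import Vale.Agent.Lib.P249.Halving

namespace Vale.Agent.Lib.P249

section Stage7

set_option linter.unusedSectionVars false

lemma sum_kappa_le (ε₁ : ℝ) (hε : 0 < ε₁) (K : ℕ) :
    ∑ i ∈ Finset.range K, ε₁ / 2 ^ i ≤ 2 * ε₁ := by
  have h1 : ∑ i ∈ Finset.range K, ε₁ / 2 ^ i = ε₁ * ∑ i ∈ Finset.range K, (1 / 2 : ℝ) ^ i := by
    rw [Finset.mul_sum]
    refine Finset.sum_congr rfl (fun i _ => ?_)
    rw [one_div, inv_pow]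
    rfl
  rw [h1]
  have := sum_geometric_two_le K
  nlinarith

variable {V : Type*} [Fintype V] [LinearOrder V] {T : Type*} [Fintype T]

lemma scale_exists (δ : V → V → ℝ) (hδ0 : ∀ a b, 0 ≤ δ a b) (p : ℝ) (hp : 0 < p) :
    ∃ a : V → V → ℤ, (∀ x y, δ x y ≤ ((32:ℝ) ^ (a x y)) ^ (1 / p)) ∧
      ∀ x y, 0 < δ x y → (32:ℝ) ^ (a x y) ≤ 32 * δ x y ^ p := by
  have key : ∀ x y, ∃ n : ℤ, δ x y ≤ ((32:ℝ) ^ n) ^ (1 / p) ∧
      (0 < δ x y → (32:ℝ) ^ n ≤ 32 * δ x y ^ p) := by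
    intro x y
    by_cases h : 0 < δ x y
    · have hpos : 0 < δ x y ^ p := Real.rpow_pos_of_pos h p
      obtain ⟨n, hn1, hn2⟩ := exists_mem_Ioc_zpow hpos (by norm_num : (1:ℝ) < 32)
      refine ⟨n + 1, ?_, ?_⟩
      · have h1 := Real.rpow_le_rpow hpos.le hn2 (by positivity : 0 ≤ 1 / p)
        rwa [← Real.rpow_mul (hδ0 x y), mul_one_div_cancel hp.ne', Real.rpow_one] at h1
      · intro _
        rw [zpow_add_one₀ (by norm_num)]
        linarith
    · have h0 : δ x y = 0 := le_antisymm (not_lt.mp h) (hδ0 x y)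
      refine ⟨0, ?_, fun h' => absurd h' h⟩
      rw [h0]
      positivity
  choose a ha using key
  exact ⟨a, fun x y => (ha x y).1, fun x y => (ha x y).2⟩

/-- the sum over a product of a level with a set of indices -/
lemma prod_level_sum {β : Type*} [DecidableEq β] (K : ℕ) (C : Finset β) (Q : ℕ → β → Prop)
    [∀ i c, Decidable (Q i c)] (g : ℕ × β → ℝ) (E B : ℕ → ℝ)
    (hg : ∀ e, g e ≤ E e.1) (hE : ∀ i, 0 ≤ E i)
    (hB : ∀ i, ((C.filter (Q i)).card : ℝ) ≤ B i) :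
    ∑ e ∈ Finset.range K ×ˢ C, (if Q e.1 e.2 then g e else 0)
      ≤ ∑ i ∈ Finset.range K, B i * E i := by
  rw [Finset.sum_product]
  refine Finset.sum_le_sum (fun i _ => ?_)
  simp only
  rw [← Finset.sum_filter]
  calc ∑ c ∈ C.filter (Q i), g (i, c) ≤ ∑ _c ∈ C.filter (Q i), E i :=
        Finset.sum_le_sum (fun c _ => hg (i, c))
    _ = ((C.filter (Q i)).card : ℝ) * E i := by rw [Finset.sum_const, nsmul_eq_mul]
    _ ≤ B i * E i := mul_le_mul_of_nonneg_right (hB i) (hE i)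

lemma fa_eq (ε₁ w : ℝ) (hw : 0 < w) (i : ℕ) :
    ε₁ * (ε₁ / 2 ^ i) / (w * (32 / 16 ^ i)) = (ε₁ ^ 2 / w) * 8 ^ i / 32 := by
  have h16 : (16:ℝ) ^ i = 2 ^ i * 8 ^ i := by
    rw [← mul_pow]
    norm_num
  rw [h16]
  field_simp

lemma fp_eq (ε₁ w : ℝ) (hw : 0 < w) (i : ℕ) :
    ε₁ * (ε₁ / 2 ^ i) / (w * (256 / 16 ^ i)) = (ε₁ ^ 2 / w) * 8 ^ i / 256 := by
  have h16 : (16:ℝ) ^ i = 2 ^ i * 8 ^ i := by
    rw [← mul_pow]
    norm_num
  rw [h16]
  field_simp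

section Main

variable {δ : V → V → ℝ} (hδ : PM δ) {Pi : ℕ} {p : ℝ} (hP : PP Pi p)

include hδ hP

open Classical in
/-- the estimate of one pair, given the good signs -/
lemma stage_final (f : T → V → ℝ) (hG : ∀ t, Gd δ p (f t)) (w ε₁ : ℝ) (hw : 0 < w)
    (hε : 0 < ε₁) (hN : ∀ x y, w * ∑ t, |f t x - f t y| ^ p ≤ 2 * δ x y ^ p)
    (hsum : ∀ I, 32 * Cp p * ∑ i ∈ Finset.range I, 4 ^ i * Dv Pi p i ≤ ε₁)
    (L : ℕ) (hL : w * ((Fintype.card T : ℝ) * (256 / 16 ^ L)) ≤ ε₁)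
    (ζ : T → ℝ) (x y : V) (S : ℝ) (hS : 0 < S) (hxy : δ x y ≤ S ^ (1 / p))
    (hζ : ∀ t, |ζ t| ≤ 1)
    (hAx : ∀ i < Iz δ Pi p x y S, |w * ∑ t, ζ t * aval δ Pi p x S i (f t)|
      ≤ ε₁ * (w * ∑ t, |aval δ Pi p x S i (f t)|) + ε₁ / 2 ^ i)
    (hAy : ∀ i < Iz δ Pi p x y S, |w * ∑ t, ζ t * aval δ Pi p y S i (f t)|
      ≤ ε₁ * (w * ∑ t, |aval δ Pi p y S i (f t)|) + ε₁ / 2 ^ i)
    (hB : ∀ l < L, |w * ∑ t, ζ t * pv δ Pi p x y S (Iz δ Pi p x y S) l (f t)|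
      ≤ ε₁ * (w * ∑ t, |pv δ Pi p x y S (Iz δ Pi p x y S) l (f t)|) + ε₁ / 2 ^ l) :
    |w * ∑ t, ζ t * (|f t x - f t y| ^ p / S)| ≤ 26 * ε₁ := by
  have hp : 1 ≤ p := by linarith [hP.hp]
  set I := Iz δ Pi p x y S with hI
  have hIx : ∀ k < I, valid δ Pi p x S k := fun k hk => (Iz_valid δ Pi p x y S k hk).1
  have hIy : ∀ k < I, valid δ Pi p y S k := fun k hk => (Iz_valid δ Pi p x y S k hk).2
  -- the decomposition
  set Rem : T → ℝ := fun t => Fp δ Pi p x y S I (f t) - ∑ l ∈ Finset.range L, pv δ Pi p x y S I l (f t)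
    with hRem
  have hdec : ∀ t, |f t x - f t y| ^ p / S =
      ∑ i ∈ Finset.range I, aval δ Pi p x S i (f t) + ∑ i ∈ Finset.range I, aval δ Pi p y S i (f t)
        + ∑ l ∈ Finset.range L, pv δ Pi p x y S I l (f t) + Rem t := by
    intro t
    simp only [hRem]
    unfold Fp Ac
    ring
  have hsplit : w * ∑ t, ζ t * (|f t x - f t y| ^ p / S)
      = ∑ i ∈ Finset.range I, (w * ∑ t, ζ t * aval δ Pi p x S i (f t))
        + ∑ i ∈ Finset.range I, (w * ∑ t, ζ t * aval δ Pi p y S i (f t))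
        + ∑ l ∈ Finset.range L, (w * ∑ t, ζ t * pv δ Pi p x y S I l (f t))
        + w * ∑ t, ζ t * Rem t := by
    rw [← Finset.mul_sum, ← Finset.mul_sum, ← Finset.mul_sum, ← mul_add, ← mul_add, ← mul_add]
    congr 1
    rw [Finset.sum_comm (s := Finset.range I), Finset.sum_comm (s := Finset.range I),
      Finset.sum_comm (s := Finset.range L), ← Finset.sum_add_distrib,
      ← Finset.sum_add_distrib, ← Finset.sum_add_distrib]
    refine Finset.sum_congr rfl (fun t _ => ?_)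
    rw [hdec t, ← Finset.mul_sum, ← Finset.mul_sum, ← Finset.mul_sum]
    ring
  -- the atoms
  have hatoms : ∀ z : V, (∀ k < I, valid δ Pi p z S k) →
      (∀ i < I, |w * ∑ t, ζ t * aval δ Pi p z S i (f t)|
        ≤ ε₁ * (w * ∑ t, |aval δ Pi p z S i (f t)|) + ε₁ / 2 ^ i) →
      ∑ i ∈ Finset.range I, |w * ∑ t, ζ t * aval δ Pi p z S i (f t)| ≤ 6 * ε₁ := by
    intro z hv h
    have h1 : ∑ i ∈ Finset.range I, |w * ∑ t, ζ t * aval δ Pi p z S i (f t)|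
        ≤ ∑ i ∈ Finset.range I, (ε₁ * (w * ∑ t, |aval δ Pi p z S i (f t)|) + ε₁ / 2 ^ i) :=
      Finset.sum_le_sum (fun i hi => h i (Finset.mem_range.mp hi))
    refine le_trans h1 ?_
    rw [Finset.sum_add_distrib]
    have h2 := sum_kappa_le ε₁ hε I
    have h3 : ∑ i ∈ Finset.range I, (ε₁ * (w * ∑ t, |aval δ Pi p z S i (f t)|))
        = ε₁ * (w * ∑ t, Ac δ Pi p z S I (f t)) := by
      rw [← Finset.mul_sum, ← Finset.mul_sum]
      congr 2
      rw [Finset.sum_comm]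
      refine Finset.sum_congr rfl (fun t _ => ?_)
      unfold Ac
      refine Finset.sum_congr rfl (fun i _ => ?_)
      rw [abs_of_nonneg (aval_nonneg δ Pi p z S hS i (f t))]
    rw [h3]
    have h4 := sum_Ac_le hδ hP f hG w hw hN z S hS I hv
    nlinarith
  -- the levels of the pair
  have hFp := sum_Fp_le hδ hP f hG w hw hN x y S hS hxy I hIx hIy
  have hlevels : ∑ l ∈ Finset.range L, |w * ∑ t, ζ t * pv δ Pi p x y S I l (f t)| ≤ 12 * ε₁ := by
    have h1 : ∑ l ∈ Finset.range L, |w * ∑ t, ζ t * pv δ Pi p x y S I l (f t)|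
        ≤ ∑ l ∈ Finset.range L, (ε₁ * (w * ∑ t, |pv δ Pi p x y S I l (f t)|) + ε₁ / 2 ^ l) :=
      Finset.sum_le_sum (fun l hl => hB l (Finset.mem_range.mp hl))
    refine le_trans h1 ?_
    rw [Finset.sum_add_distrib]
    have h2 := sum_kappa_le ε₁ hε L
    have h3 : ∑ l ∈ Finset.range L, (ε₁ * (w * ∑ t, |pv δ Pi p x y S I l (f t)|))
        ≤ ε₁ * (w * ∑ t, |Fp δ Pi p x y S I (f t)|) := by
      rw [← Finset.mul_sum, ← Finset.mul_sum]
      apply mul_le_mul_of_nonneg_left _ hε.le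
      apply mul_le_mul_of_nonneg_left _ hw.le
      rw [Finset.sum_comm]
      exact Finset.sum_le_sum (fun t _ => sum_abs_pv_le δ Pi p x y S I L (f t))
    nlinarith
  -- the remainder
  have hrem : w * ∑ t, |Rem t| ≤ 2 * ε₁ := by
    have h1 : ∀ t, |Rem t| ≤ (if Det δ Pi p x y S I (f t) then |Fp δ Pi p x y S I (f t)| else 0)
        + 256 / 16 ^ L := fun t => rem_bound hδ hP x y S hS (f t) (hG t) I L hxy
    have h2 : w * ∑ t, |Rem t|
        ≤ w * ∑ t, ((if Det δ Pi p x y S I (f t) then |Fp δ Pi p x y S I (f t)| else 0)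
          + 256 / 16 ^ L) :=
      mul_le_mul_of_nonneg_left (Finset.sum_le_sum (fun t _ => h1 t)) hw.le
    refine le_trans h2 ?_
    rw [Finset.sum_add_distrib, mul_add]
    have h3 := sum_Det_le hδ hP f hG w hw hN x y S hS hxy
    rw [← hI] at h3
    have h4 := hsum I
    have h5 : ∑ _t : T, (256 / 16 ^ L : ℝ) = (Fintype.card T : ℝ) * (256 / 16 ^ L) := by
      rw [Finset.sum_const, Finset.card_univ, nsmul_eq_mul]
    rw [h5]
    linarith
  have hremz : |w * ∑ t, ζ t * Rem t| ≤ 2 * ε₁ := by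
    refine le_trans ?_ hrem
    rw [abs_mul, abs_of_pos hw]
    apply mul_le_mul_of_nonneg_left _ hw.le
    refine le_trans (Finset.abs_sum_le_sum_abs _ _) (Finset.sum_le_sum (fun t _ => ?_))
    rw [abs_mul]
    have := hζ t
    have h0 := abs_nonneg (Rem t)
    nlinarith
  have habs : ∀ (K : ℕ) (h : ℕ → ℝ), |∑ i ∈ Finset.range K, h i|
      ≤ ∑ i ∈ Finset.range K, |h i| := fun K h => Finset.abs_sum_le_sum_abs _ _
  rw [hsplit]
  have h1 := hatoms x hIx hAx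
  have h2 := hatoms y hIy hAy
  have h3 := habs I (fun i => w * ∑ t, ζ t * aval δ Pi p x S i (f t))
  have h4 := habs I (fun i => w * ∑ t, ζ t * aval δ Pi p y S i (f t))
  have h5 := habs L (fun l => w * ∑ t, ζ t * pv δ Pi p x y S I l (f t))
  have h6 := abs_add_le (∑ i ∈ Finset.range I, (w * ∑ t, ζ t * aval δ Pi p x S i (f t))
        + ∑ i ∈ Finset.range I, (w * ∑ t, ζ t * aval δ Pi p y S i (f t))
        + ∑ l ∈ Finset.range L, (w * ∑ t, ζ t * pv δ Pi p x y S I l (f t)))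
      (w * ∑ t, ζ t * Rem t)
  have h7 := abs_add_le (∑ i ∈ Finset.range I, (w * ∑ t, ζ t * aval δ Pi p x S i (f t))
        + ∑ i ∈ Finset.range I, (w * ∑ t, ζ t * aval δ Pi p y S i (f t)))
      (∑ l ∈ Finset.range L, (w * ∑ t, ζ t * pv δ Pi p x y S I l (f t)))
  have h8 := abs_add_le (∑ i ∈ Finset.range I, (w * ∑ t, ζ t * aval δ Pi p x S i (f t)))
      (∑ i ∈ Finset.range I, (w * ∑ t, ζ t * aval δ Pi p y S i (f t)))
  linarith

end Main

end Stage7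

end Vale.Agent.Lib.P249
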