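import Mathlib
import Vale.Agent.Lib.P249.Stage7

namespace Vale.Agent.Lib.P249

section Stage8

set_option linter.unusedSectionVars false

variable {V : Type*} [Fintype V] [LinearOrder V] {T : Type*} [Fintype T]

lemma exists_tiny (a ε₁ : ℝ) (hε : 0 < ε₁) : ∃ L : ℕ, a / 16 ^ L ≤ ε₁ := by
  obtain ⟨L, hL⟩ := exists_nat_ge (a / ε₁)
  refine ⟨L, ?_⟩
  have h1 : (L : ℝ) ≤ 16 ^ L := by
    have h2 : L < 2 ^ L := Nat.lt_two_pow_self
    have h3 : (2:ℕ) ^ L ≤ 16 ^ L := Nat.pow_le_pow_left (by norm_num) L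
    exact_mod_cast (le_trans h2.le h3)
  rw [div_le_iff₀ (by positivity)]
  rw [div_le_iff₀ hε] at hL
  nlinarith

variable {δ : V → V → ℝ} (hδ : PM δ) {Pi : ℕ} {p : ℝ} (hP : PP Pi p)

include hδ hP

omit hδ in
lemma PP.one_le : 1 ≤ Pi := by
  have hp2 := hP.hp
  have h1 := hP.hPi
  by_contra hcon
  have h0 : Pi = 0 := by omega
  rw [h0] at h1
  have h2 : (1:ℝ) < (2:ℝ) ^ (68 * p + 8) := Real.one_lt_rpow (by norm_num) (by positivity)
  have h3 : ((mr 0 0 : ℕ) : ℝ) = 1 := by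
    unfold mr
    norm_num
  rw [h3] at h1
  linarith

/-- the load estimate on the atoms -/
lemma load_atoms (f : V → ℝ) (hf : Gd δ p f) (P₂ c : ℕ) (C : Finset ℤ) (J : ℕ) (η X ε₁ w : ℝ)
    (hη : 0 < η) (hη4 : η ≤ 4) (hw : 0 < w)
    (hXdef : X = (ε₁ ^ 2 / w) / 512)
    (hX : Ybar Pi p P₂ c + Real.log (4 / η) + 1 ≤ X) :
    ∑ e ∈ Finset.range J ×ˢ ((Finset.univ : Finset V) ×ˢ C),
      (if aval δ Pi p e.2.1 ((32:ℝ) ^ e.2.2) e.1 f ≠ 0 then
        Real.exp (-(ε₁ * (ε₁ / 2 ^ e.1) / (w * (32 / 16 ^ e.1)) / 2)) else 0) ≤ η / 2 := by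
  have hp : 1 ≤ p := by linarith [hP.hp]
  have h1 := prod_level_sum J ((Finset.univ : Finset V) ×ˢ C)
    (fun i c => aval δ Pi p c.1 ((32:ℝ) ^ c.2) i f ≠ 0)
    (fun e => Real.exp (-(ε₁ * (ε₁ / 2 ^ e.1) / (w * (32 / 16 ^ e.1)) / 2)))
    (fun i => Real.exp (-(X * 8 ^ i))) (fun i => 16 ^ i * ell (mr Pi i) ^ 2)
    (fun e => by
      apply Real.exp_le_exp.mpr
      rw [fa_eq ε₁ w hw e.1, hXdef]
      have h80 : (0:ℝ) ≤ 8 ^ e.1 := by positivity
      have hq : 0 ≤ ε₁ ^ 2 / w := by positivity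
      have h3 : 0 ≤ ε₁ ^ 2 / w * 8 ^ e.1 := by positivity
      linarith)
    (fun i => (Real.exp_pos _).le)
    (fun i => atom_count hδ hP C i f hf)
  refine le_trans h1 ?_
  exact load_sum J _ (Ybar Pi p P₂ c) X η (fun l => atoms_le_exp Pi p hp P₂ c l) hη hη4 hX

/-- the load estimate on the pairs -/
lemma load_pairs (f : V → ℝ) (hf : Gd δ p f) (P₂ c : ℕ) (hP₂ : p ≤ P₂) (hc : Cp p ≤ 4 ^ c)
    (S : V → V → ℝ) (hS : ∀ x y, 0 < S x y) (hSδ : ∀ x y, δ x y ≤ S x y ^ (1 / p))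
    (L : ℕ) (η X ε₁ w : ℝ)
    (hη : 0 < η) (hη4 : η ≤ 4) (hw : 0 < w)
    (hXdef : X = (ε₁ ^ 2 / w) / 512)
    (hX : Ybar Pi p P₂ c + Real.log (4 / η) + 1 ≤ X) :
    ∑ e ∈ Finset.range L ×ˢ (Finset.univ : Finset (V × V)),
      (if pv δ Pi p e.2.1 e.2.2 (S e.2.1 e.2.2) (Iz δ Pi p e.2.1 e.2.2 (S e.2.1 e.2.2)) e.1 f ≠ 0
        then Real.exp (-(ε₁ * (ε₁ / 2 ^ e.1) / (w * (256 / 16 ^ e.1)) / 2)) else 0) ≤ η / 2 := by
  have hp : 1 ≤ p := by linarith [hP.hp]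
  have h1 := prod_level_sum L (Finset.univ : Finset (V × V))
    (fun i c => pv δ Pi p c.1 c.2 (S c.1 c.2) (Iz δ Pi p c.1 c.2 (S c.1 c.2)) i f ≠ 0)
    (fun e => Real.exp (-(ε₁ * (ε₁ / 2 ^ e.1) / (w * (256 / 16 ^ e.1)) / 2)))
    (fun i => Real.exp (-(X * 8 ^ i))) (fun i => Npair Pi p P₂ c i)
    (fun e => by
      apply Real.exp_le_exp.mpr
      rw [fp_eq ε₁ w hw e.1, hXdef]
      apply le_of_eq
      ring)
    (fun i => (Real.exp_pos _).le)
    (fun i => pv_count hδ hP S hS hSδ P₂ c i hP₂ hc f hf)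
  refine le_trans h1 ?_
  exact load_sum L _ (Ybar Pi p P₂ c) X η (fun l => Npair_le_exp Pi p hp P₂ c l hc) hη hη4 hX

lemma pv_bounds (x y : V) (S : ℝ) (I l : ℕ) (f : V → ℝ)
    (h : pv δ Pi p x y S I l f ≠ 0) :
    (256 / 16 ^ l : ℝ) / 32 ≤ |pv δ Pi p x y S I l f| ∧
      |pv δ Pi p x y S I l f| ≤ 256 / 16 ^ l := by
  rcases pv_cases δ Pi p x y S I l f with h0 | ⟨_, h1, h2, h3⟩
  · exact absurd h0 h
  · rw [h3]
    refine ⟨?_, h2⟩
    have h4 : (256 / 16 ^ l : ℝ) / 32 = 8 / 16 ^ l := by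
      field_simp
      norm_num
    rw [h4]
    refine le_trans ?_ h1.le
    apply div_le_div_of_nonneg_right (by norm_num) (by positivity)

/-- one halving stage, for a fixed set of parameters -/
theorem stage_core (P₂ c : ℕ) (hP₂ : p ≤ P₂) (hc : Cp p ≤ 4 ^ c)
    (ε₁ : ℝ) (hε : 0 < ε₁) (hε1 : ε₁ ≤ 1)
    (hsum : ∀ I, 32 * Cp p * ∑ i ∈ Finset.range I, 4 ^ i * Dv Pi p i ≤ ε₁)
    (f : T → V → ℝ) (hG : ∀ t, Gd δ p (f t)) (w : ℝ) (hw : 0 < w)
    (hX : Ybar Pi p P₂ c + Real.log (4 / (ε₁ ^ 2 / 256)) + 1 ≤ (ε₁ ^ 2 / w) / 512)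
    (hN : ∀ x y, w * ∑ t, |f t x - f t y| ^ p ≤ 2 * δ x y ^ p) :
    ∃ ζ : T → ℝ, (∀ t, ζ t = 1 ∨ ζ t = -1) ∧
      ∀ x y, |w * ∑ t, ζ t * |f t x - f t y| ^ p| ≤ 832 * ε₁ * δ x y ^ p := by
  classical
  have hp2 := hP.hp
  have hp : 1 ≤ p := by linarith
  have hp0 : 0 < p := by linarith
  have hPi1 := PP.one_le hP
  obtain ⟨a, ha1, ha2⟩ := scale_exists δ hδ.h0 p hp0
  set S : V → V → ℝ := fun x y => (32:ℝ) ^ (a x y) with hSdef
  have hS : ∀ x y, 0 < S x y := fun x y => zpow_pos (by norm_num) _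
  set C : Finset ℤ := (Finset.univ : Finset (V × V)).image (fun q => a q.1 q.2) with hC
  set J := Fintype.card V + 1 with hJ
  obtain ⟨L, hL⟩ := exists_tiny (w * ((Fintype.card T : ℝ) * 256)) ε₁ hε
  have hL' : w * ((Fintype.card T : ℝ) * (256 / 16 ^ L)) ≤ ε₁ := by
    refine le_trans (le_of_eq ?_) hL
    ring
  set η := ε₁ ^ 2 / 256 with hηdef
  have hη : 0 < η := by positivity
  have hη4 : η ≤ 4 := by
    rw [hηdef, div_le_iff₀ (by norm_num)]
    nlinarith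
  set X := (ε₁ ^ 2 / w) / 512 with hXdef
  have hlog : 0 ≤ Real.log (4 / η) := Real.log_nonneg (by rw [le_div_iff₀ hη]; linarith)
  have hY0 : 0 ≤ Ybar Pi p P₂ c := by
    unfold Ybar
    positivity
  have hX1 : 1 ≤ X := by linarith
  have hX0 : 0 ≤ X := by linarith
  have hLw : 512 ≤ ε₁ ^ 2 / w := by
    rw [hXdef, le_div_iff₀ (by norm_num)] at hX1
    linarith
  let ι := (ℕ × V × ℤ) ⊕ (ℕ × V × V)
  let v : ι → T → ℝ := Sum.elim (fun e t => aval δ Pi p e.2.1 ((32:ℝ) ^ e.2.2) e.1 (f t))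
    (fun e t => pv δ Pi p e.2.1 e.2.2 (S e.2.1 e.2.2) (Iz δ Pi p e.2.1 e.2.2 (S e.2.1 e.2.2)) e.1
      (f t))
  let s : ι → ℝ := Sum.elim (fun e => 32 / 16 ^ e.1) (fun e => 256 / 16 ^ e.1)
  let κ : ι → ℝ := Sum.elim (fun e => ε₁ / 2 ^ e.1) (fun e => ε₁ / 2 ^ e.1)
  let A₁ : Finset (ℕ × V × ℤ) := Finset.range J ×ˢ ((Finset.univ : Finset V) ×ˢ C)
  let A₂ : Finset (ℕ × V × V) := Finset.range L ×ˢ (Finset.univ : Finset (V × V))
  obtain ⟨ζ, hζ, hζb⟩ := halving (A₁.disjSum A₂) v s κ w ε₁ 32 hw hε (by norm_num)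
    (by
      rintro (e | e) _
      · simp only [s, Sum.elim_inl]
        positivity
      · simp only [s, Sum.elim_inr]
        positivity)
    (by
      rintro (e | e) _
      · simp only [κ, Sum.elim_inl]
        positivity
      · simp only [κ, Sum.elim_inr]
        positivity)
    (by
      rintro (e | e) _ t ht
      · simp only [v, s, Sum.elim_inl] at ht ⊢
        exact aval_bounds hδ hP _ _ (zpow_pos (by norm_num) _) _ _ (hG t) ht
      · simp only [v, s, Sum.elim_inr] at ht ⊢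
        exact pv_bounds hδ hP _ _ _ _ _ _ ht)
    (by
      rintro (e | e) _
      · simp only [s, κ, Sum.elim_inl]
        rw [fa_eq ε₁ w hw e.1]
        have h8 := one_le_eight_pow e.1
        have : 512 * 1 ≤ ε₁ ^ 2 / w * 8 ^ e.1 := mul_le_mul hLw h8 (by norm_num) (by linarith)
        linarith
      · simp only [s, κ, Sum.elim_inr]
        rw [fp_eq ε₁ w hw e.1]
        have h8 := one_le_eight_pow e.1
        have : 512 * 1 ≤ ε₁ ^ 2 / w * 8 ^ e.1 := mul_le_mul hLw h8 (by norm_num) (by linarith)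
        linarith)
    (by
      intro t
      rw [Finset.sum_filter, Finset.sum_disjSum]
      simp only [v, s, κ, A₁, A₂, Sum.elim_inl, Sum.elim_inr]
      have h1 := load_atoms hδ hP (f t) (hG t) P₂ c C J η X ε₁ w hη hη4 hw hXdef hX
      have h2 := load_pairs hδ hP (f t) (hG t) P₂ c hP₂ hc S hS (fun x y => ha1 x y) L η X ε₁ w
        hη hη4 hw hXdef hX
      have h3 : ε₁ ^ 2 / (8 * 32) = η := by
        rw [hηdef]
        norm_num
      rw [h3]
      refine le_trans (add_le_add h1 h2) (le_of_eq ?_)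
      ring)
  refine ⟨ζ, hζ, fun x y => ?_⟩
  have hζabs : ∀ t, |ζ t| ≤ 1 := by
    intro t
    rcases hζ t with h | h <;> simp [h]
  by_cases hxy0 : 0 < δ x y
  · have hsx : S x y = (32:ℝ) ^ (a x y) := rfl
    have hI : ∀ i, i < Iz δ Pi p x y (S x y) → i < J := by
      intro i hi
      have := Iz_le δ Pi p hPi1 x y (S x y)
      omega
    have hmemC : a x y ∈ C := by
      rw [hC, Finset.mem_image]
      exact ⟨(x, y), Finset.mem_univ _, rfl⟩
    have hat : ∀ z : V, ∀ i, i < Iz δ Pi p x y (S x y) →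
        |w * ∑ t, ζ t * aval δ Pi p z (S x y) i (f t)|
          ≤ ε₁ * (w * ∑ t, |aval δ Pi p z (S x y) i (f t)|) + ε₁ / 2 ^ i := by
      intro z i hi
      have h1 := hζb (Sum.inl (i, z, a x y)) (by
        rw [Finset.inl_mem_disjSum]
        simp only [A₁, Finset.mem_product, Finset.mem_range, Finset.mem_univ, true_and]
        exact ⟨hI i hi, hmemC⟩)
      simpa only [v, κ, Sum.elim_inl] using h1
    have hlev : ∀ l, l < L →
        |w * ∑ t, ζ t * pv δ Pi p x y (S x y) (Iz δ Pi p x y (S x y)) l (f t)|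
          ≤ ε₁ * (w * ∑ t, |pv δ Pi p x y (S x y) (Iz δ Pi p x y (S x y)) l (f t)|)
            + ε₁ / 2 ^ l := by
      intro l hl
      have h1 := hζb (Sum.inr (l, x, y)) (by
        rw [Finset.inr_mem_disjSum]
        simp only [A₂, Finset.mem_product, Finset.mem_range, Finset.mem_univ]
        exact ⟨hl, trivial⟩)
      simpa only [v, κ, Sum.elim_inr] using h1
    have hmain := stage_final hδ hP f hG w ε₁ hw hε hN hsum L hL' ζ x y (S x y) (hS x y)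
      (ha1 x y) hζabs (fun i hi => hat x i hi) (fun i hi => hat y i hi) hlev
    have hSle : S x y ≤ 32 * δ x y ^ p := ha2 x y hxy0
    have hfac : w * ∑ t, ζ t * |f t x - f t y| ^ p
        = S x y * (w * ∑ t, ζ t * (|f t x - f t y| ^ p / S x y)) := by
      rw [mul_left_comm, Finset.mul_sum (s := Finset.univ) (a := S x y)]
      congr 1
      refine Finset.sum_congr rfl (fun t _ => ?_)
      have := (hS x y).ne'
      field_simp
    rw [hfac, abs_mul, abs_of_pos (hS x y)]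
    have h0 := abs_nonneg (w * ∑ t, ζ t * (|f t x - f t y| ^ p / S x y))
    calc S x y * |w * ∑ t, ζ t * (|f t x - f t y| ^ p / S x y)|
        ≤ (32 * δ x y ^ p) * (26 * ε₁) := mul_le_mul hSle hmain h0 (by positivity)
      _ = 832 * ε₁ * δ x y ^ p := by ring
  · have hz : δ x y = 0 := le_antisymm (not_lt.mp hxy0) (hδ.h0 x y)
    have h0 : ∀ t, |f t x - f t y| ^ p = 0 := by
      intro t
      rw [(hG t).1 x y hz, sub_self, abs_zero, Real.zero_rpow hp0.ne']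
    simp [h0, hz, Real.zero_rpow hp0.ne']

end Stage8

end Vale.Agent.Lib.P249
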