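import Mathlib
import Vale.Agent.Lib.P249.Stage8

namespace Vale.Agent.Lib.P249

section Stage9

set_option linter.unusedSectionVars false

/-- an integer above `p` -/
noncomputable def P2 (p : ℝ) : ℕ := ⌈p⌉₊

/-- an integer controlling `Cp` -/
noncomputable def Cc (p : ℝ) : ℕ := ⌈Cp p⌉₊

lemma Cp_le_four_pow (p : ℝ) : Cp p ≤ 4 ^ Cc p := by
  have h1 : Cp p ≤ (Cc p : ℝ) := Nat.le_ceil _
  refine le_trans h1 ?_
  have h2 : Cc p < 2 ^ Cc p := Nat.lt_two_pow_self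
  have h3 : (2:ℕ) ^ Cc p ≤ 4 ^ Cc p := Nat.pow_le_pow_left (by norm_num) _
  exact_mod_cast (le_trans h2.le h3)

lemma Cp_ge (p : ℝ) (hp : 1 ≤ p) : 32 * p ≤ Cp p := by
  unfold Cp
  have h1 : (1:ℝ) ≤ (3:ℝ) ^ (p - 1) := Real.one_le_rpow (by norm_num) (by linarith)
  nlinarith

/-- the ratio in the parameters -/
noncomputable def Zz (p ε₁ : ℝ) : ℝ := 256 * Cp p / ε₁

/-- the rank parameter -/
noncomputable def Pie (p ε₁ : ℝ) : ℕ := ⌈4 * p * (Real.logb 2 (Zz p ε₁) + 3) + (68 * p + 8)⌉₊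

lemma Zz_ge (p ε₁ : ℝ) (hp : 1 ≤ p) (hε : 0 < ε₁) (hε1 : ε₁ ≤ 1) : 8 * p ≤ Zz p ε₁ := by
  unfold Zz
  rw [le_div_iff₀ hε]
  have h1 := Cp_ge p hp
  have hp0 : 0 < p := by linarith
  nlinarith

lemma logb_Zz_nonneg (p ε₁ : ℝ) (hp : 1 ≤ p) (hε : 0 < ε₁) (hε1 : ε₁ ≤ 1) :
    0 ≤ Real.logb 2 (Zz p ε₁) := by
  apply Real.logb_nonneg (by norm_num)
  have := Zz_ge p ε₁ hp hε hε1
  linarith

lemma Pie_ge (p ε₁ : ℝ) : 4 * p * (Real.logb 2 (Zz p ε₁) + 3) + (68 * p + 8) ≤ Pie p ε₁ :=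
  Nat.le_ceil _

lemma Dv_le (p ε₁ : ℝ) (hp : 1 ≤ p) (hε : 0 < ε₁) (hε1 : ε₁ ≤ 1) (i : ℕ) :
    Dv (Pie p ε₁) p i ≤ (4 / Zz p ε₁) * (1 / 8) ^ i := by
  have hp0 : 0 < p := by linarith
  set Z := Zz p ε₁ with hZ
  set Pi := Pie p ε₁ with hPi
  have hZ8 := Zz_ge p ε₁ hp hε hε1
  have hZ0 : 0 < Z := by linarith
  have hlog := logb_Zz_nonneg p ε₁ hp hε hε1
  have hge := Pie_ge p ε₁
  have hz : Real.logb 2 Z + 3 ≤ (Pi : ℝ) / (4 * p) := by
    rw [le_div_iff₀ (by positivity)]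
    nlinarith
  unfold Dv
  rw [mr_real, ← Real.rpow_mul (by norm_num)]
  have h2i : (1:ℝ) + i ≤ 2 ^ i := by
    have := one_add_mul_le_pow (by norm_num : (-2:ℝ) ≤ 1) i
    norm_num at this
    linarith
  have hexp : -(Real.logb 2 Z + 3 * i) ≥ (Pi : ℝ) * 2 ^ i * -(1 / (4 * p)) := by
    have h3 : (Pi : ℝ) * 2 ^ i * -(1 / (4 * p)) = -((Pi : ℝ) / (4 * p) * 2 ^ i) := by
      field_simp
    rw [h3]
    have h4 : (Real.logb 2 Z + 3) * (1 + i) ≤ (Pi : ℝ) / (4 * p) * 2 ^ i :=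
      mul_le_mul hz h2i (by positivity) (le_trans (by positivity) hz)
    have hi0 : (0:ℝ) ≤ i := by positivity
    nlinarith [mul_nonneg hlog hi0]
  have h5 : (2:ℝ) ^ ((Pi : ℝ) * 2 ^ i * -(1 / (4 * p))) ≤ (2:ℝ) ^ (-(Real.logb 2 Z + 3 * i)) :=
    Real.rpow_le_rpow_of_exponent_le (by norm_num) hexp
  have h6 : (2:ℝ) ^ (-(Real.logb 2 Z + 3 * i)) = (1 / Z) * (1 / 8) ^ i := by
    rw [neg_add, Real.rpow_add (by norm_num), Real.rpow_neg (by norm_num),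
      Real.rpow_logb (by norm_num) (by norm_num) hZ0, Real.rpow_neg (by norm_num)]
    congr 1
    · rw [one_div]
    · have h7 : (3:ℝ) * i = ((3 * i : ℕ) : ℝ) := by push_cast; ring
      rw [h7, Real.rpow_natCast, pow_mul]
      norm_num
      rw [one_div, inv_pow]
  rw [h6] at h5
  calc 4 * (2:ℝ) ^ ((Pi : ℝ) * 2 ^ i * -(1 / (4 * p)))
      ≤ 4 * ((1 / Z) * (1 / 8) ^ i) := by linarith
    _ = 4 / Z * (1 / 8) ^ i := by ring

lemma PP_Pie (p ε₁ : ℝ) (hp : 2 ≤ p) (hε : 0 < ε₁) (hε1 : ε₁ ≤ 1) : PP (Pie p ε₁) p := by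
  have hp1 : 1 ≤ p := by linarith
  have hp0 : 0 < p := by linarith
  have hlog := logb_Zz_nonneg p ε₁ hp1 hε hε1
  have hge := Pie_ge p ε₁
  refine ⟨hp, ?_, fun i => ?_⟩
  · rw [mr_real]
    apply Real.rpow_le_rpow_of_exponent_le (by norm_num)
    simp only [pow_zero, mul_one]
    have : 0 ≤ 4 * p * (Real.logb 2 (Zz p ε₁) + 3) := by positivity
    linarith
  · refine le_trans (Dv_le p ε₁ hp1 hε hε1 i) ?_
    have hZ8 := Zz_ge p ε₁ hp1 hε hε1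
    have hZ0 : 0 < Zz p ε₁ := by linarith
    have h1 : 4 / Zz p ε₁ ≤ 1 / (2 * p) := by
      rw [div_le_div_iff₀ hZ0 (by positivity)]
      linarith
    have h2 : ((1:ℝ) / 8) ^ i ≤ (1 / 16 ^ i : ℝ) ^ (1 / p) := by
      have h3 : ((1:ℝ) / 8) ^ i ≤ 1 / 4 ^ i := by
        rw [one_div_pow]
        apply one_div_le_one_div_of_le (by positivity)
        exact pow_le_pow_left₀ (by norm_num) (by norm_num) i
      refine le_trans h3 ?_
      rw [← four_pow_half]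
      apply Real.rpow_le_rpow_of_exponent_ge (by positivity) _
        (one_div_le_one_div_of_le (by norm_num) hp)
      rw [div_le_one (by positivity)]
      exact one_le_pow₀ (by norm_num)
    exact mul_le_mul h1 h2 (by positivity) (by positivity)

lemma sum_Dv_le (p ε₁ : ℝ) (hp : 1 ≤ p) (hε : 0 < ε₁) (hε1 : ε₁ ≤ 1) (I : ℕ) :
    32 * Cp p * ∑ i ∈ Finset.range I, 4 ^ i * Dv (Pie p ε₁) p i ≤ ε₁ := by
  have hC := Cp_pos p hp
  have hZ8 := Zz_ge p ε₁ hp hε hε1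
  have hZ0 : 0 < Zz p ε₁ := by linarith
  have h1 : ∑ i ∈ Finset.range I, (4:ℝ) ^ i * Dv (Pie p ε₁) p i
      ≤ ∑ i ∈ Finset.range I, (4 / Zz p ε₁) * (1 / 2) ^ i := by
    refine Finset.sum_le_sum (fun i _ => ?_)
    have h2 := Dv_le p ε₁ hp hε hε1 i
    have h3 : (4:ℝ) ^ i * ((4 / Zz p ε₁) * (1 / 8) ^ i) = (4 / Zz p ε₁) * (1 / 2) ^ i := by
      have : (1 / 2 : ℝ) ^ i = 4 ^ i * (1 / 8) ^ i := by
        rw [← mul_pow]
        norm_num
      rw [this]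
      ring
    rw [← h3]
    exact mul_le_mul_of_nonneg_left h2 (by positivity)
  rw [← Finset.mul_sum] at h1
  have h2 := sum_geometric_two_le I
  have h3 : (4 / Zz p ε₁) * ∑ i ∈ Finset.range I, (1 / 2 : ℝ) ^ i ≤ (4 / Zz p ε₁) * 2 :=
    mul_le_mul_of_nonneg_left h2 (by positivity)
  have h4 : 32 * Cp p * ((4 / Zz p ε₁) * 2) = ε₁ := by
    unfold Zz
    field_simp
    norm_num
  calc 32 * Cp p * ∑ i ∈ Finset.range I, (4:ℝ) ^ i * Dv (Pie p ε₁) p i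
      ≤ 32 * Cp p * ((4 / Zz p ε₁) * 2) :=
        mul_le_mul_of_nonneg_left (le_trans h1 h3) (by positivity)
    _ = ε₁ := h4

/-- the size of the weight for which a stage is possible -/
noncomputable def Lstar (p ε₁ : ℝ) : ℝ :=
  512 * (Ybar (Pie p ε₁) p (P2 p) (Cc p) + Real.log (4 / (ε₁ ^ 2 / 256)) + 1)

/-- the constant in the final bound -/
noncomputable def Astar (p : ℝ) : ℝ :=
  512 * ((8 + 2 ^ P2 p) * (4 * p * (2 * Real.log (256 * Cp p) + 5) + 68 * p + 9)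
    + (1 + 6 + 2 * (P2 p : ℝ) + (1 + 5 * (Cc p : ℝ) + 2 * (Cc p : ℝ) * p + 10 + 4 * p) + 6) + 10)

lemma log_Cp_nonneg (p : ℝ) (hp : 1 ≤ p) : 0 ≤ Real.log (256 * Cp p) := by
  apply Real.log_nonneg
  have := Cp_ge p hp
  linarith

lemma Astar_pos (p : ℝ) (hp : 1 ≤ p) : 0 < Astar p := by
  have h := log_Cp_nonneg p hp
  have hp0 : 0 < p := by linarith
  unfold Astar
  positivity

lemma Lstar_pos (p ε₁ : ℝ) (hp : 1 ≤ p) (hε : 0 < ε₁) (hε1 : ε₁ ≤ 1) : 0 < Lstar p ε₁ := by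
  unfold Lstar
  have hY : 0 ≤ Ybar (Pie p ε₁) p (P2 p) (Cc p) := by
    unfold Ybar
    positivity
  have hη : 0 < ε₁ ^ 2 / 256 := by positivity
  have hlog : 0 ≤ Real.log (4 / (ε₁ ^ 2 / 256)) := by
    apply Real.log_nonneg
    rw [le_div_iff₀ hη, div_eq_mul_inv]
    nlinarith
  positivity

lemma Lstar_le (p ε₁ : ℝ) (hp : 1 ≤ p) (hε : 0 < ε₁) (hε1 : ε₁ ≤ 1) :
    Lstar p ε₁ ≤ Astar p / ε₁ := by
  have hp0 : 0 < p := by linarith
  set u := 1 / ε₁ with hu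
  have hu1 : 1 ≤ u := by
    rw [hu, le_div_iff₀ hε]
    linarith
  have hu0 : 0 < u := by linarith
  have hlogu : Real.log u ≤ u := by
    have := Real.log_le_sub_one_of_pos hu0
    linarith
  have hlogu0 : 0 ≤ Real.log u := Real.log_nonneg hu1
  have hC := Cp_pos p hp
  have hlC := log_Cp_nonneg p hp
  -- the logarithm of the ratio
  have hZ : Zz p ε₁ = 256 * Cp p * u := by
    unfold Zz
    rw [hu]
    ring
  have hlogZ : Real.log (Zz p ε₁) = Real.log (256 * Cp p) + Real.log u := by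
    rw [hZ, Real.log_mul (by positivity) (by positivity)]
  have hlog2 : (1:ℝ) / 2 ≤ Real.log 2 := by
    have := Real.log_two_gt_d9
    linarith
  have hlogb : Real.logb 2 (Zz p ε₁) ≤ 2 * (Real.log (256 * Cp p) + u) := by
    unfold Real.logb
    rw [hlogZ, div_le_iff₀ (by linarith)]
    nlinarith
  set D := 4 * p * (2 * Real.log (256 * Cp p) + 5) + 68 * p + 9 with hD
  have hD0 : 0 ≤ D := by positivity
  have hPi : (Pie p ε₁ : ℝ) ≤ D * u := by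
    have hb : 0 ≤ 4 * p * (Real.logb 2 (Zz p ε₁) + 3) + (68 * p + 8) := by
      have := logb_Zz_nonneg p ε₁ hp hε hε1
      positivity
    have h1 : (Pie p ε₁ : ℝ) < 4 * p * (Real.logb 2 (Zz p ε₁) + 3) + (68 * p + 8) + 1 :=
      Nat.ceil_lt_add_one hb
    have h2 : 4 * p * (Real.logb 2 (Zz p ε₁) + 3) ≤ 4 * p * (2 * Real.log (256 * Cp p) * u + 5 * u) := by
      apply mul_le_mul_of_nonneg_left _ (by positivity)
      nlinarith
    have h3 : 68 * p + 9 ≤ (68 * p + 9) * u := by nlinarith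
    rw [hD]
    nlinarith
  have hP2 : (0:ℝ) ≤ P2 p := by positivity
  have hCc : (0:ℝ) ≤ Cc p := by positivity
  set K := 1 + 6 + 2 * (P2 p : ℝ) + (1 + 5 * (Cc p : ℝ) + 2 * (Cc p : ℝ) * p + 10 + 4 * p) + 6
    with hK
  have hK0 : 0 ≤ K := by positivity
  have hY : Ybar (Pie p ε₁) p (P2 p) (Cc p) = (8 + 2 ^ P2 p) * (Pie p ε₁ : ℝ) + K := by
    unfold Ybar
    rw [hK]
    ring
  have hlog4 : Real.log (4 / (ε₁ ^ 2 / 256)) ≤ 7 + 2 * u := by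
    have h1 : 4 / (ε₁ ^ 2 / 256) = 1024 * u ^ 2 := by
      rw [hu]
      field_simp
      norm_num
    rw [h1, Real.log_mul (by norm_num) (by positivity), Real.log_pow]
    have h2 : Real.log 1024 ≤ 7 := by
      have h3 : (1024:ℝ) = 2 ^ 10 := by norm_num
      rw [h3, Real.log_pow]
      have := Real.log_two_lt_d9
      push_cast
      linarith
    push_cast
    linarith
  have hA : Astar p / ε₁ = 512 * ((8 + 2 ^ P2 p) * D + K + 10) * u := by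
    unfold Astar
    rw [hu, ← hD, ← hK]
    ring
  rw [hA]
  unfold Lstar
  rw [hY]
  have h8 : (0:ℝ) < 8 + 2 ^ P2 p := by positivity
  have h5 := mul_le_mul_of_nonneg_left hPi h8.le
  have h6 : K ≤ K * u := by nlinarith
  have h7 : (0:ℝ) ≤ u - 1 := by linarith
  nlinarith

variable {V : Type*} [Fintype V] [LinearOrder V] {T : Type*} [Fintype T]

/-- one halving stage -/
theorem stage (p : ℝ) (hp : 2 ≤ p) (δ : V → V → ℝ) (hδ : PM δ)
    (ε₁ : ℝ) (hε : 0 < ε₁) (hε1 : ε₁ ≤ 1)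
    (f : T → V → ℝ) (hG : ∀ t, Gd δ p (f t)) (w : ℝ) (hw : 0 < w)
    (hwle : w ≤ ε₁ ^ 3 / Astar p)
    (hN : ∀ x y, w * ∑ t, |f t x - f t y| ^ p ≤ 2 * δ x y ^ p) :
    ∃ ζ : T → ℝ, (∀ t, ζ t = 1 ∨ ζ t = -1) ∧
      ∀ x y, |w * ∑ t, ζ t * |f t x - f t y| ^ p| ≤ 832 * ε₁ * δ x y ^ p := by
  have hp1 : 1 ≤ p := by linarith
  have hP := PP_Pie p ε₁ hp hε hε1
  have hA := Astar_pos p hp1
  have hL := Lstar_pos p ε₁ hp1 hε hε1
  have hLle := Lstar_le p ε₁ hp1 hε hε1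
  refine stage_core hδ hP (P2 p) (Cc p) (Nat.le_ceil p) (Cp_le_four_pow p) ε₁ hε hε1
    (sum_Dv_le p ε₁ hp1 hε hε1) f hG w hw ?_ hN
  have h1 : Lstar p ε₁ ≤ ε₁ ^ 2 / w := by
    rw [le_div_iff₀ hw]
    have h2 : w * (Astar p / ε₁) ≤ (ε₁ ^ 3 / Astar p) * (Astar p / ε₁) :=
      mul_le_mul_of_nonneg_right hwle (by positivity)
    have h3 : (ε₁ ^ 3 / Astar p) * (Astar p / ε₁) = ε₁ ^ 2 := by
      field_simp
    rw [h3] at h2
    nlinarith
  unfold Lstar at h1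
  linarith

end Stage9

end Vale.Agent.Lib.P249
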