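import Mathlib
import Vale.Agent.Lib.P249.Stage9

namespace Vale.Agent.Lib.P249

section Stage10

set_option linter.unusedSectionVars false

variable {V : Type*} [Fintype V] [LinearOrder V] {T : Type*} [DecidableEq T]

/-- one halving step on a subset of the coordinates -/
lemma halve_step (p : ℝ) (hp : 2 ≤ p) (δ : V → V → ℝ) (hδ : PM δ)
    (ε₁ : ℝ) (hε : 0 < ε₁) (hε1 : ε₁ ≤ 1)
    (f : T → V → ℝ) (hG : ∀ t, Gd δ p (f t)) (S : Finset T) (w : ℝ) (hw : 0 < w)
    (hwle : w ≤ ε₁ ^ 3 / Astar p)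
    (hN : ∀ x y, w * ∑ t ∈ S, |f t x - f t y| ^ p ≤ 2 * δ x y ^ p) :
    ∃ S' ⊆ S, ∀ x y, |(2 * w) * ∑ t ∈ S', |f t x - f t y| ^ p - w * ∑ t ∈ S, |f t x - f t y| ^ p|
      ≤ 832 * ε₁ * δ x y ^ p := by
  classical
  obtain ⟨ζ, hζ, hζb⟩ := stage (T := S) p hp δ hδ ε₁ hε hε1 (fun t => f t.1) (fun t => hG t.1) w hw
    hwle (fun x y => by
      have h1 := hN x y
      rwa [← Finset.sum_coe_sort S] at h1)
  set A := (Finset.univ : Finset S).filter (fun t => ζ t = 1) with hA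
  refine ⟨A.image Subtype.val, ?_, fun x y => ?_⟩
  · intro t ht
    rw [Finset.mem_image] at ht
    obtain ⟨s, _, rfl⟩ := ht
    exact s.2
  · have h1 := hζb x y
    set g : S → ℝ := fun t => |f t.1 x - f t.1 y| ^ p with hg
    have h2 : ∑ t ∈ A.image Subtype.val, |f t x - f t y| ^ p = ∑ t ∈ A, g t := by
      rw [Finset.sum_image (fun a _ b _ hab => Subtype.ext hab)]
    have h3 : ∑ t ∈ S, |f t x - f t y| ^ p = ∑ t : S, g t := by
      rw [← Finset.sum_coe_sort S]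
    have h4 : ∑ t, ζ t * g t = 2 * ∑ t ∈ A, g t - ∑ t : S, g t := by
      have h5 := Finset.sum_filter_add_sum_filter_not (Finset.univ : Finset S)
        (fun t => ζ t = 1) g
      have h6 := Finset.sum_filter_add_sum_filter_not (Finset.univ : Finset S)
        (fun t => ζ t = 1) (fun t => ζ t * g t)
      have h7 : ∑ t ∈ (Finset.univ : Finset S).filter (fun t => ζ t = 1), ζ t * g t
          = ∑ t ∈ A, g t := by
        refine Finset.sum_congr rfl (fun t ht => ?_)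
        rw [(Finset.mem_filter.mp ht).2, one_mul]
      have h8 : ∑ t ∈ (Finset.univ : Finset S).filter (fun t => ¬ ζ t = 1), ζ t * g t
          = -∑ t ∈ (Finset.univ : Finset S).filter (fun t => ¬ ζ t = 1), g t := by
        rw [← Finset.sum_neg_distrib]
        refine Finset.sum_congr rfl (fun t ht => ?_)
        rcases hζ t with h9 | h9
        · exact absurd h9 (Finset.mem_filter.mp ht).2
        · rw [h9]
          ring
      rw [← h6, h7, h8, ← h5, ← hA]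
      ring
    rw [h2, h3]
    have h5 : (2 * w) * ∑ t ∈ A, g t - w * ∑ t : S, g t = w * ∑ t, ζ t * g t := by
      rw [h4]
      ring
    rw [h5]
    exact h1

/-- the rate of the error -/
noncomputable def rhoo : ℝ := ((1:ℝ) / 2) ^ ((1:ℝ) / 3)

lemma rhoo_pos : 0 < rhoo := by
  unfold rhoo
  positivity

lemma rhoo_cube : rhoo ^ 3 = 1 / 2 := by
  unfold rhoo
  rw [← Real.rpow_natCast, ← Real.rpow_mul (by norm_num)]
  norm_num

lemma rhoo_le : rhoo ≤ 4 / 5 := by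
  by_contra hcon
  push Not at hcon
  have h1 : ((4:ℝ) / 5) ^ 3 < rhoo ^ 3 := pow_lt_pow_left₀ hcon (by norm_num) (by norm_num)
  rw [rhoo_cube] at h1
  norm_num at h1

lemma rhoo_pow_cube (j : ℕ) : (rhoo ^ j) ^ 3 = 1 / 2 ^ j := by
  rw [← pow_mul, mul_comm, pow_mul, rhoo_cube, one_div_pow]

/-- the accumulated error -/
noncomputable def err (j : ℕ) : ℝ := ∑ k ∈ Finset.range j, rhoo ^ (k + 1)

lemma err_nonneg (j : ℕ) : 0 ≤ err j := by
  unfold err
  have := rhoo_pos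
  positivity

lemma err_succ (j : ℕ) : err (j + 1) = err j + rhoo ^ (j + 1) := by
  unfold err
  rw [Finset.sum_range_succ]

lemma err_le (j : ℕ) : err j ≤ 4 := by
  have h1 : ∀ m : ℕ, err m ≤ 4 - 4 * ((4:ℝ) / 5) ^ m := by
    intro m
    induction m with
    | zero =>
      simp [err]
    | succ m ih =>
      rw [err_succ]
      have h2 : rhoo ^ (m + 1) ≤ ((4:ℝ) / 5) ^ (m + 1) :=
        pow_le_pow_left₀ rhoo_pos.le rhoo_le _
      have h3 : ((4:ℝ) / 5) ^ (m + 1) = (4 / 5) * (4 / 5) ^ m := by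
        rw [pow_succ]
        ring
      rw [h3] at h2 ⊢
      have h4 : (0:ℝ) < (4 / 5) ^ m := by positivity
      linarith
  have h2 := h1 j
  have h3 : (0:ℝ) < (4 / 5) ^ j := by positivity
  linarith

/-- the iteration of the halving step -/
theorem iterate (p : ℝ) (hp : 2 ≤ p) (δ : V → V → ℝ) (hδ : PM δ)
    (f : T → V → ℝ) (hG : ∀ t, Gd δ p (f t)) (ε₂ : ℝ) (hε : 0 < ε₂) (hε1 : ε₂ ≤ 1) (j : ℕ) :
    ∀ (S : Finset T) (w : ℝ), 0 < w → w * 2 ^ j ≤ ε₂ ^ 3 / Astar p → ∀ c : ℝ, 0 ≤ c →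
      (∀ x y, (1 - c) * δ x y ^ p ≤ w * ∑ t ∈ S, |f t x - f t y| ^ p ∧
        w * ∑ t ∈ S, |f t x - f t y| ^ p ≤ (1 + c) * δ x y ^ p) →
      c + 832 * ε₂ * err j ≤ 1 / 2 →
      ∃ S' ⊆ S, ∀ x y, (1 - (c + 832 * ε₂ * err j)) * δ x y ^ p
          ≤ (w * 2 ^ j) * ∑ t ∈ S', |f t x - f t y| ^ p ∧
        (w * 2 ^ j) * ∑ t ∈ S', |f t x - f t y| ^ p ≤ (1 + (c + 832 * ε₂ * err j)) * δ x y ^ p := by
  have hp0 : 0 < p := by linarith
  have hA := Astar_pos p (by linarith)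
  induction j with
  | zero =>
    intro S w _ _ c _ hN _
    refine ⟨S, Finset.Subset.refl _, fun x y => ?_⟩
    simpa [err] using hN x y
  | succ j ih =>
    intro S w hw hwle c hc hN hsmall
    have hρ := rhoo_pos
    have hρ1 : rhoo ≤ 1 := le_trans rhoo_le (by norm_num)
    have herr := err_nonneg j
    rw [err_succ] at hsmall
    have hpowpos : 0 < rhoo ^ (j + 1) := by positivity
    set ε₁ := ε₂ * rhoo ^ (j + 1) with hε₁
    have hε₁pos : 0 < ε₁ := by positivity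
    have hpow1 : rhoo ^ (j + 1) ≤ 1 := pow_le_one₀ hρ.le hρ1
    have hε₁1 : ε₁ ≤ 1 := by
      rw [hε₁]
      nlinarith
    have hwε : w ≤ ε₁ ^ 3 / Astar p := by
      have h1 : ε₁ ^ 3 = ε₂ ^ 3 * (1 / 2 ^ (j + 1)) := by
        rw [hε₁, mul_pow, rhoo_pow_cube]
      rw [h1]
      have h2 : (0:ℝ) < 2 ^ (j + 1) := by positivity
      have h3 : ε₂ ^ 3 * (1 / 2 ^ (j + 1)) / Astar p = ε₂ ^ 3 / Astar p / 2 ^ (j + 1) := by
        field_simp
      rw [h3, le_div_iff₀ h2]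
      exact hwle
    have hc2 : c ≤ 1 / 2 := by
      have : 0 ≤ 832 * ε₂ * (err j + rhoo ^ (j + 1)) := by positivity
      linarith
    have hN2 : ∀ x y, w * ∑ t ∈ S, |f t x - f t y| ^ p ≤ 2 * δ x y ^ p := by
      intro x y
      have h1 := (hN x y).2
      have h2 : 0 ≤ δ x y ^ p := Real.rpow_nonneg (hδ.h0 x y) p
      nlinarith
    obtain ⟨S₁, hS₁, hS₁b⟩ := halve_step p hp δ hδ ε₁ hε₁pos hε₁1 f hG S w hw hwε hN2
    have hc₁ : 0 ≤ c + 832 * ε₁ := by positivity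
    have hN₁ : ∀ x y, (1 - (c + 832 * ε₁)) * δ x y ^ p ≤ (2 * w) * ∑ t ∈ S₁, |f t x - f t y| ^ p ∧
        (2 * w) * ∑ t ∈ S₁, |f t x - f t y| ^ p ≤ (1 + (c + 832 * ε₁)) * δ x y ^ p := by
      intro x y
      have h1 := abs_le.mp (hS₁b x y)
      have h2 := hN x y
      constructor <;> nlinarith [h1.1, h1.2, h2.1, h2.2]
    have hwle' : (2 * w) * 2 ^ j ≤ ε₂ ^ 3 / Astar p := by
      refine le_trans (le_of_eq ?_) hwle
      rw [pow_succ]
      ring
    have hsmall' : c + 832 * ε₁ + 832 * ε₂ * err j ≤ 1 / 2 := by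
      refine le_trans (le_of_eq ?_) hsmall
      rw [hε₁]
      ring
    obtain ⟨S', hS', hS'b⟩ := ih S₁ (2 * w) (by positivity) hwle' _ hc₁ hN₁ hsmall'
    refine ⟨S', Finset.Subset.trans hS' hS₁, fun x y => ?_⟩
    have h1 := hS'b x y
    have h2 : (2 * w) * 2 ^ j = w * 2 ^ (j + 1) := by
      rw [pow_succ]
      ring
    rw [h2] at h1
    have h3 : c + 832 * ε₁ + 832 * ε₂ * err j = c + 832 * ε₂ * err (j + 1) := by
      rw [err_succ, hε₁]
      ring
    rw [h3] at h1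
    exact h1

end Stage10

end Vale.Agent.Lib.P249
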