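import Mathlib
import Vale.Agent.Lib.P249.Stage10

namespace Vale.Agent.Lib.P249

section Stage11

set_option linter.unusedSectionVars false

variable {V : Type*} [Fintype V] [LinearOrder V] {T : Type*} [Fintype T] [DecidableEq T]

/-- the number of coordinates left is controlled by the energy -/
lemma size_bound (p : ℝ) (hp : 2 ≤ p) (δ : V → V → ℝ) (hδ : PM δ)
    (f : T → V → ℝ) (hG : ∀ t, Gd δ p (f t)) (hren : ∀ t, ren δ p (f t) = 1 / Lam p)
    (S : Finset T) (w : ℝ) (hw : 0 < w)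
    (hup : ∀ x y, w * ∑ t ∈ S, |f t x - f t y| ^ p ≤ 2 * δ x y ^ p) :
    w * ((S.card : ℝ) * (1 / Lam p)) ≤ 4 * (Fintype.card V : ℝ) := by
  have hp0 : 0 < p := by linarith
  have h1 : (S.card : ℝ) * (1 / Lam p) = ∑ t ∈ S, ren δ p (f t) := by
    rw [Finset.sum_congr rfl (fun t _ => hren t), Finset.sum_const, nsmul_eq_mul]
  rw [h1]
  have h2 : w * ∑ t ∈ S, ren δ p (f t)
      = ∑ a, ∑ b, rwt δ a b * (w * ∑ t ∈ S, slope δ p (f t) a b) := by
    unfold ren
    calc w * ∑ t ∈ S, ∑ a, ∑ b, rwt δ a b * slope δ p (f t) a b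
        = ∑ t ∈ S, ∑ a, ∑ b, rwt δ a b * (w * slope δ p (f t) a b) := by
          rw [Finset.mul_sum]
          refine Finset.sum_congr rfl (fun t _ => ?_)
          rw [Finset.mul_sum]
          refine Finset.sum_congr rfl (fun a _ => ?_)
          rw [Finset.mul_sum]
          refine Finset.sum_congr rfl (fun b _ => ?_)
          ring
      _ = ∑ a, ∑ t ∈ S, ∑ b, rwt δ a b * (w * slope δ p (f t) a b) := Finset.sum_comm
      _ = ∑ a, ∑ b, ∑ t ∈ S, rwt δ a b * (w * slope δ p (f t) a b) :=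
          Finset.sum_congr rfl (fun a _ => Finset.sum_comm)
      _ = ∑ a, ∑ b, rwt δ a b * (w * ∑ t ∈ S, slope δ p (f t) a b) := by
          refine Finset.sum_congr rfl (fun a _ => Finset.sum_congr rfl (fun b _ => ?_))
          rw [Finset.mul_sum, Finset.mul_sum]
  rw [h2]
  have h3 : ∀ a b, w * ∑ t ∈ S, slope δ p (f t) a b ≤ 2 := by
    intro a b
    by_cases hab : 0 < δ a b
    · have hdp : 0 < δ a b ^ p := Real.rpow_pos_of_pos hab p
      unfold slope
      rw [← Finset.sum_div, ← mul_div_assoc, div_le_iff₀ hdp]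
      exact hup a b
    · have hz : δ a b = 0 := le_antisymm (not_lt.mp hab) (hδ.h0 a b)
      have h0 : ∀ t, slope δ p (f t) a b = 0 := by
        intro t
        unfold slope
        rw [hz, Real.zero_rpow hp0.ne', div_zero]
      simp [h0]
  calc ∑ a, ∑ b, rwt δ a b * (w * ∑ t ∈ S, slope δ p (f t) a b)
      ≤ ∑ a, ∑ b, rwt δ a b * 2 := by
        refine Finset.sum_le_sum (fun a _ => Finset.sum_le_sum (fun b _ => ?_))
        exact mul_le_mul_of_nonneg_left (h3 a b) (rwt_pos δ a b).le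
    _ = 2 * ∑ a, ∑ b, rwt δ a b := by
        rw [Finset.mul_sum]
        refine Finset.sum_congr rfl (fun a _ => ?_)
        rw [Finset.mul_sum]
        refine Finset.sum_congr rfl (fun b _ => ?_)
        ring
    _ ≤ 4 * (Fintype.card V : ℝ) := by
        have := sum_sum_rwt_le δ
        linarith

/-- the combinatorial reduction -/
theorem reduce_finite (p : ℝ) (hp : 2 ≤ p) (δ : V → V → ℝ) (hδ : PM δ)
    (ε : ℝ) (hε : 0 < ε) (hε1 : ε ≤ 1)
    (f : T → V → ℝ) (hG : ∀ t, Gd δ p (f t)) (hren : ∀ t, ren δ p (f t) = 1 / Lam p)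
    (w₀ : ℝ) (hw₀ : 0 < w₀) (hw₀le : w₀ ≤ (ε / 26624) ^ 3 / Astar p)
    (hN : ∀ x y, (1 - ε / 8) * δ x y ^ p ≤ w₀ * ∑ t, |f t x - f t y| ^ p ∧
      w₀ * ∑ t, |f t x - f t y| ^ p ≤ (1 + ε / 8) * δ x y ^ p) :
    ∃ (d : ℕ) (y : V → Fin d → ℝ),
      (d : ℝ) ≤ 8 * Lam p * Astar p * 26624 ^ 3 / ε ^ 3 * (Fintype.card V : ℝ) ∧
      ∀ i j, δ i j ^ p ≤ ∑ k, |y i k - y j k| ^ p ∧
        ∑ k, |y i k - y j k| ^ p ≤ (1 + ε) * δ i j ^ p := by
  have hp1 : 1 ≤ p := by linarith
  have hp0 : 0 < p := by linarith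
  have hA := Astar_pos p hp1
  have hLam := Lam_pos p hp1
  set ε₂ := ε / 26624 with hε₂
  have hε₂0 : 0 < ε₂ := by positivity
  have hε₂1 : ε₂ ≤ 1 := by
    rw [hε₂, div_le_one (by norm_num)]
    linarith
  set W := ε₂ ^ 3 / Astar p with hW
  have hW0 : 0 < W := by positivity
  -- the number of stages
  obtain ⟨j, hj1, hj2⟩ := exists_nat_pow_near (x := W / w₀) (y := (2:ℝ))
    (by rw [le_div_iff₀ hw₀]; linarith) (by norm_num)
  have hj1' : w₀ * 2 ^ j ≤ W := by
    rw [le_div_iff₀ hw₀] at hj1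
    linarith
  have hj2' : W < w₀ * 2 ^ (j + 1) := by
    rw [div_lt_iff₀ hw₀] at hj2
    linarith
  have herr := err_le j
  have herr0 := err_nonneg j
  set c' := ε / 8 + 832 * ε₂ * err j with hc'
  have hc'le : c' ≤ ε / 4 := by
    have : 832 * ε₂ * err j ≤ 832 * ε₂ * 4 := mul_le_mul_of_nonneg_left herr (by positivity)
    rw [hc']
    rw [hε₂] at this ⊢
    linarith
  have hc'0 : 0 ≤ c' := by positivity
  obtain ⟨S', _, hS'⟩ := iterate p hp δ hδ f hG ε₂ hε₂0 hε₂1 j Finset.univ w₀ hw₀ hj1' (ε / 8)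
    (by positivity) hN (by linarith)
  rw [← hc'] at hS'
  set wf := w₀ * 2 ^ j with hwf
  have hwf0 : 0 < wf := by positivity
  have hWwf : W < 2 * wf := by
    rw [hwf, pow_succ] at *
    linarith
  -- the size
  have hup : ∀ x y, wf * ∑ t ∈ S', |f t x - f t y| ^ p ≤ 2 * δ x y ^ p := by
    intro x y
    have h1 := (hS' x y).2
    have h2 : 0 ≤ δ x y ^ p := Real.rpow_nonneg (hδ.h0 x y) p
    nlinarith
  have hsize := size_bound p hp δ hδ f hG hren S' wf hwf0 hup
  have hcardbound : (S'.card : ℝ)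
      ≤ 8 * Lam p * Astar p * 26624 ^ 3 / ε ^ 3 * (Fintype.card V : ℝ) := by
    have hV : (0:ℝ) ≤ Fintype.card V := by positivity
    have hsc : (0:ℝ) ≤ S'.card := by positivity
    have h1 : wf * (S'.card : ℝ) ≤ 4 * (Fintype.card V : ℝ) * Lam p := by
      have h2 : wf * ((S'.card : ℝ) * (1 / Lam p)) * Lam p = wf * (S'.card : ℝ) := by
        field_simp
      rw [← h2]
      exact mul_le_mul_of_nonneg_right hsize hLam.le
    have h2 : W * (S'.card : ℝ) ≤ 8 * (Fintype.card V : ℝ) * Lam p := by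
      nlinarith [mul_le_mul_of_nonneg_right hWwf.le hsc]
    have h3 : (S'.card : ℝ) = (W * (S'.card : ℝ)) / W := by
      field_simp
    rw [h3]
    rw [div_le_iff₀ hW0]
    refine le_trans h2 (le_of_eq ?_)
    rw [hW, hε₂]
    field_simp
  -- the embedding
  set e := S'.equivFin with he
  have hq : 0 < 1 - ε / 4 := by linarith
  set a := wf / (1 - ε / 4) with ha
  have ha0 : 0 < a := by positivity
  let y : V → Fin S'.card → ℝ := fun i k => a ^ (1 / p) * f (e.symm k).1 i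
  have hyabs : ∀ i j k, |y i k - y j k| ^ p = a * |f (e.symm k).1 i - f (e.symm k).1 j| ^ p := by
    intro i j k
    simp only [y]
    rw [← mul_sub, abs_mul, Real.mul_rpow (abs_nonneg _) (abs_nonneg _),
      abs_of_nonneg (Real.rpow_nonneg ha0.le _), ← Real.rpow_mul ha0.le,
      one_div_mul_cancel hp0.ne', Real.rpow_one]
  have hysum : ∀ i j, ∑ k, |y i k - y j k| ^ p = a * ∑ t ∈ S', |f t i - f t j| ^ p := by
    intro i j
    rw [Finset.mul_sum, ← Finset.sum_coe_sort S']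
    rw [← Equiv.sum_comp e.symm]
    exact Finset.sum_congr rfl (fun k _ => hyabs i j k)
  refine ⟨S'.card, y, hcardbound, fun i j => ?_⟩
  rw [hysum]
  obtain ⟨h1, h2⟩ := hS' i j
  have hdp : 0 ≤ δ i j ^ p := Real.rpow_nonneg (hδ.h0 i j) p
  have haeq : a * ∑ t ∈ S', |f t i - f t j| ^ p
      = (wf * ∑ t ∈ S', |f t i - f t j| ^ p) / (1 - ε / 4) := by
    rw [ha]
    ring
  rw [haeq]
  constructor
  · rw [le_div_iff₀ hq]
    nlinarith
  · rw [div_le_iff₀ hq]
    have h3 : (1 + c') * δ i j ^ p ≤ (1 + ε / 4) * δ i j ^ p :=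
      mul_le_mul_of_nonneg_right (by linarith) hdp
    have h4 : (1 + ε / 4) ≤ (1 + ε) * (1 - ε / 4) := by nlinarith
    have h5 := mul_le_mul_of_nonneg_right h4 hdp
    nlinarith

end Stage11

end Vale.Agent.Lib.P249
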