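import Mathlib
import Vale.Agent.Lib.P249.Stage11
import Vale.Agent.Lib.P249.Embedding

open MeasureTheory

namespace Vale.Agent.Lib.P249

section Stage12

set_option linter.unusedSectionVars false

lemma ren_smul {V : Type*} [Fintype V] [LinearOrder V] (δ : V → V → ℝ) (p : ℝ) (hp : 0 < p)
    (c : ℝ) (hc : 0 ≤ c) (g : V → ℝ) :
    ren δ p (fun a => c * g a) = c ^ p * ren δ p g := by
  unfold ren slope
  rw [Finset.mul_sum]
  refine Finset.sum_congr rfl (fun a _ => ?_)
  rw [Finset.mul_sum]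
  refine Finset.sum_congr rfl (fun w _ => ?_)
  rw [← mul_sub, abs_mul, Real.mul_rpow (abs_nonneg _) (abs_nonneg _), abs_of_nonneg hc]
  ring

variable {Ω : Type*} [MeasurableSpace Ω] {μ : Measure Ω}

/-- The main bound for `p` at least two: a number of coordinates linear in `n`. -/
theorem main_linear (p : ℝ) (hp : 2 ≤ p) (ε : ℝ) (hε : 0 < ε) (hε1 : ε ≤ 1)
    (n : ℕ) (hn : 2 ≤ n) (x : Fin n → Lp ℝ (ENNReal.ofReal p) μ) :
    ∃ (d : ℕ) (y : Fin n → Fin d → ℝ),
      (d : ℝ) ≤ 8 * Lam p * Astar p * 26624 ^ 3 / ε ^ 3 * (n : ℝ) ∧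
      ∀ i j, ‖x i - x j‖ ^ p ≤ ∑ k, |y i k - y j k| ^ p ∧
        ∑ k, |y i k - y j k| ^ p ≤ (1 + ε) * ‖x i - x j‖ ^ p := by
  classical
  have hp1 : 1 ≤ p := by linarith
  have hp0 : 0 < p := by linarith
  haveI : Fact (1 ≤ ENNReal.ofReal p) := ⟨by simpa using ENNReal.ofReal_le_ofReal hp1⟩
  have hnR : (2:ℝ) ≤ n := by exact_mod_cast hn
  let δ : Fin n → Fin n → ℝ := fun a b => ‖x a - x b‖
  let h : Fin n → Ω → ℝ := fun a t => x a t
  have hδ0 : ∀ a b, 0 ≤ δ a b := fun a b => norm_nonneg _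
  have hδs : ∀ a b, δ a b = δ b a := fun a b => norm_sub_rev _ _
  have hδt : ∀ a b c, δ a c ≤ δ a b + δ b c := fun a b c => norm_sub_le_norm_sub_add_norm_sub _ _ _
  have hδr : ∀ a, δ a a = 0 := fun a => by simp [δ]
  have hPM : PM δ := ⟨hδ0, hδs, hδt, hδr⟩
  have hzero : ∀ a b, δ a b = 0 → ∀ t, h a t = h b t := by
    intro a b hab t
    have : x a = x b := sub_eq_zero.mp (norm_eq_zero.mp hab)
    simp only [h, this]
  have hint : ∀ a b, Integrable (fun t => |h a t - h b t| ^ p) μ :=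
    fun a b => lp_integrable p hp1 (x a) (x b)
  have hval : ∀ a b, ∫ t, |h a t - h b t| ^ p ∂μ = δ a b ^ p :=
    fun a b => lp_integral p hp1 (x a) (x b)
  have hΛ := Lam_pos p hp1
  have hA := Astar_pos p hp1
  let σ : Ω → ℝ := fun t => Lam p * ren δ p (fun a => h a t)
  have hσ0 : ∀ t, 0 ≤ σ t := fun t => mul_nonneg hΛ.le (ren_nonneg δ hδ0 p _)
  have hEi : Integrable (fun t => ren δ p (fun a => h a t)) μ := by
    unfold ren slope
    refine integrable_finsetSum _ (fun a _ => integrable_finsetSum _ (fun w _ => ?_))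
    exact ((hint a w).div_const _).const_mul _
  have hσi : Integrable σ μ := hEi.const_mul _
  have hσ : ∀ a b, 0 < δ a b → ∀ t, |h a t - h b t| ^ p ≤ δ a b ^ p * σ t := by
    intro a b hab t
    have hch := slope_le_Lam δ p hp1 (fun a => h a t) hδ0 hδs hδt hδr
      (fun a b hz => hzero a b hz t) a b
    unfold slope at hch
    have hdp : 0 < δ a b ^ p := Real.rpow_pos_of_pos hab _
    rw [div_le_iff₀ hdp] at hch
    simp only [σ]
    linarith
  by_cases hpos : ∃ a b, 0 < δ a b
  swap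
  · -- all points coincide
    push Not at hpos
    have hz : ∀ a b, δ a b = 0 := fun a b => le_antisymm (hpos a b) (hδ0 a b)
    refine ⟨0, fun _ => Fin.elim0, ?_, ?_⟩
    · simp only [Nat.cast_zero]
      positivity
    · intro i j
      have h0 : ‖x i - x j‖ = 0 := hz i j
      simp [h0, Real.zero_rpow hp0.ne']
  obtain ⟨i₀, j₀, hi₀j₀⟩ := hpos
  let ι := {e : Fin n × Fin n // 0 < δ e.1 e.2}
  let Z : ι → Ω → ℝ := fun e t => |h e.1.1 t - h e.1.2 t| ^ p / δ e.1.1 e.1.2 ^ p
  have hdpos : ∀ e : ι, 0 < δ e.1.1 e.1.2 ^ p := fun e => Real.rpow_pos_of_pos e.2 _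
  have hZ0 : ∀ e t, 0 ≤ Z e t := fun e t =>
    div_nonneg (Real.rpow_nonneg (abs_nonneg _) _) (hdpos e).le
  have hZσ : ∀ e t, Z e t ≤ σ t := by
    intro e t
    simp only [Z]
    rw [div_le_iff₀ (hdpos e), mul_comm]
    exact hσ _ _ e.2 t
  have hZi : ∀ e, Integrable (Z e) μ := fun e => (hint _ _).div_const _
  have hZ1 : ∀ e, ∫ t, Z e t ∂μ = 1 := by
    intro e
    simp only [Z]
    rw [integral_div, hval]
    exact div_self (hdpos e).ne'
  set K := ∫ t, σ t ∂μ with hK
  have hK1 : 1 ≤ K := by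
    have := hZ1 ⟨(i₀, j₀), hi₀j₀⟩
    rw [← this]
    exact integral_mono (hZi _) hσi (fun t => hZσ _ t)
  have hKpos : 0 < K := by linarith
  set η := ε / 16 with hη
  have hη0 : 0 < η := by positivity
  have hη1 : η ≤ 1 := by rw [hη]; linarith
  set M : ℝ := 2 * ((n : ℝ) * n) with hMdef
  have hM : 2 * (Fintype.card ι : ℝ) ≤ M := by
    have h1 : Fintype.card ι ≤ Fintype.card (Fin n × Fin n) := Fintype.card_subtype_le _
    rw [Fintype.card_prod, Fintype.card_fin] at h1
    have h2 : (Fintype.card ι : ℝ) ≤ (n : ℝ) * n := by exact_mod_cast h1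
    rw [hMdef]
    linarith
  have hlogM : 0 ≤ Real.log M := by
    apply Real.log_nonneg
    rw [hMdef]
    nlinarith
  set W := (ε / 26624) ^ 3 / Astar p with hW
  have hW0 : 0 < W := by positivity
  have hη2pos : 0 < η ^ 2 := by positivity
  set X := K * Real.log M / η ^ 2 + K / W with hX
  have hX1 : 0 < X := by
    have h1 : 0 ≤ K * Real.log M / η ^ 2 := by positivity
    have h2 : 0 < K / W := by positivity
    rw [hX]
    linarith
  set N := ⌈X⌉₊ with hNdef
  have hNX : X ≤ N := Nat.le_ceil X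
  have hNpos : (0:ℝ) < N := by linarith
  have hN : K * Real.log M ≤ N * η ^ 2 := by
    have h1 : K * Real.log M / η ^ 2 ≤ N := by
      have h2 : 0 < K / W := by positivity
      rw [hX] at hNX
      linarith
    rwa [div_le_iff₀ hη2pos] at h1
  have hNW : K / N ≤ W := by
    have h1 : K / W ≤ N := by
      have h2 : 0 ≤ K * Real.log M / η ^ 2 := by positivity
      rw [hX] at hNX
      linarith
    rw [div_le_iff₀ hW0] at h1
    rw [div_le_iff₀ hNpos]
    linarith
  obtain ⟨τ, hτ, hbd⟩ := sampling_bounds (μ := μ) Z σ K η M hK hKpos hσ0 hσi hZ0 hZσ hZi hZ1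
    hη0 hη1 N hM hN
  -- the normalised coordinates
  let c : Fin N → ℝ := fun k => (1 / σ (τ k.1)) ^ (1 / p)
  have hσk : ∀ k : Fin N, 0 < σ (τ k.1) := fun k => hτ k.1 k.2
  have hcnn : ∀ k, 0 ≤ c k := fun k => Real.rpow_nonneg (by have := hσk k; positivity) _
  have hcp : ∀ k, c k ^ p = 1 / σ (τ k.1) := by
    intro k
    simp only [c]
    rw [← Real.rpow_mul (by have := hσk k; positivity), one_div_mul_cancel hp0.ne', Real.rpow_one]
  let f : Fin N → Fin n → ℝ := fun k a => c k * h a (τ k.1)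
  have hren : ∀ k, ren δ p (f k) = 1 / Lam p := by
    intro k
    have h1 : f k = fun a => c k * (fun a => h a (τ k.1)) a := rfl
    rw [h1, ren_smul δ p hp0 (c k) (hcnn k), hcp k]
    have h2 := hσk k
    simp only [σ] at h2 ⊢
    have h3 : ren δ p (fun a => h a (τ k.1)) ≠ 0 := by
      intro h4
      rw [h4, mul_zero] at h2
      exact lt_irrefl _ h2
    field_simp
  have hG : ∀ k, Gd δ p (f k) := by
    intro k
    refine ⟨fun a b hab => ?_, le_of_eq (hren k)⟩
    simp only [f]
    rw [hzero a b hab]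
  have hfabs : ∀ k a b, |f k a - f k b| ^ p = (1 / σ (τ k.1)) * |h a (τ k.1) - h b (τ k.1)| ^ p := by
    intro k a b
    simp only [f]
    rw [← mul_sub, abs_mul, Real.mul_rpow (abs_nonneg _) (abs_nonneg _),
      abs_of_nonneg (hcnn k), hcp k]
  set w₀ := K / N with hw₀
  have hw₀pos : 0 < w₀ := by positivity
  have hNN : ∀ a b, (1 - ε / 8) * δ a b ^ p ≤ w₀ * ∑ k, |f k a - f k b| ^ p ∧
      w₀ * ∑ k, |f k a - f k b| ^ p ≤ (1 + ε / 8) * δ a b ^ p := by
    intro a b
    by_cases hab : 0 < δ a b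
    · obtain ⟨hl, hu⟩ := hbd ⟨(a, b), hab⟩
      have hdp : 0 < δ a b ^ p := Real.rpow_pos_of_pos hab _
      have hsum : ∑ k ∈ Finset.range N, K * Z ⟨(a, b), hab⟩ (τ k) / σ (τ k)
          = K / δ a b ^ p * ∑ k, |f k a - f k b| ^ p := by
        rw [Finset.sum_range, Finset.mul_sum]
        refine Finset.sum_congr rfl (fun k _ => ?_)
        rw [hfabs k a b]
        simp only [Z]
        have := hσk k
        field_simp
      rw [hsum] at hl hu
      have heq : w₀ * ∑ k, |f k a - f k b| ^ p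
          = (K / δ a b ^ p * ∑ k, |f k a - f k b| ^ p) * (δ a b ^ p / N) := by
        rw [hw₀]
        field_simp
      rw [heq]
      have hcoef : 0 ≤ δ a b ^ p / N := by positivity
      constructor
      · have h1 := mul_le_mul_of_nonneg_right hl hcoef
        refine le_trans (le_of_eq ?_) h1
        rw [hη]
        field_simp
        ring
      · have h1 := mul_le_mul_of_nonneg_right hu hcoef
        refine le_trans h1 (le_of_eq ?_)
        rw [hη]
        field_simp
        ring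
    · have hz : δ a b = 0 := le_antisymm (not_lt.mp hab) (hδ0 a b)
      have h0 : ∀ k, |f k a - f k b| ^ p = 0 := by
        intro k
        have : f k a = f k b := by
          simp only [f]
          rw [hzero a b hz]
        rw [this, sub_self, abs_zero, Real.zero_rpow hp0.ne']
      simp [h0, hz, Real.zero_rpow hp0.ne']
  obtain ⟨d, y, hd, hy⟩ := reduce_finite p hp δ hPM ε hε hε1 f hG hren w₀ hw₀pos hNW hNN
  rw [Fintype.card_fin] at hd
  exact ⟨d, y, hd, hy⟩

end Stage12

end Vale.Agent.Lib.P249
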