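import Mathlib
import Vale.Agent.Lib.P249.Stage12

open MeasureTheory

namespace Vale.Agent.Lib.P249

section Sharp

set_option linter.unusedSectionVars false

lemma Lstar_le_log (p ε₁ : ℝ) (hp : 1 ≤ p) (hε : 0 < ε₁) (hε1 : ε₁ ≤ 1) :
    Lstar p ε₁ ≤ Astar p * (1 + Real.log (1 / ε₁)) := by
  have hp0 : 0 < p := by linarith
  set u := 1 / ε₁ with hu
  have hu1 : 1 ≤ u := by
    rw [hu, le_div_iff₀ hε]
    linarith
  have hu0 : 0 < u := by linarith
  set lu := Real.log u with hlu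
  have hlu0 : 0 ≤ lu := Real.log_nonneg hu1
  have hC := Cp_pos p hp
  have hlC := log_Cp_nonneg p hp
  have hZ : Zz p ε₁ = 256 * Cp p * u := by
    unfold Zz
    rw [hu]
    ring
  have hlogZ : Real.log (Zz p ε₁) = Real.log (256 * Cp p) + lu := by
    rw [hZ, Real.log_mul (by positivity) (by positivity)]
  have hlog2 : (1:ℝ) / 2 ≤ Real.log 2 := by
    have := Real.log_two_gt_d9
    linarith
  have hlogb : Real.logb 2 (Zz p ε₁) ≤ 2 * (Real.log (256 * Cp p) + lu) := by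
    unfold Real.logb
    rw [hlogZ, div_le_iff₀ (by linarith)]
    nlinarith
  set D := 4 * p * (2 * Real.log (256 * Cp p) + 5) + 68 * p + 9 with hD
  have hD0 : 0 ≤ D := by positivity
  have hPi : (Pie p ε₁ : ℝ) ≤ D * (1 + lu) := by
    have hb : 0 ≤ 4 * p * (Real.logb 2 (Zz p ε₁) + 3) + (68 * p + 8) := by
      have := logb_Zz_nonneg p ε₁ hp hε hε1
      positivity
    have h1 : (Pie p ε₁ : ℝ) < 4 * p * (Real.logb 2 (Zz p ε₁) + 3) + (68 * p + 8) + 1 :=
      Nat.ceil_lt_add_one hb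
    have h2 : 4 * p * (Real.logb 2 (Zz p ε₁) + 3)
        ≤ 4 * p * (2 * (Real.log (256 * Cp p) + lu) + 3) :=
      mul_le_mul_of_nonneg_left (by linarith) (by positivity)
    have h3 : D * (1 + lu) = D + D * lu := by ring
    have h4 : (4 * p * 5) * lu ≤ D * lu := by
      apply mul_le_mul_of_nonneg_right _ hlu0
      rw [hD]
      have h5 : 0 ≤ 4 * p * (2 * Real.log (256 * Cp p)) := by positivity
      nlinarith
    rw [h3]
    have h6 : 0 ≤ p * lu := by positivity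
    rw [hD] at h4 ⊢
    nlinarith
  have hP2 : (0:ℝ) ≤ P2 p := by positivity
  have hCc : (0:ℝ) ≤ Cc p := by positivity
  set K := 1 + 6 + 2 * (P2 p : ℝ) + (1 + 5 * (Cc p : ℝ) + 2 * (Cc p : ℝ) * p + 10 + 4 * p) + 6
    with hK
  have hK0 : 0 ≤ K := by positivity
  have hY : Ybar (Pie p ε₁) p (P2 p) (Cc p) = (8 + 2 ^ P2 p) * (Pie p ε₁ : ℝ) + K := by
    unfold Ybar
    rw [hK]
    ring
  have hlog4 : Real.log (4 / (ε₁ ^ 2 / 256)) ≤ 7 + 2 * lu := by
    have h1 : 4 / (ε₁ ^ 2 / 256) = 1024 * u ^ 2 := by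
      rw [hu]
      field_simp
      norm_num
    rw [h1, Real.log_mul (by norm_num) (by positivity), Real.log_pow]
    have h2 : Real.log 1024 ≤ 7 := by
      have h3 : (1024:ℝ) = 2 ^ 10 := by norm_num
      rw [h3, Real.log_pow]
      have := Real.log_two_lt_d9
      push_cast
      linarith
    push_cast
    linarith
  have hA : Astar p = 512 * ((8 + 2 ^ P2 p) * D + K + 10) := by
    unfold Astar
    rw [← hD, ← hK]
  rw [hA]
  unfold Lstar
  rw [hY]
  have h8 : (0:ℝ) < 8 + 2 ^ P2 p := by positivity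
  have h5 := mul_le_mul_of_nonneg_left hPi h8.le
  have h6 : K ≤ K * (1 + lu) := by nlinarith
  have h7 : 0 ≤ ((8 + 2 ^ P2 p) * D) * lu := by positivity
  nlinarith

lemma log_bracket_pos (ε₁ : ℝ) (hε : 0 < ε₁) (hε1 : ε₁ ≤ 1) : 1 ≤ 1 + Real.log (1 / ε₁) := by
  have h1 : 0 ≤ Real.log (1 / ε₁) := by
    apply Real.log_nonneg
    rw [le_div_iff₀ hε]
    linarith
  linarith

variable {V : Type*} [Fintype V] [LinearOrder V]

/-- one halving stage, in the sharp form -/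
theorem stage_sharp {T : Type*} [Fintype T] (p : ℝ) (hp : 2 ≤ p) (δ : V → V → ℝ) (hδ : PM δ)
    (ε₁ : ℝ) (hε : 0 < ε₁) (hε1 : ε₁ ≤ 1)
    (f : T → V → ℝ) (hG : ∀ t, Gd δ p (f t)) (w : ℝ) (hw : 0 < w)
    (hwle : w ≤ ε₁ ^ 2 / (Astar p * (1 + Real.log (1 / ε₁))))
    (hN : ∀ x y, w * ∑ t, |f t x - f t y| ^ p ≤ 2 * δ x y ^ p) :
    ∃ ζ : T → ℝ, (∀ t, ζ t = 1 ∨ ζ t = -1) ∧
      ∀ x y, |w * ∑ t, ζ t * |f t x - f t y| ^ p| ≤ 832 * ε₁ * δ x y ^ p := by
  have hp1 : 1 ≤ p := by linarith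
  have hP := PP_Pie p ε₁ hp hε hε1
  have hA := Astar_pos p hp1
  have hL := Lstar_pos p ε₁ hp1 hε hε1
  have hLle := Lstar_le_log p ε₁ hp1 hε hε1
  have hb := log_bracket_pos ε₁ hε hε1
  refine stage_core hδ hP (P2 p) (Cc p) (Nat.le_ceil p) (Cp_le_four_pow p) ε₁ hε hε1
    (sum_Dv_le p ε₁ hp1 hε hε1) f hG w hw ?_ hN
  have h1 : Lstar p ε₁ ≤ ε₁ ^ 2 / w := by
    rw [le_div_iff₀ hw]
    have hpos : 0 < Astar p * (1 + Real.log (1 / ε₁)) := by positivity
    rw [le_div_iff₀ hpos] at hwle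
    nlinarith [mul_le_mul_of_nonneg_left hLle hw.le]
  unfold Lstar at h1
  linarith

variable {T : Type*} [DecidableEq T]

/-- one halving step on a subset of the coordinates, in the sharp form -/
lemma halve_step_sharp (p : ℝ) (hp : 2 ≤ p) (δ : V → V → ℝ) (hδ : PM δ)
    (ε₁ : ℝ) (hε : 0 < ε₁) (hε1 : ε₁ ≤ 1)
    (f : T → V → ℝ) (hG : ∀ t, Gd δ p (f t)) (S : Finset T) (w : ℝ) (hw : 0 < w)
    (hwle : w ≤ ε₁ ^ 2 / (Astar p * (1 + Real.log (1 / ε₁))))
    (hN : ∀ x y, w * ∑ t ∈ S, |f t x - f t y| ^ p ≤ 2 * δ x y ^ p) :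
    ∃ S' ⊆ S, ∀ x y, |(2 * w) * ∑ t ∈ S', |f t x - f t y| ^ p - w * ∑ t ∈ S, |f t x - f t y| ^ p|
      ≤ 832 * ε₁ * δ x y ^ p := by
  classical
  obtain ⟨ζ, hζ, hζb⟩ := stage_sharp (T := S) p hp δ hδ ε₁ hε hε1 (fun t => f t.1)
    (fun t => hG t.1) w hw hwle (fun x y => by
      have h1 := hN x y
      rwa [← Finset.sum_coe_sort S] at h1)
  set A := (Finset.univ : Finset S).filter (fun t => ζ t = 1) with hA
  refine ⟨A.image Subtype.val, ?_, fun x y => ?_⟩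
  · intro t ht
    rw [Finset.mem_image] at ht
    obtain ⟨s, _, rfl⟩ := ht
    exact s.2
  · have h1 := hζb x y
    set g : S → ℝ := fun t => |f t.1 x - f t.1 y| ^ p with hg
    have h2 : ∑ t ∈ A.image Subtype.val, |f t x - f t y| ^ p = ∑ t ∈ A, g t := by
      rw [Finset.sum_image (fun a _ b _ hab => Subtype.ext hab)]
    have h3 : ∑ t ∈ S, |f t x - f t y| ^ p = ∑ t : S, g t := by
      rw [← Finset.sum_coe_sort S]
    have h4 : ∑ t, ζ t * g t = 2 * ∑ t ∈ A, g t - ∑ t : S, g t := by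
      have h5 := Finset.sum_filter_add_sum_filter_not (Finset.univ : Finset S)
        (fun t => ζ t = 1) g
      have h6 := Finset.sum_filter_add_sum_filter_not (Finset.univ : Finset S)
        (fun t => ζ t = 1) (fun t => ζ t * g t)
      have h7 : ∑ t ∈ (Finset.univ : Finset S).filter (fun t => ζ t = 1), ζ t * g t
          = ∑ t ∈ A, g t := by
        refine Finset.sum_congr rfl (fun t ht => ?_)
        rw [(Finset.mem_filter.mp ht).2, one_mul]
      have h8 : ∑ t ∈ (Finset.univ : Finset S).filter (fun t => ¬ ζ t = 1), ζ t * g t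
          = -∑ t ∈ (Finset.univ : Finset S).filter (fun t => ¬ ζ t = 1), g t := by
        rw [← Finset.sum_neg_distrib]
        refine Finset.sum_congr rfl (fun t ht => ?_)
        rcases hζ t with h9 | h9
        · exact absurd h9 (Finset.mem_filter.mp ht).2
        · rw [h9]
          ring
      rw [← h6, h7, h8, ← h5, ← hA]
      ring
    rw [h2, h3]
    have h5 : (2 * w) * ∑ t ∈ A, g t - w * ∑ t : S, g t = w * ∑ t, ζ t * g t := by
      rw [h4]
      ring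
    rw [h5]
    exact h1

/-- the accumulated error in the sharp form -/
noncomputable def err3 (j : ℕ) : ℝ := ∑ k ∈ Finset.range j, ((3:ℝ) / 4) ^ (k + 1)

lemma err3_nonneg (j : ℕ) : 0 ≤ err3 j := by
  unfold err3
  positivity

lemma err3_succ (j : ℕ) : err3 (j + 1) = err3 j + ((3:ℝ) / 4) ^ (j + 1) := by
  unfold err3
  rw [Finset.sum_range_succ]

lemma err3_le (j : ℕ) : err3 j ≤ 3 := by
  have h1 : ∀ m : ℕ, err3 m ≤ 3 - 3 * ((3:ℝ) / 4) ^ m := by
    intro m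
    induction m with
    | zero =>
      simp [err3]
    | succ m ih =>
      rw [err3_succ]
      have h3 : ((3:ℝ) / 4) ^ (m + 1) = (3 / 4) * (3 / 4) ^ m := by
        rw [pow_succ]
        ring
      rw [h3]
      have h4 : (0:ℝ) < (3 / 4) ^ m := by positivity
      linarith
  have h2 := h1 j
  have h3 : (0:ℝ) < (3 / 4) ^ j := by positivity
  linarith

/-- the weight is small enough at each stage -/
lemma weight_stage (A ε₂ w : ℝ) (hA : 0 < A) (hε : 0 < ε₂) (hε1 : ε₂ ≤ 1) (hw : 0 < w) (j : ℕ)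
    (hwle : w * 2 ^ (j + 1) ≤ ε₂ ^ 2 / (8 * A * (1 + Real.log (1 / ε₂)))) :
    w ≤ (ε₂ * (3 / 4) ^ (j + 1)) ^ 2 /
      (A * (1 + Real.log (1 / (ε₂ * (3 / 4) ^ (j + 1))))) := by
  set a := Real.log (1 / ε₂) with ha
  have ha0 : 0 ≤ a := by
    apply Real.log_nonneg
    rw [le_div_iff₀ hε]
    linarith
  set m := j + 1 with hm
  have hθ : (0:ℝ) < (3 / 4) ^ m := by positivity
  have hlog : Real.log (1 / (ε₂ * (3 / 4) ^ m)) ≤ a + m := by
    have h1 : 1 / (ε₂ * (3 / 4) ^ m) = (1 / ε₂) * (4 / 3) ^ m := by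
      have : ((4:ℝ) / 3) ^ m = 1 / (3 / 4) ^ m := by
        rw [div_pow, div_pow, one_div_div]
      rw [this]
      field_simp
    rw [h1, Real.log_mul (by positivity) (by positivity), Real.log_pow]
    have h2 : Real.log (4 / 3) ≤ 1 := by
      have := Real.log_le_sub_one_of_pos (by norm_num : (0:ℝ) < 4 / 3)
      linarith
    have h3 : (m : ℝ) * Real.log (4 / 3) ≤ m * 1 :=
      mul_le_mul_of_nonneg_left h2 (by positivity)
    linarith
  have hmr : (0:ℝ) ≤ m := by positivity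
  have hbr : 1 + Real.log (1 / (ε₂ * (3 / 4) ^ m)) ≤ (1 + a) * (1 + m) := by
    nlinarith [mul_nonneg ha0 hmr]
  have hbr0 : 0 < 1 + Real.log (1 / (ε₂ * (3 / 4) ^ m)) := by
    have h1 : 0 ≤ Real.log (1 / (ε₂ * (3 / 4) ^ m)) := by
      apply Real.log_nonneg
      rw [le_div_iff₀ (by positivity)]
      have h2 : ((3:ℝ) / 4) ^ m ≤ 1 := pow_le_one₀ (by norm_num) (by norm_num)
      nlinarith
    linarith
  have hbern : 1 + (m : ℝ) ≤ 8 * (9 / 8) ^ m := by
    have h1 := one_add_mul_le_pow (by norm_num : (-2:ℝ) ≤ 1 / 8) m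
    have h2 : (1 + (1 / 8 : ℝ)) = 9 / 8 := by norm_num
    rw [h2] at h1
    nlinarith
  rw [le_div_iff₀ (by positivity)]
  have hpos : 0 < 8 * A * (1 + a) := by positivity
  rw [le_div_iff₀ hpos] at hwle
  have hkey : (ε₂ * (3 / 4) ^ m) ^ 2 * 2 ^ m = ε₂ ^ 2 * (9 / 8) ^ m := by
    have : ((9:ℝ) / 8) ^ m = ((3 / 4) ^ m) ^ 2 * 2 ^ m := by
      rw [← pow_mul, mul_comm m 2, pow_mul, ← mul_pow]
      norm_num
    rw [this]
    ring
  have h2m : (0:ℝ) < 2 ^ m := by positivity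
  have h98 : (0:ℝ) < (9 / 8) ^ m := by positivity
  -- multiply everything by the power of two
  have hgoal : w * (A * (1 + Real.log (1 / (ε₂ * (3 / 4) ^ m)))) * 2 ^ m
      ≤ (ε₂ * (3 / 4) ^ m) ^ 2 * 2 ^ m := by
    rw [hkey]
    have h3 : w * (A * (1 + Real.log (1 / (ε₂ * (3 / 4) ^ m)))) * 2 ^ m
        ≤ w * (A * ((1 + a) * (1 + m))) * 2 ^ m := by
      apply mul_le_mul_of_nonneg_right _ h2m.le
      apply mul_le_mul_of_nonneg_left _ hw.le
      exact mul_le_mul_of_nonneg_left hbr hA.le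
    refine le_trans h3 ?_
    have h4 : w * (A * ((1 + a) * (1 + m))) * 2 ^ m
        ≤ w * (A * ((1 + a) * (8 * (9 / 8) ^ m))) * 2 ^ m := by
      apply mul_le_mul_of_nonneg_right _ h2m.le
      apply mul_le_mul_of_nonneg_left _ hw.le
      apply mul_le_mul_of_nonneg_left _ hA.le
      exact mul_le_mul_of_nonneg_left hbern (by positivity)
    refine le_trans h4 ?_
    have h5 : w * (A * ((1 + a) * (8 * (9 / 8) ^ m))) * 2 ^ m
        = (w * 2 ^ m * (8 * A * (1 + a))) * (9 / 8) ^ m := by ring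
    rw [h5]
    exact mul_le_mul_of_nonneg_right hwle h98.le
  exact le_of_mul_le_mul_right hgoal h2m

/-- the iteration of the halving step, in the sharp form -/
theorem iterate_sharp (p : ℝ) (hp : 2 ≤ p) (δ : V → V → ℝ) (hδ : PM δ)
    (f : T → V → ℝ) (hG : ∀ t, Gd δ p (f t)) (ε₂ : ℝ) (hε : 0 < ε₂) (hε1 : ε₂ ≤ 1) (j : ℕ) :
    ∀ (S : Finset T) (w : ℝ), 0 < w →
      w * 2 ^ j ≤ ε₂ ^ 2 / (8 * Astar p * (1 + Real.log (1 / ε₂))) → ∀ c : ℝ, 0 ≤ c →
      (∀ x y, (1 - c) * δ x y ^ p ≤ w * ∑ t ∈ S, |f t x - f t y| ^ p ∧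
        w * ∑ t ∈ S, |f t x - f t y| ^ p ≤ (1 + c) * δ x y ^ p) →
      c + 832 * ε₂ * err3 j ≤ 1 / 2 →
      ∃ S' ⊆ S, ∀ x y, (1 - (c + 832 * ε₂ * err3 j)) * δ x y ^ p
          ≤ (w * 2 ^ j) * ∑ t ∈ S', |f t x - f t y| ^ p ∧
        (w * 2 ^ j) * ∑ t ∈ S', |f t x - f t y| ^ p
          ≤ (1 + (c + 832 * ε₂ * err3 j)) * δ x y ^ p := by
  have hp0 : 0 < p := by linarith
  have hA := Astar_pos p (by linarith)
  induction j with
  | zero =>
    intro S w _ _ c _ hN _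
    refine ⟨S, Finset.Subset.refl _, fun x y => ?_⟩
    simpa [err3] using hN x y
  | succ j ih =>
    intro S w hw hwle c hc hN hsmall
    have herr := err3_nonneg j
    rw [err3_succ] at hsmall
    have hpowpos : (0:ℝ) < (3 / 4) ^ (j + 1) := by positivity
    set ε₁ := ε₂ * (3 / 4) ^ (j + 1) with hε₁
    have hε₁pos : 0 < ε₁ := by positivity
    have hpow1 : ((3:ℝ) / 4) ^ (j + 1) ≤ 1 := pow_le_one₀ (by norm_num) (by norm_num)
    have hε₁1 : ε₁ ≤ 1 := by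
      rw [hε₁]
      nlinarith
    have hwε : w ≤ ε₁ ^ 2 / (Astar p * (1 + Real.log (1 / ε₁))) :=
      weight_stage (Astar p) ε₂ w hA hε hε1 hw j hwle
    have hc2 : c ≤ 1 / 2 := by
      have : 0 ≤ 832 * ε₂ * (err3 j + (3 / 4) ^ (j + 1)) := by positivity
      linarith
    have hN2 : ∀ x y, w * ∑ t ∈ S, |f t x - f t y| ^ p ≤ 2 * δ x y ^ p := by
      intro x y
      have h1 := (hN x y).2
      have h2 : 0 ≤ δ x y ^ p := Real.rpow_nonneg (hδ.h0 x y) p
      nlinarith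
    obtain ⟨S₁, hS₁, hS₁b⟩ := halve_step_sharp p hp δ hδ ε₁ hε₁pos hε₁1 f hG S w hw hwε hN2
    have hc₁ : 0 ≤ c + 832 * ε₁ := by positivity
    have hN₁ : ∀ x y, (1 - (c + 832 * ε₁)) * δ x y ^ p ≤ (2 * w) * ∑ t ∈ S₁, |f t x - f t y| ^ p ∧
        (2 * w) * ∑ t ∈ S₁, |f t x - f t y| ^ p ≤ (1 + (c + 832 * ε₁)) * δ x y ^ p := by
      intro x y
      have h1 := abs_le.mp (hS₁b x y)
      have h2 := hN x y
      constructor <;> nlinarith [h1.1, h1.2, h2.1, h2.2]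
    have hwle' : (2 * w) * 2 ^ j ≤ ε₂ ^ 2 / (8 * Astar p * (1 + Real.log (1 / ε₂))) := by
      refine le_trans (le_of_eq ?_) hwle
      rw [pow_succ]
      ring
    have hsmall' : c + 832 * ε₁ + 832 * ε₂ * err3 j ≤ 1 / 2 := by
      refine le_trans (le_of_eq ?_) hsmall
      rw [hε₁]
      ring
    obtain ⟨S', hS', hS'b⟩ := ih S₁ (2 * w) (by positivity) hwle' _ hc₁ hN₁ hsmall'
    refine ⟨S', Finset.Subset.trans hS' hS₁, fun x y => ?_⟩
    have h1 := hS'b x y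
    have h2 : (2 * w) * 2 ^ j = w * 2 ^ (j + 1) := by
      rw [pow_succ]
      ring
    rw [h2] at h1
    have h3 : c + 832 * ε₁ + 832 * ε₂ * err3 j = c + 832 * ε₂ * err3 (j + 1) := by
      rw [err3_succ, hε₁]
      ring
    rw [h3] at h1
    exact h1

end Sharp

end Vale.Agent.Lib.P249
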