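import Mathlib
import Vale.Agent.Lib.P249.Sharp

open MeasureTheory

namespace Vale.Agent.Lib.P249

section Sharp2

set_option linter.unusedSectionVars false

variable {V : Type*} [Fintype V] [LinearOrder V] {T : Type*} [Fintype T] [DecidableEq T]

/-- the bracket for the constant `19968` -/
lemma bracket_le (ε : ℝ) (hε : 0 < ε) (hε1 : ε ≤ 1) :
    1 + Real.log (1 / (ε / 19968)) ≤ 12 * (1 + Real.log (1 / ε)) := by
  have h1 : 1 / (ε / 19968) = 19968 * (1 / ε) := by
    field_simp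
  rw [h1, Real.log_mul (by norm_num) (by positivity)]
  have h2 : Real.log 19968 ≤ 11 := by
    have h3 : (19968:ℝ) ≤ 2 ^ 15 := by norm_num
    have h4 := Real.log_le_log (by norm_num) h3
    rw [Real.log_pow] at h4
    have h5 := Real.log_two_lt_d9
    push_cast at h4
    linarith
  have h6 : 0 ≤ Real.log (1 / ε) := by
    apply Real.log_nonneg
    rw [le_div_iff₀ hε]
    linarith
  linarith

/-- the scaling of the last set of coordinates -/
lemma embed_tail (p : ℝ) (hp0 : 0 < p) (δ : V → V → ℝ) (hδ0 : ∀ a b, 0 ≤ δ a b)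
    (ε : ℝ) (hε : 0 < ε) (hε1 : ε ≤ 1) (f : T → V → ℝ) (S' : Finset T) (wf c' : ℝ) (hwf0 : 0 < wf)
    (hc'le : c' ≤ ε / 4)
    (hS' : ∀ x y, (1 - c') * δ x y ^ p ≤ wf * ∑ t ∈ S', |f t x - f t y| ^ p ∧
      wf * ∑ t ∈ S', |f t x - f t y| ^ p ≤ (1 + c') * δ x y ^ p) :
    ∃ y : V → Fin S'.card → ℝ, ∀ i j, δ i j ^ p ≤ ∑ k, |y i k - y j k| ^ p ∧
      ∑ k, |y i k - y j k| ^ p ≤ (1 + ε) * δ i j ^ p := by
  set e := S'.equivFin with he
  have hq : 0 < 1 - ε / 4 := by linarith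
  set a := wf / (1 - ε / 4) with ha
  have ha0 : 0 < a := by positivity
  let y : V → Fin S'.card → ℝ := fun i k => a ^ (1 / p) * f (e.symm k).1 i
  have hyabs : ∀ i j k, |y i k - y j k| ^ p = a * |f (e.symm k).1 i - f (e.symm k).1 j| ^ p := by
    intro i j k
    simp only [y]
    rw [← mul_sub, abs_mul, Real.mul_rpow (abs_nonneg _) (abs_nonneg _),
      abs_of_nonneg (Real.rpow_nonneg ha0.le _), ← Real.rpow_mul ha0.le,
      one_div_mul_cancel hp0.ne', Real.rpow_one]
  have hysum : ∀ i j, ∑ k, |y i k - y j k| ^ p = a * ∑ t ∈ S', |f t i - f t j| ^ p := by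
    intro i j
    rw [Finset.mul_sum, ← Finset.sum_coe_sort S']
    rw [← Equiv.sum_comp e.symm]
    exact Finset.sum_congr rfl (fun k _ => hyabs i j k)
  refine ⟨y, fun i j => ?_⟩
  rw [hysum]
  obtain ⟨h1, h2⟩ := hS' i j
  have hdp : 0 ≤ δ i j ^ p := Real.rpow_nonneg (hδ0 i j) p
  have haeq : a * ∑ t ∈ S', |f t i - f t j| ^ p
      = (wf * ∑ t ∈ S', |f t i - f t j| ^ p) / (1 - ε / 4) := by
    rw [ha]
    ring
  rw [haeq]
  constructor
  · rw [le_div_iff₀ hq]
    nlinarith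
  · rw [div_le_iff₀ hq]
    have h3 : (1 + c') * δ i j ^ p ≤ (1 + ε / 4) * δ i j ^ p :=
      mul_le_mul_of_nonneg_right (by linarith) hdp
    have h4 : (1 + ε / 4) ≤ (1 + ε) * (1 - ε / 4) := by nlinarith
    have h5 := mul_le_mul_of_nonneg_right h4 hdp
    nlinarith

/-- the arithmetic of the final count -/
lemma card_tail (L A ε : ℝ) (hL : 0 < L) (hA : 0 < A) (hε : 0 < ε) (hε1 : ε ≤ 1) (card V₀ wf : ℝ)
    (hcard : 0 ≤ card) (hV : 0 ≤ V₀) (hwf : 0 < wf)
    (hsize : wf * (card * (1 / L)) ≤ 4 * V₀)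
    (hWwf : (ε / 19968) ^ 2 / (8 * A * (1 + Real.log (1 / (ε / 19968)))) < 2 * wf) :
    card ≤ 768 * L * A * 19968 ^ 2 * (1 + Real.log (1 / ε)) / ε ^ 2 * V₀ := by
  have hε₂0 : 0 < ε / 19968 := by positivity
  have hε₂1 : ε / 19968 ≤ 1 := by
    rw [div_le_one (by norm_num)]
    linarith
  have hbr := log_bracket_pos _ hε₂0 hε₂1
  have hb12 := bracket_le ε hε hε1
  have hbr1 := log_bracket_pos ε hε hε1
  set B := 1 + Real.log (1 / (ε / 19968)) with hB
  set B' := 1 + Real.log (1 / ε) with hB'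
  have hB0 : 0 < B := by linarith
  have h1 : wf * card ≤ 4 * V₀ * L := by
    have h2 : wf * (card * (1 / L)) * L = wf * card := by
      field_simp
    rw [← h2]
    exact mul_le_mul_of_nonneg_right hsize hL.le
  set W := (ε / 19968) ^ 2 / (8 * A * B) with hW
  have hW0 : 0 < W := by positivity
  have h2 : W * card ≤ 8 * V₀ * L := by
    nlinarith [mul_le_mul_of_nonneg_right hWwf.le hcard]
  have h3 : card = (W * card) / W := by
    field_simp
  rw [h3, div_le_iff₀ hW0]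
  refine le_trans h2 ?_
  have h4 : 768 * L * A * 19968 ^ 2 * B' / ε ^ 2 * V₀ * W = 8 * V₀ * L * ((12 * B') / B) := by
    rw [hW]
    field_simp
    ring
  rw [h4]
  have h5 : 1 ≤ (12 * B') / B := by
    rw [le_div_iff₀ hB0]
    linarith
  have h6 : 0 ≤ 8 * V₀ * L := by positivity
  nlinarith

/-- the combinatorial reduction, in the sharp form -/
theorem reduce_finite_sharp (p : ℝ) (hp : 2 ≤ p) (δ : V → V → ℝ) (hδ : PM δ)
    (ε : ℝ) (hε : 0 < ε) (hε1 : ε ≤ 1)
    (f : T → V → ℝ) (hG : ∀ t, Gd δ p (f t)) (hren : ∀ t, ren δ p (f t) = 1 / Lam p)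
    (w₀ : ℝ) (hw₀ : 0 < w₀)
    (hw₀le : w₀ ≤ (ε / 19968) ^ 2 / (8 * Astar p * (1 + Real.log (1 / (ε / 19968)))))
    (hN : ∀ x y, (1 - ε / 8) * δ x y ^ p ≤ w₀ * ∑ t, |f t x - f t y| ^ p ∧
      w₀ * ∑ t, |f t x - f t y| ^ p ≤ (1 + ε / 8) * δ x y ^ p) :
    ∃ (d : ℕ) (y : V → Fin d → ℝ),
      (d : ℝ) ≤ 768 * Lam p * Astar p * 19968 ^ 2 * (1 + Real.log (1 / ε)) / ε ^ 2
        * (Fintype.card V : ℝ) ∧
      ∀ i j, δ i j ^ p ≤ ∑ k, |y i k - y j k| ^ p ∧
        ∑ k, |y i k - y j k| ^ p ≤ (1 + ε) * δ i j ^ p := by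
  have hp1 : 1 ≤ p := by linarith
  have hp0 : 0 < p := by linarith
  have hA := Astar_pos p hp1
  have hLam := Lam_pos p hp1
  have hε₂0 : 0 < ε / 19968 := by positivity
  have hε₂1 : ε / 19968 ≤ 1 := by
    rw [div_le_one (by norm_num)]
    linarith
  have hbr := log_bracket_pos _ hε₂0 hε₂1
  have hW0 : 0 < (ε / 19968) ^ 2 / (8 * Astar p * (1 + Real.log (1 / (ε / 19968)))) := by positivity
  -- the number of stages
  obtain ⟨j, hj1, hj2⟩ := exists_nat_pow_near
    (x := (ε / 19968) ^ 2 / (8 * Astar p * (1 + Real.log (1 / (ε / 19968)))) / w₀) (y := (2:ℝ))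
    (by rw [le_div_iff₀ hw₀]; linarith) (by norm_num)
  have hj1' : w₀ * 2 ^ j ≤ (ε / 19968) ^ 2 / (8 * Astar p * (1 + Real.log (1 / (ε / 19968)))) := by
    rw [le_div_iff₀ hw₀] at hj1
    linarith
  have hj2' : (ε / 19968) ^ 2 / (8 * Astar p * (1 + Real.log (1 / (ε / 19968))))
      < w₀ * 2 ^ (j + 1) := by
    rw [div_lt_iff₀ hw₀] at hj2
    linarith
  have herr := err3_le j
  have herr0 := err3_nonneg j
  have hc'le : ε / 8 + 832 * (ε / 19968) * err3 j ≤ ε / 4 := by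
    have : 832 * (ε / 19968) * err3 j ≤ 832 * (ε / 19968) * 3 :=
      mul_le_mul_of_nonneg_left herr (by positivity)
    linarith
  obtain ⟨S', _, hS'⟩ := iterate_sharp p hp δ hδ f hG (ε / 19968) hε₂0 hε₂1 j Finset.univ w₀ hw₀ hj1'
    (ε / 8) (by positivity) hN (by linarith)
  have hwf0 : 0 < w₀ * 2 ^ j := by positivity
  have hWwf : (ε / 19968) ^ 2 / (8 * Astar p * (1 + Real.log (1 / (ε / 19968))))
      < 2 * (w₀ * 2 ^ j) := by
    refine lt_of_lt_of_le hj2' (le_of_eq ?_)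
    rw [pow_succ]
    ring
  -- the size
  have hup : ∀ x y, (w₀ * 2 ^ j) * ∑ t ∈ S', |f t x - f t y| ^ p ≤ 2 * δ x y ^ p := by
    intro x y
    have h1 := (hS' x y).2
    have h2 : 0 ≤ δ x y ^ p := Real.rpow_nonneg (hδ.h0 x y) p
    have h3 : (1 + (ε / 8 + 832 * (ε / 19968) * err3 j)) * δ x y ^ p ≤ 2 * δ x y ^ p :=
      mul_le_mul_of_nonneg_right (by linarith) h2
    linarith
  have hsize := size_bound p hp δ hδ f hG hren S' _ hwf0 hup
  obtain ⟨y, hy⟩ := embed_tail p hp0 δ hδ.h0 ε hε hε1 f S' _ _ hwf0 hc'le hS'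
  exact ⟨S'.card, y, card_tail (Lam p) (Astar p) ε hLam hA hε hε1 _ _ _ (by positivity) (by positivity)
    hwf0 hsize hWwf, hy⟩

variable {Ω : Type*} [MeasurableSpace Ω] {μ : Measure Ω}

/-- The main bound for `p` at least two, with the sharper dependence on `ε`. -/
theorem main_sharp (p : ℝ) (hp : 2 ≤ p) (ε : ℝ) (hε : 0 < ε) (hε1 : ε ≤ 1)
    (n : ℕ) (hn : 2 ≤ n) (x : Fin n → Lp ℝ (ENNReal.ofReal p) μ) :
    ∃ (d : ℕ) (y : Fin n → Fin d → ℝ),
      (d : ℝ) ≤ 768 * Lam p * Astar p * 19968 ^ 2 * (1 + Real.log (1 / ε)) / ε ^ 2 * (n : ℝ) ∧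
      ∀ i j, ‖x i - x j‖ ^ p ≤ ∑ k, |y i k - y j k| ^ p ∧
        ∑ k, |y i k - y j k| ^ p ≤ (1 + ε) * ‖x i - x j‖ ^ p := by
  classical
  have hp1 : 1 ≤ p := by linarith
  have hp0 : 0 < p := by linarith
  have : Fact (1 ≤ ENNReal.ofReal p) := ⟨by simpa using ENNReal.ofReal_le_ofReal hp1⟩
  have hnR : (2:ℝ) ≤ n := by exact_mod_cast hn
  let δ : Fin n → Fin n → ℝ := fun a b => ‖x a - x b‖
  let h : Fin n → Ω → ℝ := fun a t => x a t
  have hδ0 : ∀ a b, 0 ≤ δ a b := fun a b => norm_nonneg _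
  have hδs : ∀ a b, δ a b = δ b a := fun a b => norm_sub_rev _ _
  have hδt : ∀ a b c, δ a c ≤ δ a b + δ b c := fun a b c => norm_sub_le_norm_sub_add_norm_sub _ _ _
  have hδr : ∀ a, δ a a = 0 := fun a => by simp [δ]
  have hPM : PM δ := ⟨hδ0, hδs, hδt, hδr⟩
  have hzero : ∀ a b, δ a b = 0 → ∀ t, h a t = h b t := by
    intro a b hab t
    have : x a = x b := sub_eq_zero.mp (norm_eq_zero.mp hab)
    simp only [h, this]
  have hint : ∀ a b, Integrable (fun t => |h a t - h b t| ^ p) μ :=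
    fun a b => lp_integrable p hp1 (x a) (x b)
  have hval : ∀ a b, ∫ t, |h a t - h b t| ^ p ∂μ = δ a b ^ p :=
    fun a b => lp_integral p hp1 (x a) (x b)
  have hΛ := Lam_pos p hp1
  have hA := Astar_pos p hp1
  let σ : Ω → ℝ := fun t => Lam p * ren δ p (fun a => h a t)
  have hσ0 : ∀ t, 0 ≤ σ t := fun t => mul_nonneg hΛ.le (ren_nonneg δ hδ0 p _)
  have hEi : Integrable (fun t => ren δ p (fun a => h a t)) μ := by
    unfold ren slope
    refine integrable_finsetSum _ (fun a _ => integrable_finsetSum _ (fun w _ => ?_))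
    exact ((hint a w).div_const _).const_mul _
  have hσi : Integrable σ μ := hEi.const_mul _
  have hσ : ∀ a b, 0 < δ a b → ∀ t, |h a t - h b t| ^ p ≤ δ a b ^ p * σ t := by
    intro a b hab t
    have hch := slope_le_Lam δ p hp1 (fun a => h a t) hδ0 hδs hδt hδr
      (fun a b hz => hzero a b hz t) a b
    unfold slope at hch
    have hdp : 0 < δ a b ^ p := Real.rpow_pos_of_pos hab _
    rw [div_le_iff₀ hdp] at hch
    simp only [σ]
    linarith
  by_cases hpos : ∃ a b, 0 < δ a b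
  swap
  · -- all points coincide
    push Not at hpos
    have hz : ∀ a b, δ a b = 0 := fun a b => le_antisymm (hpos a b) (hδ0 a b)
    have hlog : 0 ≤ 1 + Real.log (1 / ε) := by
      have := log_bracket_pos ε hε hε1
      linarith
    refine ⟨0, fun _ => Fin.elim0, ?_, ?_⟩
    · simp only [Nat.cast_zero]
      positivity
    · intro i j
      have h0 : ‖x i - x j‖ = 0 := hz i j
      simp [h0, Real.zero_rpow hp0.ne']
  obtain ⟨i₀, j₀, hi₀j₀⟩ := hpos
  let ι := {e : Fin n × Fin n // 0 < δ e.1 e.2}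
  let Z : ι → Ω → ℝ := fun e t => |h e.1.1 t - h e.1.2 t| ^ p / δ e.1.1 e.1.2 ^ p
  have hdpos : ∀ e : ι, 0 < δ e.1.1 e.1.2 ^ p := fun e => Real.rpow_pos_of_pos e.2 _
  have hZ0 : ∀ e t, 0 ≤ Z e t := fun e t =>
    div_nonneg (Real.rpow_nonneg (abs_nonneg _) _) (hdpos e).le
  have hZσ : ∀ e t, Z e t ≤ σ t := by
    intro e t
    simp only [Z]
    rw [div_le_iff₀ (hdpos e), mul_comm]
    exact hσ _ _ e.2 t
  have hZi : ∀ e, Integrable (Z e) μ := fun e => (hint _ _).div_const _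
  have hZ1 : ∀ e, ∫ t, Z e t ∂μ = 1 := by
    intro e
    simp only [Z]
    rw [integral_div, hval]
    exact div_self (hdpos e).ne'
  set K := ∫ t, σ t ∂μ with hK
  have hK1 : 1 ≤ K := by
    have := hZ1 ⟨(i₀, j₀), hi₀j₀⟩
    rw [← this]
    exact integral_mono (hZi _) hσi (fun t => hZσ _ t)
  have hKpos : 0 < K := by linarith
  set η := ε / 16 with hη
  have hη0 : 0 < η := by positivity
  have hη1 : η ≤ 1 := by rw [hη]; linarith
  set M : ℝ := 2 * ((n : ℝ) * n) with hMdef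
  have hM : 2 * (Fintype.card ι : ℝ) ≤ M := by
    have h1 : Fintype.card ι ≤ Fintype.card (Fin n × Fin n) := Fintype.card_subtype_le _
    rw [Fintype.card_prod, Fintype.card_fin] at h1
    have h2 : (Fintype.card ι : ℝ) ≤ (n : ℝ) * n := by exact_mod_cast h1
    rw [hMdef]
    linarith
  have hlogM : 0 ≤ Real.log M := by
    apply Real.log_nonneg
    rw [hMdef]
    nlinarith
  have hε₂0 : 0 < ε / 19968 := by positivity
  have hε₂1 : ε / 19968 ≤ 1 := by
    rw [div_le_one (by norm_num)]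
    linarith
  have hbr := log_bracket_pos _ hε₂0 hε₂1
  set W := (ε / 19968) ^ 2 / (8 * Astar p * (1 + Real.log (1 / (ε / 19968)))) with hW
  have hW0 : 0 < W := by positivity
  have hη2pos : 0 < η ^ 2 := by positivity
  set X := K * Real.log M / η ^ 2 + K / W with hX
  have hX1 : 0 < X := by
    have h1 : 0 ≤ K * Real.log M / η ^ 2 := by positivity
    have h2 : 0 < K / W := by positivity
    rw [hX]
    linarith
  set N := ⌈X⌉₊ with hNdef
  have hNX : X ≤ N := Nat.le_ceil X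
  have hNpos : (0:ℝ) < N := by linarith
  have hN : K * Real.log M ≤ N * η ^ 2 := by
    have h1 : K * Real.log M / η ^ 2 ≤ N := by
      have h2 : 0 < K / W := by positivity
      rw [hX] at hNX
      linarith
    rwa [div_le_iff₀ hη2pos] at h1
  have hNW : K / N ≤ W := by
    have h1 : K / W ≤ N := by
      have h2 : 0 ≤ K * Real.log M / η ^ 2 := by positivity
      rw [hX] at hNX
      linarith
    rw [div_le_iff₀ hW0] at h1
    rw [div_le_iff₀ hNpos]
    linarith
  obtain ⟨τ, hτ, hbd⟩ := sampling_bounds (μ := μ) Z σ K η M hK hKpos hσ0 hσi hZ0 hZσ hZi hZ1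
    hη0 hη1 N hM hN
  -- the normalised coordinates
  let c : Fin N → ℝ := fun k => (1 / σ (τ k.1)) ^ (1 / p)
  have hσk : ∀ k : Fin N, 0 < σ (τ k.1) := fun k => hτ k.1 k.2
  have hcnn : ∀ k, 0 ≤ c k := fun k => Real.rpow_nonneg (by have := hσk k; positivity) _
  have hcp : ∀ k, c k ^ p = 1 / σ (τ k.1) := by
    intro k
    simp only [c]
    rw [← Real.rpow_mul (by have := hσk k; positivity), one_div_mul_cancel hp0.ne', Real.rpow_one]
  let f : Fin N → Fin n → ℝ := fun k a => c k * h a (τ k.1)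
  have hren : ∀ k, ren δ p (f k) = 1 / Lam p := by
    intro k
    have h1 : f k = fun a => c k * (fun a => h a (τ k.1)) a := rfl
    rw [h1, ren_smul δ p hp0 (c k) (hcnn k), hcp k]
    have h2 := hσk k
    simp only [σ] at h2 ⊢
    have h3 : ren δ p (fun a => h a (τ k.1)) ≠ 0 := by
      intro h4
      rw [h4, mul_zero] at h2
      exact lt_irrefl _ h2
    field_simp
  have hG : ∀ k, Gd δ p (f k) := by
    intro k
    refine ⟨fun a b hab => ?_, le_of_eq (hren k)⟩
    simp only [f]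
    rw [hzero a b hab]
  have hfabs : ∀ k a b, |f k a - f k b| ^ p = (1 / σ (τ k.1)) * |h a (τ k.1) - h b (τ k.1)| ^ p := by
    intro k a b
    simp only [f]
    rw [← mul_sub, abs_mul, Real.mul_rpow (abs_nonneg _) (abs_nonneg _),
      abs_of_nonneg (hcnn k), hcp k]
  set w₀ := K / N with hw₀
  have hw₀pos : 0 < w₀ := by positivity
  have hNN : ∀ a b, (1 - ε / 8) * δ a b ^ p ≤ w₀ * ∑ k, |f k a - f k b| ^ p ∧
      w₀ * ∑ k, |f k a - f k b| ^ p ≤ (1 + ε / 8) * δ a b ^ p := by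
    intro a b
    by_cases hab : 0 < δ a b
    · obtain ⟨hl, hu⟩ := hbd ⟨(a, b), hab⟩
      have hdp : 0 < δ a b ^ p := Real.rpow_pos_of_pos hab _
      have hsum : ∑ k ∈ Finset.range N, K * Z ⟨(a, b), hab⟩ (τ k) / σ (τ k)
          = K / δ a b ^ p * ∑ k, |f k a - f k b| ^ p := by
        rw [Finset.sum_range, Finset.mul_sum]
        refine Finset.sum_congr rfl (fun k _ => ?_)
        rw [hfabs k a b]
        simp only [Z]
        have := hσk k
        field_simp
      rw [hsum] at hl hu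
      have heq : w₀ * ∑ k, |f k a - f k b| ^ p
          = (K / δ a b ^ p * ∑ k, |f k a - f k b| ^ p) * (δ a b ^ p / N) := by
        rw [hw₀]
        field_simp
      rw [heq]
      have hcoef : 0 ≤ δ a b ^ p / N := by positivity
      constructor
      · have h1 := mul_le_mul_of_nonneg_right hl hcoef
        refine le_trans (le_of_eq ?_) h1
        rw [hη]
        field_simp
        ring
      · have h1 := mul_le_mul_of_nonneg_right hu hcoef
        refine le_trans h1 (le_of_eq ?_)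
        rw [hη]
        field_simp
        ring
    · have hz : δ a b = 0 := le_antisymm (not_lt.mp hab) (hδ0 a b)
      have h0 : ∀ k, |f k a - f k b| ^ p = 0 := by
        intro k
        have : f k a = f k b := by
          simp only [f]
          rw [hzero a b hz]
        rw [this, sub_self, abs_zero, Real.zero_rpow hp0.ne']
      simp [h0, hz, Real.zero_rpow hp0.ne']
  obtain ⟨d, y, hd, hy⟩ := reduce_finite_sharp p hp δ hPM ε hε hε1 f hG hren w₀ hw₀pos hNW hNN
  rw [Fintype.card_fin] at hd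
  exact ⟨d, y, hd, hy⟩

end Sharp2

end Vale.Agent.Lib.P249
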